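import Mathlib

set_option autoImplicit false

/-! Row 46: the ten components, their line geometry and the list of clauses (definitions only).

Digit components `F` (lines `x`), `E` (lines `y`), `K` (lines `x + y`), `G` (lines `x + 8 y`);
alignment gates `QF, QE, QK, QG` (lines across), parity gates `U` (rows), `W` (columns). -/

namespace Crest.Agent.R046.Glue

inductive Cmp | F | E | K | G | QF | QE | QK | QG | U | W
  deriving DecidableEq

instance : Fintype Cmp where
  elems := {.F, .E, .K, .G, .QF, .QE, .QK, .QG, .U, .W}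
  complete := fun x => by cases x <;> decide

instance : Nonempty Cmp := ⟨.F⟩

/-- letters of a component (`Unit` for the gates) -/
def L : Cmp → Type
  | .F => ZMod 8 × ZMod 8
  | .E => ZMod 8 × ZMod 8 × ZMod 2
  | .K => ZMod 8 × ZMod 8
  | .G => ZMod 8
  | _ => Unit

instance instFintypeL (i : Cmp) : Fintype (L i) := by
  cases i <;> simp only [L] <;> infer_instance

instance instDecidableEqL (i : Cmp) : DecidableEq (L i) := by
  cases i <;> simp only [L] <;> infer_instance

/-- line index of a point -/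
def li : Cmp → ℤ × ℤ → ℤ
  | .F => fun v => v.1
  | .E => fun v => v.2
  | .K => fun v => v.1 + v.2
  | .G => fun v => v.1 + 8 * v.2
  | .QF => fun v => v.2
  | .QE => fun v => v.1
  | .QK => fun v => v.1
  | .QG => fun v => v.2
  | .U => fun v => v.2
  | .W => fun v => v.1

/-- position of a point on its line -/
def ti : Cmp → ℤ × ℤ → ℤ
  | .F => fun v => v.2
  | .E => fun v => v.1
  | .K => fun v => v.1
  | .G => fun v => v.2
  | .QF => fun v => v.1
  | .QE => fun v => v.2
  | .QK => fun v => v.1 + v.2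
  | .QG => fun v => v.1 + 8 * v.2
  | .U => fun v => v.1
  | .W => fun v => v.2

/-- the gate across a digit component -/
inductive Dig | F | E | K | G
  deriving DecidableEq

instance : Fintype Dig where
  elems := {.F, .E, .K, .G}
  complete := fun x => by cases x <;> decide

/-- digit component -/
def Dig.cmp : Dig → Cmp
  | .F => .F
  | .E => .E
  | .K => .K
  | .G => .G

/-- the alignment gate of a digit component -/
def Dig.gate : Dig → Cmp
  | .F => .QF
  | .E => .QE
  | .K => .QK
  | .G => .QG

/-- the label of a gate -/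
def Dig.star : (n : Dig) → L n.gate
  | .F => ()
  | .E => ()
  | .K => ()
  | .G => ()

def starU : L .U := ()
def starW : L .W := ()

/-- the pointwise relation (`s = F x`, `e = E y`, `k = K (x + y)`, `g = G (x + q y)`) -/
def Rel {q : ℕ} (s e k g : ZMod q) : Prop :=
  (k = e → g = s + e ∨ g = e ∨ s = -e) ∧ (g = s → k = s + e ∨ k = s ∨ e = -s)

/-- parity of a residue modulo 8 -/
def par : ZMod 8 →+* ZMod 2 := ZMod.castHom (by norm_num) (ZMod 2)

/-- the clauses, as implications between the predicates `Bad` -/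
structure Clauses (Bad : ∀ i : Cmp, L i → ℤ × ℤ → Prop) : Prop where
  cauchy : ∀ v (a : L .F) (b : L .E) (c : L .K), Bad .F a v → Bad .E b v → Bad .K c v →
    a.1 + b.1 = c.1
  rel : ∀ v (a : L .F) (b : L .E) (c : L .K) (d : L .G), Bad .F a v → Bad .E b v → Bad .K c v →
    Bad .G d v → Rel a.2 b.2.1 c.2 d
  okF : ∀ v (a : L .F), Bad .F a v → a.2 ≠ 0 ∧ (a.1 ≠ 0 → a.2 = a.1)
  okE : ∀ v (b : L .E), Bad .E b v → b.2.1 ≠ 0 ∧ (b.1 ≠ 0 → b.2.1 = b.1)
  okK : ∀ v (c : L .K), Bad .K c v → c.2 ≠ 0 ∧ (c.1 ≠ 0 → c.2 = c.1)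
  okG : ∀ v (d : L .G), Bad .G d v → d ≠ (0 : ZMod 8)
  parU : ∀ v (a : L .F) (b : L .E), Bad .U starU v → Bad .F a v → Bad .E b v →
    par a.1 = b.2.2
  parW : ∀ v (a : L .F) (b : L .E), Bad .W starW v → Bad .F a v → Bad .E b v →
    par a.1 ≠ b.2.2
  align : ∀ (n : Dig) v (a : L n.cmp), Bad n.gate n.star v → Bad n.cmp a v → False

theorem li_gate (n : Dig) (v : ℤ × ℤ) : li n.gate v = ti n.cmp v := by cases n <;> rfl

theorem ti_gate (n : Dig) (v : ℤ × ℤ) : ti n.gate v = li n.cmp v := by cases n <;> rfl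

end Crest.Agent.R046.Glue
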