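import Crest.Agent.R046.Exact
import Crest.Agent.R046.Clauses

/-! Row 46: hole alignment and cells (helper229, note 8170): the forced facts of the ten components
and the clauses contradict periodicity (`false_of_forced`). -/

set_option autoImplicit false

namespace Crest.Agent.R046.Glue

open Function

/-- the gating components -/
def IsGate : Cmp → Prop
  | .F => False
  | .E => False
  | .K => False
  | .G => False
  | .QF => True
  | .QE => True
  | .QK => True
  | .QG => True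
  | .U => True
  | .W => True

/-- all moduli: `p i` and `r i a` -/
def modul (p : Cmp → ℕ) (r : ∀ i, L i → ℕ) : (Σ i, Option (L i)) → ℕ
  | ⟨i, none⟩ => p i
  | ⟨i, some a⟩ => r i a

/-! ### geometry -/

theorem li_add (i : Cmp) (v w : ℤ × ℤ) : li i (v + w) = li i v + li i w := by
  cases i <;> simp only [li, Prod.fst_add, Prod.snd_add] <;> ring

theorem ti_add (i : Cmp) (v w : ℤ × ℤ) : ti i (v + w) = ti i v + ti i w := by
  cases i <;> simp only [ti, Prod.fst_add, Prod.snd_add] <;> ring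

theorem li_smul (i : Cmp) (n : ℤ) (v : ℤ × ℤ) : li i (n • v) = n * li i v := by
  cases i <;> simp only [li, Prod.smul_fst, Prod.smul_snd, smul_eq_mul] <;> ring

theorem ti_smul (i : Cmp) (n : ℤ) (v : ℤ × ℤ) : ti i (n • v) = n * ti i v := by
  cases i <;> simp only [ti, Prod.smul_fst, Prod.smul_snd, smul_eq_mul] <;> ring

theorem exists_pt (i : Cmp) (l t : ℤ) : ∃ v, li i v = l ∧ ti i v = t := by
  cases i
  · exact ⟨(l, t), rfl, rfl⟩
  · exact ⟨(t, l), rfl, rfl⟩
  · exact ⟨(t, l - t), by simp [li], rfl⟩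
  · exact ⟨(l - 8 * t, t), by simp [li], rfl⟩
  · exact ⟨(t, l), rfl, rfl⟩
  · exact ⟨(l, t), rfl, rfl⟩
  · exact ⟨(l, t - l), rfl, by simp [ti]⟩
  · exact ⟨(t - 8 * l, l), rfl, by simp [ti]⟩
  · exact ⟨(t, l), rfl, rfl⟩
  · exact ⟨(l, t), rfl, rfl⟩

/-! ### Chinese remainders -/

theorem crt {ι : Type*} [Fintype ι] (m : ι → ℕ) (hm : Pairwise (Nat.Coprime on m)) (c : ι → ℤ) :
    ∃ x : ℤ, ∀ i, (x : ZMod (m i)) = c i := by
  obtain ⟨x, hx⟩ := ZMod.intCast_surjective
    ((ZMod.prodEquivPi m hm).symm (fun i => (c i : ZMod (m i))))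
  refine ⟨x, fun i => ?_⟩
  have h1 := congrArg (ZMod.prodEquivPi m hm) hx
  rw [RingEquiv.apply_symm_apply, map_intCast] at h1
  have h2 := congrFun h1 i
  rwa [Pi.intCast_apply] at h2

theorem label_eq (n : Dig) (a : L n.gate) : a = n.star := by cases n <;> rfl

theorem cmp_inj : Injective Dig.cmp := by
  intro a b h
  cases a <;> cases b <;> first | rfl | (exact absurd h (by decide))

theorem gate_inj : Injective Dig.gate := by
  intro a b h
  cases a <;> cases b <;> first | rfl | (exact absurd h (by decide))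

theorem cmp_ne_gate (a b : Dig) : a.cmp ≠ b.gate := by
  cases a <;> cases b <;> decide

theorem gate_gate (d : Dig) : IsGate d.gate := by cases d <;> trivial

section main

variable (p : Cmp → ℕ) (r : ∀ i, L i → ℕ)

/-- forced behaviour of a digit component -/
def ForcedD (Bad : ∀ i, L i → (ℤ × ℤ) → Prop) (i : Cmp) : Prop :=
  ∃ τ : ZMod (p i ^ 2), ∀ l : ℤ, ∃ a : L i, ∃ ρ : ZMod (r i a), ∀ v, li i v = l →
    ((ti i v : ℤ) : ZMod (p i ^ 2)) = τ → ((ti i v : ℤ) : ZMod (r i a)) ≠ ρ → Bad i a v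

/-- forced behaviour of a gating component -/
def ForcedG (Bad : ∀ i, L i → (ℤ × ℤ) → Prop) (i : Cmp) : Prop :=
  ∀ l : ℤ, ∃ τ : ZMod (p i ^ 2), ∃ a : L i, ∃ ρ : ZMod (r i a), ∀ v, li i v = l →
    ((ti i v : ℤ) : ZMod (p i ^ 2)) = τ → ((ti i v : ℤ) : ZMod (r i a)) ≠ ρ → Bad i a v

/-- moduli with the role numbers squared -/
def modsq : (Σ i, Option (L i)) → ℕ
  | ⟨i, none⟩ => p i ^ 2
  | ⟨i, some a⟩ => r i a

variable {p r}

theorem modsq_coprime (hco : Pairwise (Nat.Coprime on modul p r)) :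
    Pairwise (Nat.Coprime on modsq p r) := by
  rintro ⟨i, x⟩ ⟨j, y⟩ hxy
  have h := hco hxy
  cases x <;> cases y <;> simp only [Function.onFun, modul, modsq] at h ⊢
  · exact Nat.Coprime.pow _ _ h
  · exact Nat.Coprime.pow_left _ h
  · exact Nat.Coprime.pow_right _ h
  · exact h

/-- index of the moduli used for the cells -/
abbrev Jx : Type := Σ d : Dig, Option (L d.cmp) ⊕ Option (L d.gate)

/-- the modulus -/
def jm : Jx → (Σ i, Option (L i))
  | ⟨d, .inl x⟩ => ⟨d.cmp, x⟩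
  | ⟨d, .inr x⟩ => ⟨d.gate, x⟩

theorem jm_inj : Injective jm := by
  rintro ⟨d, x⟩ ⟨d', x'⟩ h
  rcases x with x | x <;> rcases x' with x' | x'
  · have h1 : d.cmp = d'.cmp := congrArg Sigma.fst h
    obtain rfl := cmp_inj h1
    have h2 : x = x' := by
      simpa [jm] using h
    rw [h2]
  · exact absurd (congrArg Sigma.fst h) (cmp_ne_gate d d')
  · exact absurd (congrArg Sigma.fst h).symm (cmp_ne_gate d' d)
  · have h1 : d.gate = d'.gate := congrArg Sigma.fst h
    obtain rfl := gate_inj h1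
    have h2 : x = x' := by
      simpa [jm] using h
    rw [h2]

theorem jm_ne_gate (j : Jx) (i : Cmp) (hi : ∀ d : Dig, i ≠ d.cmp ∧ i ≠ d.gate) (x : Option (L i)) :
    jm j ≠ ⟨i, x⟩ := by
  obtain ⟨d, y⟩ := j
  rcases y with y | y
  · intro h; exact (hi d).1 (congrArg Sigma.fst h).symm
  · intro h; exact (hi d).2 (congrArg Sigma.fst h).symm

theorem li_cast_congr (i : Cmp) (m : ℕ) {v w : ℤ × ℤ} (h1 : (v.1 : ZMod m) = w.1)
    (h2 : (v.2 : ZMod m) = w.2) : ((li i v : ℤ) : ZMod m) = (li i w : ℤ) := by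
  cases i <;> simp only [li] <;> push_cast <;> simp only [h1, h2]

theorem ti_cast_congr (i : Cmp) (m : ℕ) {v w : ℤ × ℤ} (h1 : (v.1 : ZMod m) = w.1)
    (h2 : (v.2 : ZMod m) = w.2) : ((ti i v : ℤ) : ZMod m) = (ti i w : ℤ) := by
  cases i <;> simp only [ti] <;> push_cast <;> simp only [h1, h2]

theorem gate_pt {P m1 m2 : ℕ} (h12 : Nat.Coprime m1 m2) (hP1 : Nat.Coprime P m1)
    (hP2 : Nat.Coprime P m2) (x0 z1 z2 : ℤ) :
    ∃ X : ℤ, ((x0 + P * X : ℤ) : ZMod m1) = z1 ∧ ((x0 + P * X : ℤ) : ZMod m2) = z2 := by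
  obtain ⟨x, hx⟩ := crt ![m1, m2, P] (by
    intro i j hij
    fin_cases i <;> fin_cases j <;>
      first
      | exact absurd rfl hij
      | exact h12
      | exact h12.symm
      | exact hP1
      | exact hP1.symm
      | exact hP2
      | exact hP2.symm) ![z1, z2, x0]
  have h0 : (x : ZMod m1) = z1 := hx 0
  have h1 : (x : ZMod m2) = z2 := hx 1
  have h2 : (x : ZMod P) = x0 := hx 2
  obtain ⟨X, hX⟩ := (ZMod.intCast_eq_intCast_iff_dvd_sub x0 x P).1 h2.symm
  refine ⟨X, ?_, ?_⟩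
  · rw [← h0]; congr 1; linarith
  · rw [← h1]; congr 1; linarith

theorem clause_q {Bad : ∀ i, L i → (ℤ × ℤ) → Prop} (hcl : Clauses Bad) (d : Dig) (a : L d.cmp)
    (b : L d.gate) (v : ℤ × ℤ) (h : Bad d.gate b v) : ¬ Bad d.cmp a v := by
  intro ha
  rw [label_eq d b] at h
  exact hcl.align d v a h ha

instance nonemptyL (i : Cmp) : Nonempty (L i) := by
  cases i
  · exact ⟨((0, 0) : ZMod 8 × ZMod 8)⟩
  · exact ⟨((0, 0, 0) : ZMod 8 × ZMod 8 × ZMod 2)⟩
  · exact ⟨((0, 0) : ZMod 8 × ZMod 8)⟩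
  · exact ⟨(0 : ZMod 8)⟩
  all_goals exact ⟨()⟩

theorem dvd_P (j : Jx) : modsq p r (jm j) ∣ ∏ j : Jx, modsq p r (jm j) :=
  Finset.dvd_prod_of_mem (fun j => modsq p r (jm j)) (Finset.mem_univ j)

/-- **hole alignment**: cells at which all four letters are alive. -/
theorem exists_cells (hr : ∀ i a, 2 ≤ r i a) (hco : Pairwise (Nat.Coprime on modul p r))
    {Bad : ∀ i, L i → (ℤ × ℤ) → Prop} (hcl : Clauses Bad)
    (hD : ∀ d : Dig, ForcedD p r Bad d.cmp) (hG : ∀ i, IsGate i → ForcedG p r Bad i)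
    {N : ℤ} (hper : ∀ i a v u, Bad i a (v + N • u) ↔ Bad i a v) :
    ∃ (v0 : ℤ × ℤ) (al : ∀ d : Dig, ℤ → L d.cmp),
      (∀ d l, al d (l + N) = al d l) ∧
      ∀ (d : Dig) (V : ℤ × ℤ), Bad d.cmp (al d (li d.cmp (v0 + (∏ j, modsq p r (jm j) : ℕ) • V)))
        (v0 + (∏ j, modsq p r (jm j) : ℕ) • V) := by
  choose τ hτ using hD
  -- integer representatives of the mixed times
  choose s hs using fun d => ZMod.intCast_surjective (τ d)
  -- the transversal lines `s d`
  have hQ := fun d => hG d.gate (gate_gate d) (s d)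
  choose τ' a' ρ' hQ using hQ
  choose z hz using fun d => ZMod.intCast_surjective (τ' d)
  choose y hy using fun d => ZMod.intCast_surjective (ρ' d + 1)
  let Good : ∀ d : Dig, ℤ → L d.cmp → Prop := fun d l a =>
    ∀ v, li d.cmp v = l → ((ti d.cmp v : ℤ) : ZMod (p d.cmp ^ 2)) = s d →
      (∀ b : L d.cmp, ((ti d.cmp v : ℤ) : ZMod (r d.cmp b)) = (s d + 1 : ℤ)) → Bad d.cmp a v
  have one_ne : ∀ i a, (1 : ZMod (r i a)) ≠ 0 := by
    intro i a
    have : Fact (1 < r i a) := ⟨hr i a⟩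
    exact one_ne_zero
  have hgood : ∀ d (l : ℤ), (l : ZMod (p d.gate ^ 2)) = τ' d →
      (l : ZMod (r d.gate (a' d))) = ρ' d + 1 → ∃ a, Good d l a := by
    intro d l h1 h2
    obtain ⟨a, ρ, ha⟩ := hτ d l
    obtain ⟨v, hv1, hv2⟩ := exists_pt d.cmp l (s d)
    have hbQ : Bad d.gate (a' d) v := by
      refine hQ d v ?_ ?_ ?_
      · rw [li_gate]; exact hv2
      · rw [ti_gate, hv1]; exact h1
      · rw [ti_gate, hv1, h2]
        intro h3
        exact one_ne _ _ (add_eq_left.1 h3)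
    have hnb := clause_q hcl d a _ v hbQ
    have hρ : ((s d : ℤ) : ZMod (r d.cmp a)) = ρ := by
      by_contra hne
      refine hnb (ha v hv1 ?_ ?_)
      · rw [hv2]; exact hs d
      · rw [hv2]; exact hne
    refine ⟨a, fun w hw1 hw2 hw3 => ha w hw1 ?_ ?_⟩
    · rw [hw2]; exact hs d
    · rw [hw3 a, ← hρ]
      push_cast
      intro h3
      exact one_ne _ _ (add_eq_left.1 h3)
  -- the base point
  have hmod := modsq_coprime hco
  choose c hc1 hc2 using fun (d : Dig) (t : ℤ) => exists_pt d.cmp 0 t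
  choose c' hc1' hc2' using fun (d : Dig) (l : ℤ) => exists_pt d.cmp l 0
  let tgt : Jx → ℤ × ℤ := fun j =>
    match j with
    | ⟨d, .inl none⟩ => c d (s d)
    | ⟨d, .inl (some _)⟩ => c d (s d + 1)
    | ⟨d, .inr none⟩ => c' d (z d)
    | ⟨d, .inr (some _)⟩ => c' d (y d)
  obtain ⟨x0, hx0⟩ := crt (fun j => modsq p r (jm j)) (fun i j hij => hmod (jm_inj.ne hij))
    (fun j => (tgt j).1)
  obtain ⟨y0, hy0⟩ := crt (fun j => modsq p r (jm j)) (fun i j hij => hmod (jm_inj.ne hij))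
    (fun j => (tgt j).2)
  set P : ℕ := ∏ j, modsq p r (jm j) with hP
  have hPd : ∀ j, modsq p r (jm j) ∣ P := by
    intro j
    rw [hP]
    exact dvd_P j
  clear_value P
  have hPj : ∀ j, ((P : ℤ) : ZMod (modsq p r (jm j))) = 0 := by
    intro j
    rw [Int.cast_natCast]
    exact (ZMod.natCast_eq_zero_iff _ _).2 (hPd j)
  have hv1 : ∀ (V : ℤ × ℤ) j, (((((x0, y0) : ℤ × ℤ) + (P : ℕ) • V).1 : ℤ) :
      ZMod (modsq p r (jm j))) = (tgt j).1 := by
    intro V j
    have h := hPj j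
    rw [Prod.fst_add, Prod.smul_fst, nsmul_eq_mul]
    push_cast
    push_cast at h
    rw [h, zero_mul, add_zero]
    exact hx0 j
  have hv2 : ∀ (V : ℤ × ℤ) j, (((((x0, y0) : ℤ × ℤ) + (P : ℕ) • V).2 : ℤ) :
      ZMod (modsq p r (jm j))) = (tgt j).2 := by
    intro V j
    have h := hPj j
    rw [Prod.snd_add, Prod.smul_snd, nsmul_eq_mul]
    push_cast
    push_cast at h
    rw [h, zero_mul, add_zero]
    exact hy0 j
  refine ⟨(x0, y0), fun d l => Classical.epsilon (Good d l), ?_, ?_⟩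
  · intro d l
    have : Good d (l + N) = Good d l := by
      funext a
      obtain ⟨e, he1, he2⟩ := exists_pt d.cmp 1 0
      apply propext
      constructor
      · intro h v h1 h2 h3
        refine (hper d.cmp a v e).1 (h (v + N • e) ?_ ?_ ?_)
        · rw [li_add, li_smul, he1, h1, mul_one]
        · rw [ti_add, ti_smul, he2, mul_zero, add_zero]; exact h2
        · rw [ti_add, ti_smul, he2, mul_zero, add_zero]; exact h3
      · intro h v h1 h2 h3
        have h4 := (hper d.cmp a (v + (-N) • e) e)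
        have h5 : v + (-N) • e + N • e = v := by rw [neg_smul, neg_add_cancel_right]
        rw [h5] at h4
        refine h4.2 (h _ ?_ ?_ ?_)
        · rw [li_add, li_smul, he1, h1]; ring
        · rw [ti_add, ti_smul, he2, mul_zero, add_zero]; exact h2
        · rw [ti_add, ti_smul, he2, mul_zero, add_zero]; exact h3
    simp only [this]
  · intro d V
    have hex : ∃ a, Good d (li d.cmp ((x0, y0) + P • V)) a := by
      refine hgood d _ ?_ ?_
      · have h1 : ((li d.cmp (((x0, y0) : ℤ × ℤ) + P • V) : ℤ) : ZMod (p d.gate ^ 2)) =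
            (li d.cmp (c' d (z d)) : ℤ) :=
          li_cast_congr d.cmp (p d.gate ^ 2) (hv1 V ⟨d, .inr none⟩) (hv2 V ⟨d, .inr none⟩)
        rw [h1, hc1', hz]
      · have h1 : ((li d.cmp (((x0, y0) : ℤ × ℤ) + P • V) : ℤ) : ZMod (r d.gate (a' d))) =
            (li d.cmp (c' d (y d)) : ℤ) :=
          li_cast_congr d.cmp (r d.gate (a' d)) (hv1 V ⟨d, .inr (some (a' d))⟩)
            (hv2 V ⟨d, .inr (some (a' d))⟩)
        rw [h1, hc1', hy]
    refine Classical.epsilon_spec hex _ rfl ?_ ?_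
    · have h1 : ((ti d.cmp (((x0, y0) : ℤ × ℤ) + P • V) : ℤ) : ZMod (p d.cmp ^ 2)) =
            (ti d.cmp (c d (s d)) : ℤ) :=
        ti_cast_congr d.cmp (p d.cmp ^ 2) (hv1 V ⟨d, .inl none⟩) (hv2 V ⟨d, .inl none⟩)
      rw [h1, hc2]
    · intro b
      have h1 : ((ti d.cmp (((x0, y0) : ℤ × ℤ) + P • V) : ℤ) : ZMod (r d.cmp b)) =
            (ti d.cmp (c d (s d + 1)) : ℤ) :=
        ti_cast_congr d.cmp (r d.cmp b) (hv1 V ⟨d, .inl (some b)⟩) (hv2 V ⟨d, .inl (some b)⟩)
      rw [h1, hc2]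

/-- **Glue theorem.** -/
theorem false_of_forced (hr : ∀ i a, 2 ≤ r i a) (hco : Pairwise (Nat.Coprime on modul p r))
    {Bad : ∀ i, L i → (ℤ × ℤ) → Prop} (hcl : Clauses Bad)
    (hD : ∀ d : Dig, ForcedD p r Bad d.cmp) (hG : ∀ i, IsGate i → ForcedG p r Bad i)
    {N : ℤ} (hN : 0 < N) (hper : ∀ i a v u, Bad i a (v + N • u) ↔ Bad i a v) : False := by
  obtain ⟨v0, al, hal, hcell⟩ := exists_cells hr hco hcl hD hG hper
  have one_ne : ∀ i a, (1 : ZMod (r i a)) ≠ 0 := by
    intro i a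
    have : Fact (1 < r i a) := ⟨hr i a⟩
    exact one_ne_zero
  have hmod := modsq_coprime hco
  set P : ℕ := ∏ j, modsq p r (jm j) with hP
  have hPco : ∀ (i : Cmp) (_ : ∀ d : Dig, i ≠ d.cmp ∧ i ≠ d.gate) (x : Option (L i)),
      Nat.Coprime P (modsq p r ⟨i, x⟩) := fun i hi x =>
    Nat.Coprime.prod_left fun j _ => hmod (jm_ne_gate j i hi x)
  clear_value P
  have hU : ∀ d : Dig, Cmp.U ≠ d.cmp ∧ Cmp.U ≠ d.gate := by intro d; cases d <;> decide
  have hW : ∀ d : Dig, Cmp.W ≠ d.cmp ∧ Cmp.W ≠ d.gate := by intro d; cases d <;> decide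
  -- the four letter functions
  let lF : ℤ → L .F := fun X => al .F (v0.1 + P * X)
  let lE : ℤ → L .E := fun Y => al .E (v0.2 + P * Y)
  let lK : ℤ → L .K := fun Z => al .K (v0.1 + v0.2 + P * Z)
  let lG : ℤ → L .G := fun Z => al .G (v0.1 + 8 * v0.2 + P * Z)
  let v : ℤ → ℤ → ℤ × ℤ := fun X Y => (v0.1 + P * X, v0.2 + P * Y)
  have hv : ∀ X Y, v0 + P • ((X, Y) : ℤ × ℤ) = v X Y := by
    intro X Y
    ext <;> simp [v]
  have bF : ∀ X Y, Bad .F (lF X) (v X Y) := by
    intro X Y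
    have h := hcell .F (X, Y)
    rw [hv] at h
    exact h
  have bE : ∀ X Y, Bad .E (lE Y) (v X Y) := by
    intro X Y
    have h := hcell .E (X, Y)
    rw [hv] at h
    exact h
  have bK : ∀ X Y, Bad .K (lK (X + Y)) (v X Y) := by
    intro X Y
    have h := hcell .K (X, Y)
    rw [hv] at h
    have e : li .K (v X Y) = v0.1 + v0.2 + P * (X + Y) := by simp only [li, v]; ring
    have h' : Bad .K (al .K (li .K (v X Y))) (v X Y) := h
    rw [e] at h'
    exact h'
  have bG : ∀ X Y, Bad .G (lG (X + 8 * Y)) (v X Y) := by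
    intro X Y
    have h := hcell .G (X, Y)
    rw [hv] at h
    have e : li .G (v X Y) = v0.1 + 8 * v0.2 + P * (X + 8 * Y) := by simp only [li, v]; ring
    have h' : Bad .G (al .G (li .G (v X Y))) (v X Y) := h
    rw [e] at h'
    exact h'
  refine Exact.exact_parity (χF := fun X => (lF X).1) (fF := fun X => (lF X).2)
    (χE := fun Y => (lE Y).1) (fE := fun Y => (lE Y).2.1) (χK := fun Z => (lK Z).1)
    (fK := fun Z => (lK Z).2) (fG := lG) (bE := fun Y => (lE Y).2.2) (N := N)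
    ?_ ?_ ?_ ?_ ?_ ?_ ?_ ?_ hN ?_
  · intro x y
    exact hcl.cauchy _ _ _ _ (bF x y) (bE x y) (bK x y)
  · intro n; exact (hcl.okF _ _ (bF n 0)).1
  · intro n; exact (hcl.okE _ _ (bE 0 n)).1
  · intro n; exact (hcl.okE _ _ (bE 0 n)).2
  · intro n
    have h := bK n 0
    rw [add_zero] at h
    exact (hcl.okK _ _ h).2
  · intro x y
    have h := hcl.rel _ _ _ _ _ (bF x y) (bE x y) (bK x y) (bG x y)
    refine ⟨fun h1 => ?_, fun h1 => ?_⟩
    · rcases h.1 h1 with h2 | h2 | h2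
      · exact Or.inl h2
      · exact Or.inr (Or.inl h2)
      · exact Or.inr (Or.inr (by rw [h2, neg_add_cancel]))
    · rcases h.2 h1 with h2 | h2 | h2
      · exact Or.inl h2
      · exact Or.inr (Or.inl h2)
      · exact Or.inr (Or.inr (by rw [h2, add_neg_cancel]))
  · intro Y
    obtain ⟨τ, a, ρ, h⟩ := hG .U trivial (v0.2 + P * Y)
    obtain ⟨z1, hz1⟩ := ZMod.intCast_surjective τ
    obtain ⟨z2, hz2⟩ := ZMod.intCast_surjective (ρ + 1)
    obtain ⟨X, hX1, hX2⟩ := gate_pt (P := P) (m1 := p .U ^ 2) (m2 := r .U a)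
      (hmod (i := ⟨.U, none⟩) (j := ⟨.U, some a⟩) (by simp)) (hPco _ hU none)
      (hPco _ hU (some a)) v0.1 z1 z2
    refine ⟨X, ?_⟩
    have hb : Bad .U a (v X Y) := h (v X Y) rfl
      (by rw [← hz1]; exact hX1)
      (by
        have : ((ti .U (v X Y) : ℤ) : ZMod (r .U a)) = ρ + 1 := by rw [← hz2]; exact hX2
        rw [this]
        intro h3
        exact one_ne _ _ (add_eq_left.1 h3))
    exact hcl.parU _ _ _ hb (bF X Y) (bE X Y)
  · intro X
    obtain ⟨τ, a, ρ, h⟩ := hG .W trivial (v0.1 + P * X)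
    obtain ⟨z1, hz1⟩ := ZMod.intCast_surjective τ
    obtain ⟨z2, hz2⟩ := ZMod.intCast_surjective (ρ + 1)
    obtain ⟨Y, hY1, hY2⟩ := gate_pt (P := P) (m1 := p .W ^ 2) (m2 := r .W a)
      (hmod (i := ⟨.W, none⟩) (j := ⟨.W, some a⟩) (by simp)) (hPco _ hW none)
      (hPco _ hW (some a)) v0.2 z1 z2
    refine ⟨Y, ?_⟩
    have hb : Bad .W a (v X Y) := h (v X Y) rfl
      (by rw [← hz1]; exact hY1)
      (by
        have : ((ti .W (v X Y) : ℤ) : ZMod (r .W a)) = ρ + 1 := by rw [← hz2]; exact hY2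
        rw [this]
        intro h3
        exact one_ne _ _ (add_eq_left.1 h3))
    exact hcl.parW _ _ _ hb (bF X Y) (bE X Y)
  · intro Y
    have key : ∀ (k : ℕ) (l : ℤ), al .E (l + k * N) = al .E l := by
      intro k
      induction k with
      | zero => intro l; simp
      | succ k ih =>
        intro l
        have : l + ((k + 1 : ℕ) : ℤ) * N = (l + k * N) + N := by push_cast; ring
        rw [this, hal, ih]
    have e : v0.2 + (P : ℤ) * (Y + N) = (v0.2 + P * Y) + (P : ℕ) * N := by ring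
    simp only [lE, e, key P]

end main

end Crest.Agent.R046.Glue
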