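import Mathlib

set_option autoImplicit false

/-! Row 46: the choice of the moduli. -/

namespace Crest.Agent.R046

theorem exists_primes_above (J : Type*) [Finite J] (N : ℕ) :
    ∃ g : J → ℕ, Function.Injective g ∧ ∀ j, (g j).Prime ∧ N < g j := by
  have hinf : {q : ℕ | q.Prime ∧ N < q}.Infinite := by
    intro hfin
    obtain ⟨b, hb⟩ := hfin.bddAbove
    obtain ⟨q, hq, hqp⟩ := Nat.exists_infinite_primes (max b N + 1)
    have h1 : q ≤ b := hb ⟨hqp, by omega⟩
    omega
  have : Infinite {q : ℕ | q.Prime ∧ N < q} := hinf.to_subtype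
  cases nonempty_fintype J
  let e : J ↪ ℕ := (Fintype.equivFin J).toEmbedding.trans Fin.valEmbedding
  let f := e.trans (Infinite.natEmbedding {q : ℕ | q.Prime ∧ N < q})
  exact ⟨fun j => (f j : ℕ), fun a b h => f.injective (Subtype.ext h), fun j => (f j).2⟩

/-- extend an injective prime-valued function from `A` to everything, with large new values -/
theorem extend_primes {J : Type*} [Finite J] (A : Set J) (m0 : J → ℕ) (hinj : Set.InjOn m0 A)
    (hp : ∀ j ∈ A, (m0 j).Prime) (N : ℕ) :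
    ∃ m : J → ℕ, (∀ j ∈ A, m j = m0 j) ∧ Function.Injective m ∧ (∀ j, (m j).Prime) ∧
      ∀ j, j ∉ A → N < m j := by
  classical
  cases nonempty_fintype J
  obtain ⟨g, hg, hg'⟩ := exists_primes_above J (max N (Finset.univ.sup m0))
  have hle : ∀ j, m0 j ≤ Finset.univ.sup m0 := fun j => Finset.le_sup (Finset.mem_univ j)
  refine ⟨fun j => if j ∈ A then m0 j else g j, fun j hj => if_pos hj, ?_, ?_, ?_⟩
  · intro a b hab
    simp only at hab
    split_ifs at hab with h1 h2 h2
    · exact hinj h1 h2 hab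
    · have := hle a; have := (hg' b).2; omega
    · have := hle b; have := (hg' a).2; omega
    · exact hg hab
  · intro j
    simp only
    split_ifs with h
    · exact hp j h
    · exact (hg' j).1
  · intro j hj
    simp only [if_neg hj]
    have := (hg' j).2
    omega

/-- the moduli: `m (inl i)` is the role number of component `i`, `m (inr ⟨i, a⟩)` the modulus of
its label `a` -/
theorem exists_moduli {I : Type*} [Finite I] (L : I → Type*) [∀ i, Fintype (L i)] (U W : I)
    (hUW : U ≠ W) (D : Set I) (Q : I → I) (hQ : ∀ n ∈ D, Q n ≠ U ∧ Q n ≠ W) :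
    ∃ m : I ⊕ (Σ i, L i) → ℕ, Function.Injective m ∧ (∀ j, (m j).Prime) ∧
      m (Sum.inl U) = 2 ∧ m (Sum.inl W) = 5 ∧
      ∀ n ∈ D, 2 * ∏ a, m (Sum.inr ⟨n, a⟩) ≤ m (Sum.inl (Q n)) := by
  classical
  cases nonempty_fintype I
  have hinj : Set.InjOn (fun j : I ⊕ (Σ i, L i) => if j = Sum.inl U then 2 else 5)
      {Sum.inl U, Sum.inl W} := by
    intro a ha b hb hab
    rcases ha with rfl | rfl <;> rcases hb with rfl | rfl
    · rfl
    · simp [Ne.symm hUW] at hab
    · simp [Ne.symm hUW] at hab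
    · rfl
  have hpr : ∀ j ∈ ({Sum.inl U, Sum.inl W} : Set (I ⊕ (Σ i, L i))),
      ((fun j : I ⊕ (Σ i, L i) => if j = Sum.inl U then 2 else 5) j).Prime := by
    intro j _
    simp only
    split_ifs
    · exact Nat.prime_two
    · norm_num
  obtain ⟨m1, h1, h2, h3, -⟩ := extend_primes (J := I ⊕ (Σ i, L i))
    {Sum.inl U, Sum.inl W} (fun j => if j = Sum.inl U then 2 else 5) hinj hpr 0
  · obtain ⟨m2, k1, k2, k3, k4⟩ := extend_primes (J := I ⊕ (Σ i, L i))
      {j | ¬ ∃ n ∈ D, j = Sum.inl (Q n)} m1 h2.injOn (fun j _ => h3 j)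
      (Finset.univ.sup (fun n => 2 * ∏ a, m1 (Sum.inr ⟨n, a⟩)))
    have hr : ∀ q : Σ i, L i, m2 (Sum.inr q) = m1 (Sum.inr q) := by
      intro q
      apply k1
      rintro ⟨n, -, hn⟩
      exact absurd hn (by simp)
    refine ⟨m2, k2, k3, ?_, ?_, ?_⟩
    · rw [k1, h1 _ (by simp)]
      · simp
      · rintro ⟨n, hn, hn'⟩
        exact (hQ n hn).1 (Sum.inl.inj hn').symm
    · rw [k1, h1 _ (by simp)]
      · simp [Ne.symm hUW]
      · rintro ⟨n, hn, hn'⟩
        exact (hQ n hn).2 (Sum.inl.inj hn').symm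
    · intro n hn
      have := k4 (Sum.inl (Q n)) (fun h => h ⟨n, hn, rfl⟩)
      refine le_trans (le_trans (le_of_eq ?_)
        (Finset.le_sup (f := fun n => 2 * ∏ a, m1 (Sum.inr ⟨n, a⟩)) (Finset.mem_univ n))) this.le
      simp only [hr]

section coprime

variable {I : Type*} {L : I → Type*} {m : I ⊕ (Σ i, L i) → ℕ} (hm : Function.Injective m)
  (hp : ∀ j, (m j).Prime)
include hm hp

theorem moduli_coprime {j j' : I ⊕ (Σ i, L i)} (h : j ≠ j') : Nat.Coprime (m j) (m j') :=
  (Nat.coprime_primes (hp j) (hp j')).2 (fun e => h (hm e))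

theorem moduli_pp : Pairwise fun i j => Nat.Coprime (m (Sum.inl i)) (m (Sum.inl j)) :=
  fun _ _ hij => moduli_coprime hm hp (fun h => hij (Sum.inl.inj h))

theorem moduli_pr (i j : I) (a : L j) : Nat.Coprime (m (Sum.inl i)) (m (Sum.inr ⟨j, a⟩)) :=
  moduli_coprime hm hp (by simp)

theorem moduli_rr (i : I) :
    Pairwise fun a b : L i => Nat.Coprime (m (Sum.inr ⟨i, a⟩)) (m (Sum.inr ⟨i, b⟩)) :=
  fun _ _ hab => moduli_coprime hm hp (fun h => hab (by simpa using h))

theorem moduli_rr' (i j : I) (hij : i ≠ j) (a : L i) (b : L j) :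
    Nat.Coprime (m (Sum.inr ⟨i, a⟩)) (m (Sum.inr ⟨j, b⟩)) :=
  moduli_coprime hm hp (fun h => hij (by
    have := Sum.inr.inj h
    exact congrArg Sigma.fst this))

end coprime

end Crest.Agent.R046
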