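import Mathlib

/-! Row 46: the true sudoku in base `q` (`q = 9` in the application): `dig q n` = last nonzero
base `q` digit of `n` (and `1` at `0`), `chi n = (n : ZMod q)`; all digit clauses hold. -/

set_option autoImplicit false

namespace Crest.Agent.R046.DigitTruth

variable {q : ℕ}

theorem exists_rep (hq : 1 < q) (x : ℤ) (hx : x ≠ 0) :
    ∃ (v : ℕ) (m : ℤ), (m : ZMod q) ≠ 0 ∧ x = (q : ℤ) ^ v * m := by
  have hf : FiniteMultiplicity (q : ℤ) x := by
    rw [Int.finiteMultiplicity_iff]; exact ⟨by simp; omega, hx⟩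
  obtain ⟨c, hc, hc'⟩ := hf.exists_eq_pow_mul_and_not_dvd
  exact ⟨_, c, fun h => hc' ((ZMod.intCast_zmod_eq_zero_iff_dvd c q).mp h), hc⟩

theorem rep_unique (hq : 1 < q) {v w : ℕ} {m l : ℤ} (hm : (m : ZMod q) ≠ 0)
    (hl : (l : ZMod q) ≠ 0) (h : (q : ℤ) ^ v * m = (q : ℤ) ^ w * l) : m = l := by
  have hq0 : (q : ℤ) ≠ 0 := by exact_mod_cast (by omega : q ≠ 0)
  rcases lt_trichotomy v w with hvw | hvw | hvw
  · exfalso
    obtain ⟨d, rfl⟩ := Nat.exists_eq_add_of_lt hvw
    have : m = (q : ℤ) ^ (d + 1) * l := by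
      have h2 : (q : ℤ) ^ v * m = (q : ℤ) ^ v * ((q : ℤ) ^ (d + 1) * l) := by rw [h]; ring
      exact mul_left_cancel₀ (pow_ne_zero _ hq0) h2
    apply hm
    rw [this]; push_cast
    simp [pow_succ]
  · subst hvw
    exact mul_left_cancel₀ (pow_ne_zero _ hq0) h
  · exfalso
    obtain ⟨d, rfl⟩ := Nat.exists_eq_add_of_lt hvw
    have : l = (q : ℤ) ^ (d + 1) * m := by
      have h2 : (q : ℤ) ^ w * l = (q : ℤ) ^ w * ((q : ℤ) ^ (d + 1) * m) := by rw [← h]; ring
      exact mul_left_cancel₀ (pow_ne_zero _ hq0) h2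
    apply hl
    rw [this]; push_cast
    simp [pow_succ]

open Classical in
/-- the last nonzero digit in base `q` (and `1` at `0`) -/
noncomputable def dig (q : ℕ) (n : ℤ) : ZMod q :=
  if h : ∃ m : ℤ, (m : ZMod q) ≠ 0 ∧ n ≠ 0 ∧ ∃ v : ℕ, n = (q : ℤ) ^ v * m then (h.choose : ZMod q)
  else 1

theorem dig_zero : dig q 0 = 1 := by
  unfold dig
  rw [dif_neg]
  rintro ⟨m, -, h, -⟩
  exact h rfl

theorem dig_pow_mul (hq : 1 < q) (v : ℕ) (m : ℤ) (hm : (m : ZMod q) ≠ 0) :
    dig q ((q : ℤ) ^ v * m) = m := by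
  have hq0 : (q : ℤ) ≠ 0 := by exact_mod_cast (by omega : q ≠ 0)
  have hm0 : m ≠ 0 := by rintro rfl; simp at hm
  have h : ∃ l : ℤ, (l : ZMod q) ≠ 0 ∧ (q : ℤ) ^ v * m ≠ 0 ∧
      ∃ w : ℕ, (q : ℤ) ^ v * m = (q : ℤ) ^ w * l :=
    ⟨m, hm, mul_ne_zero (pow_ne_zero _ hq0) hm0, v, rfl⟩
  unfold dig
  rw [dif_pos h]
  obtain ⟨h1, h2, w, h3⟩ := h.choose_spec
  exact congrArg (fun a : ℤ => (a : ZMod q)) (rep_unique hq hm h1 h3).symm

theorem dig_ne_zero (hq : 1 < q) (n : ℤ) : dig q n ≠ 0 := by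
  have : Fact (1 < q) := ⟨hq⟩
  by_cases hn : n = 0
  · subst hn; rw [dig_zero]; exact one_ne_zero
  · obtain ⟨v, m, hm, rfl⟩ := exists_rep hq n hn
    rw [dig_pow_mul hq v m hm]; exact hm

theorem dig_of_not (hq : 1 < q) (n : ℤ) (hn : (n : ZMod q) ≠ 0) : dig q n = n := by
  have := dig_pow_mul hq 0 n hn
  simpa using this

theorem cast_pow (k : ℕ) : (((q : ℤ) ^ (k + 1) : ℤ) : ZMod q) = 0 := by
  push_cast
  simp [pow_succ]

/-- the pointwise relation (`s = f x`, `e = f y`, `k = f (x + y)`, `g = f (x + q y)`) -/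
def Rel (q : ℕ) (s e k g : ZMod q) : Prop :=
  (k = e → g = s + e ∨ g = e ∨ s + e = 0) ∧ (g = s → k = s + e ∨ k = s ∨ s + e = 0)

/-- the true digits satisfy the pointwise relation -/
theorem rel_dig (hq : 1 < q) (x y : ℤ) :
    Rel q (dig q x) (dig q y) (dig q (x + y)) (dig q (x + q * y)) := by
  by_cases hx : x = 0
  · subst hx
    by_cases hy : y = 0
    · subst hy
      simp only [mul_zero, add_zero, dig_zero]
      exact ⟨fun _ => Or.inr (Or.inl rfl), fun _ => Or.inr (Or.inl rfl)⟩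
    · obtain ⟨w, m, hm, rfl⟩ := exists_rep hq y hy
      have e1 : (0 : ℤ) + q * (q ^ w * m) = q ^ (w + 1) * m := by ring
      rw [e1, zero_add, dig_pow_mul hq _ m hm, dig_pow_mul hq _ m hm]
      exact ⟨fun _ => Or.inr (Or.inl rfl), fun h => Or.inr (Or.inl h)⟩
  · obtain ⟨v, l, hl, rfl⟩ := exists_rep hq x hx
    by_cases hy : y = 0
    · subst hy
      rw [mul_zero, add_zero]
      exact ⟨fun h => Or.inr (Or.inl h), fun _ => Or.inr (Or.inl rfl)⟩
    · obtain ⟨w, m, hm, rfl⟩ := exists_rep hq y hy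
      rcases lt_trichotomy v w with hvw | hvw | hvw
      · obtain ⟨d, rfl⟩ := Nat.exists_eq_add_of_lt hvw
        have e1 : (q : ℤ) ^ v * l + q ^ (v + d + 1) * m = q ^ v * (l + q ^ (d + 1) * m) := by ring
        have e2 : (q : ℤ) ^ v * l + q * (q ^ (v + d + 1) * m) = q ^ v * (l + q ^ (d + 1 + 1) * m) := by
          ring
        have c1 : ((l + q ^ (d + 1) * m : ℤ) : ZMod q) = l := by
          rw [Int.cast_add, Int.cast_mul, cast_pow]; ring
        have c2 : ((l + q ^ (d + 1 + 1) * m : ℤ) : ZMod q) = l := by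
          rw [Int.cast_add, Int.cast_mul, cast_pow]; ring
        rw [e1, e2, dig_pow_mul hq _ l hl, dig_pow_mul hq _ (l + q ^ (d + 1) * m) (by rw [c1]; exact hl),
          dig_pow_mul hq _ (l + q ^ (d + 1 + 1) * m) (by rw [c2]; exact hl), dig_pow_mul hq _ m hm, c1, c2]
        exact ⟨fun h => Or.inr (Or.inl h), fun _ => Or.inr (Or.inl rfl)⟩
      · subst hvw
        have e2 : (q : ℤ) ^ v * l + q * (q ^ v * m) = q ^ v * (l + q ^ (0 + 1) * m) := by ring
        have c2 : ((l + q ^ (0 + 1) * m : ℤ) : ZMod q) = l := by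
          rw [Int.cast_add, Int.cast_mul, cast_pow]; ring
        rw [e2, dig_pow_mul hq _ l hl, dig_pow_mul hq _ (l + q ^ (0 + 1) * m) (by rw [c2]; exact hl),
          dig_pow_mul hq _ m hm, c2]
        by_cases hlm : (l : ZMod q) + m = 0
        · exact ⟨fun _ => Or.inr (Or.inr hlm), fun _ => Or.inr (Or.inr hlm)⟩
        · have e1 : (q : ℤ) ^ v * l + q ^ v * m = q ^ v * (l + m) := by ring
          have c1 : ((l + m : ℤ) : ZMod q) = l + m := by push_cast; rfl
          rw [e1, dig_pow_mul hq _ (l + m) (by rw [c1]; exact hlm), c1]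
          refine ⟨fun h => ?_, fun _ => Or.inl rfl⟩
          exact absurd (by linear_combination h) hl
      · obtain ⟨d, rfl⟩ := Nat.exists_eq_add_of_lt hvw
        have e1 : (q : ℤ) ^ (w + d + 1) * l + q ^ w * m = q ^ w * (q ^ (d + 1) * l + m) := by ring
        have c1 : ((q ^ (d + 1) * l + m : ℤ) : ZMod q) = m := by
          rw [Int.cast_add, Int.cast_mul, cast_pow]; ring
        rw [e1, dig_pow_mul hq _ l hl, dig_pow_mul hq _ (q ^ (d + 1) * l + m) (by rw [c1]; exact hm),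
          dig_pow_mul hq _ m hm, c1]
        rcases Nat.eq_zero_or_pos d with hd | hd
        · subst hd
          have e2 : (q : ℤ) ^ (w + 0 + 1) * l + q * (q ^ w * m) = q ^ (w + 1) * (l + m) := by ring
          rw [e2]
          by_cases hlm : (l : ZMod q) + m = 0
          · exact ⟨fun _ => Or.inr (Or.inr hlm), fun _ => Or.inr (Or.inr hlm)⟩
          · have c2 : ((l + m : ℤ) : ZMod q) = l + m := by push_cast; rfl
            rw [dig_pow_mul hq _ (l + m) (by rw [c2]; exact hlm), c2]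
            refine ⟨fun _ => Or.inl rfl, fun h => ?_⟩
            exact absurd (by linear_combination h) hm
        · obtain ⟨d, rfl⟩ := Nat.exists_eq_add_of_lt hd
          have e2 : (q : ℤ) ^ (w + (0 + d + 1) + 1) * l + q * (q ^ w * m) =
              q ^ (w + 1) * (q ^ (d + 1) * l + m) := by ring
          have c2 : ((q ^ (d + 1) * l + m : ℤ) : ZMod q) = m := by
            rw [Int.cast_add, Int.cast_mul, cast_pow]; ring
          rw [e2, dig_pow_mul hq _ (q ^ (d + 1) * l + m) (by rw [c2]; exact hm), c2]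
          exact ⟨fun _ => Or.inr (Or.inl rfl), fun h => Or.inr (Or.inl h)⟩

/-- additive clause for `chi n = (n : ZMod q)` -/
theorem chi_add (x y : ℤ) : ((x : ℤ) : ZMod q) + (y : ZMod q) = ((x + y : ℤ) : ZMod q) := by
  push_cast; rfl

end Crest.Agent.R046.DigitTruth
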