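import Crest.Agent.R046.Clauses
import Crest.Agent.R046.DigitTruth

set_option autoImplicit false

/-! Row 46: the intended letters, gate offsets and holes satisfy all clauses. -/

namespace Crest.Agent.R046.Glue

/-- `t` is at distance `1, …, p - 1` from `o` modulo `p ^ 2` -/
def Near (p : ℕ) (o t : ℤ) : Prop := ∃ i : ℤ, i ≠ 0 ∧ |i| < p ∧ (p : ℤ) ^ 2 ∣ t - o - i

theorem near_unique {p R : ℕ} (hp : 2 * R ≤ p) {η η' l : ℤ} (h0 : 0 ≤ η) (h1 : η < R)
    (h0' : 0 ≤ η') (h1' : η' < R) (h : Near p (2 * p * η) l) (h' : Near p (2 * p * η') l) :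
    η = η' := by
  obtain ⟨i, -, hi, hd⟩ := h
  obtain ⟨i', -, hi', hd'⟩ := h'
  have hd2 : (p : ℤ) ^ 2 ∣ 2 * p * (η' - η) + (i' - i) := by
    have := dvd_sub hd hd'
    have e : l - 2 * p * η - i - (l - 2 * p * η' - i') = 2 * p * (η' - η) + (i' - i) := by ring
    rwa [e] at this
  have hp' : 2 * (R : ℤ) ≤ p := by exact_mod_cast hp
  rw [abs_lt] at hi hi'
  have hR : (1 : ℤ) ≤ R := by omega
  have hpos : (0 : ℤ) < p := by omega
  have hz : 2 * p * (η' - η) + (i' - i) = 0 := by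
    apply Int.eq_zero_of_abs_lt_dvd hd2
    rw [abs_lt]
    constructor
    · nlinarith
    · nlinarith
  by_contra hne
  rcases lt_or_gt_of_ne hne with hlt | hlt
  · nlinarith
  · nlinarith

theorem near_not {p : ℕ} (hp : 5 ≤ p) {y : ℤ} (h : Near p (2 * p) y) : ¬ Near p 0 y := by
  rintro ⟨i', -, hi', hd'⟩
  obtain ⟨i, -, hi, hd⟩ := h
  have hd2 : (p : ℤ) ^ 2 ∣ 2 * p + (i - i') := by
    have := dvd_sub hd' hd
    have e : y - 0 - i' - (y - 2 * p - i) = 2 * p + (i - i') := by ring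
    rwa [e] at this
  have hp' : (5 : ℤ) ≤ p := by exact_mod_cast hp
  rw [abs_lt] at hi hi'
  have hz : 2 * (p : ℤ) + (i - i') = 0 := by
    apply Int.eq_zero_of_abs_lt_dvd hd2
    rw [abs_lt]
    constructor
    · nlinarith
    · nlinarith
  omega

theorem near_two {o t : ℤ} (h : Near 2 o t) : ((t : ℤ) : ZMod 2) = o + 1 := by
  obtain ⟨i, hi0, hi, hd⟩ := h
  rw [abs_lt] at hi
  have hi' : i = 1 ∨ i = -1 := by push_cast at hi; omega
  have hd2 : (2 : ℤ) ∣ t - o - i := dvd_trans (by norm_num) hd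
  have hd3 : (2 : ℤ) ∣ t - (o + 1) := by
    rcases hi' with rfl | rfl
    · rwa [sub_add_eq_sub_sub]
    · have := dvd_sub hd2 (dvd_refl (2 : ℤ))
      have e : t - o - -1 - 2 = t - (o + 1) := by ring
      rwa [e] at this
  have := (ZMod.intCast_zmod_eq_zero_iff_dvd (t - (o + 1)) 2).2 (by exact_mod_cast hd3)
  push_cast at this
  exact sub_eq_zero.1 this

theorem par_intCast (x : ℤ) : par (x : ZMod 8) = (x : ZMod 2) := map_intCast _ _

open Classical in
/-- the true extra bit of a row -/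
noncomputable def bst (pW : ℕ) (y : ℤ) : ZMod 2 := if Near pW 0 y then 1 else 0

open DigitTruth in
/-- the true letters -/
noncomputable def lamT (pW : ℕ) : (n : Dig) → ℤ → L n.cmp
  | .F => fun x => ((x : ZMod 8), dig 8 x)
  | .E => fun y => ((y : ZMod 8), dig 8 y, bst pW y)
  | .K => fun x => ((x : ZMod 8), dig 8 x)
  | .G => fun x => dig 8 x

/-- the product of the label moduli of a digit component -/
def prodR (r : ∀ i, L i → ℕ) (n : Dig) : ℕ := ∏ a, r n.cmp a

open Classical in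
/-- the true offsets of the gates -/
noncomputable def offT (p : Cmp → ℕ) (r : ∀ i, L i → ℕ) : Cmp → ℤ → ℤ
  | .QF => fun t => 2 * p .QF * (t % prodR r .F)
  | .QE => fun t => 2 * p .QE * (t % prodR r .E)
  | .QK => fun t => 2 * p .QK * (t % prodR r .K)
  | .QG => fun t => 2 * p .QG * (t % prodR r .G)
  | .U => fun y => if Near (p .W) 0 y then 0 else 1
  | .W => fun x => if Even x then 0 else 2 * p .W
  | _ => fun _ => 0

theorem offT_gate (p : Cmp → ℕ) (r : ∀ i, L i → ℕ) (n : Dig) (t : ℤ) :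
    offT p r n.gate t = 2 * p n.gate * (t % prodR r n) := by
  cases n <;> rfl

open Classical in
/-- the true holes of the digit lines -/
noncomputable def holT (p : Cmp → ℕ) (r : ∀ i, L i → ℕ) (n : Dig) (l : ℤ) : ℤ :=
  if h : ∃ η : ℤ, 0 ≤ η ∧ η < prodR r n ∧ Near (p n.gate) (2 * p n.gate * η) l then h.choose
  else 0

/-- **Truth logic**: the intended letters, holes and offsets satisfy all clauses. -/
theorem clauses_of_truth (p : Cmp → ℕ) (r : ∀ i, L i → ℕ) (hU : p .U = 2) (hW : 5 ≤ p .W)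
    (hr : ∀ (n : Dig) a, 0 < r n.cmp a) (hQ : ∀ n : Dig, 2 * prodR r n ≤ p n.gate)
    (Bad : ∀ i : Cmp, L i → ℤ × ℤ → Prop)
    (hD : ∀ (n : Dig) (a : L n.cmp) v, Bad n.cmp a v → lamT (p .W) n (li n.cmp v) = a ∧
      ((ti n.cmp v : ℤ) : ZMod (r n.cmp a)) ≠ (holT p r n (li n.cmp v) : ℤ))
    (hG : ∀ (n : Dig) v, Bad n.gate n.star v →
      Near (p n.gate) (offT p r n.gate (li n.gate v)) (ti n.gate v))
    (hGU : ∀ v, Bad .U starU v → Near (p .U) (offT p r .U (li .U v)) (ti .U v))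
    (hGW : ∀ v, Bad .W starW v → Near (p .W) (offT p r .W (li .W v)) (ti .W v)) :
    Clauses Bad := by
  have hFF : ∀ v (a : L .F), Bad .F a v → a = ((v.1 : ZMod 8), DigitTruth.dig 8 v.1) :=
    fun v a h => ((hD .F a v h).1).symm
  have hEE : ∀ v (a : L .E), Bad .E a v →
      a = ((v.2 : ZMod 8), DigitTruth.dig 8 v.2, bst (p .W) v.2) :=
    fun v a h => ((hD .E a v h).1).symm
  have hKK : ∀ v (a : L .K), Bad .K a v →
      a = (((v.1 + v.2 : ℤ) : ZMod 8), DigitTruth.dig 8 (v.1 + v.2)) :=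
    fun v a h => ((hD .K a v h).1).symm
  have hGG : ∀ v (a : L .G), Bad .G a v → a = DigitTruth.dig 8 (v.1 + 8 * v.2) :=
    fun v a h => ((hD .G a v h).1).symm
  have h8 : 1 < 8 := by norm_num
  constructor
  · intro v a b c ha hb hc
    rw [hFF v a ha, hEE v b hb, hKK v c hc]
    push_cast
    rfl
  · intro v a b c d ha hb hc hd
    rw [hFF v a ha, hEE v b hb, hKK v c hc, hGG v d hd]
    have := DigitTruth.rel_dig h8 v.1 v.2
    refine ⟨fun h => ?_, fun h => ?_⟩
    · rcases this.1 h with h' | h' | h'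
      · exact Or.inl h'
      · exact Or.inr (Or.inl h')
      · exact Or.inr (Or.inr (eq_neg_of_add_eq_zero_left h'))
    · rcases this.2 h with h' | h' | h'
      · exact Or.inl h'
      · exact Or.inr (Or.inl h')
      · exact Or.inr (Or.inr (eq_neg_of_add_eq_zero_right h'))
  · intro v a ha
    rw [hFF v a ha]
    exact ⟨DigitTruth.dig_ne_zero h8 _, fun h => DigitTruth.dig_of_not h8 _ h⟩
  · intro v a ha
    rw [hEE v a ha]
    exact ⟨DigitTruth.dig_ne_zero h8 _, fun h => DigitTruth.dig_of_not h8 _ h⟩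
  · intro v a ha
    rw [hKK v a ha]
    exact ⟨DigitTruth.dig_ne_zero h8 _, fun h => DigitTruth.dig_of_not h8 _ h⟩
  · intro v a ha
    rw [hGG v a ha]
    exact DigitTruth.dig_ne_zero h8 _
  · intro v a b hu ha hb
    have h1 := hGU v hu
    rw [hFF v a ha, hEE v b hb]
    rw [hU] at h1
    have h2 := near_two h1
    show par ((v.1 : ℤ) : ZMod 8) = bst (p .W) v.2
    rw [par_intCast]
    have h3 : ((v.1 : ℤ) : ZMod 2) = ((offT p r .U v.2 : ℤ) : ZMod 2) + 1 := h2
    rw [h3]
    unfold offT bst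
    by_cases hn : Near (p .W) 0 v.2
    · simp [hn]
    · simp only [hn, if_false]
      decide
  · intro v a b hw ha hb
    have h1 : Near (p .W) (offT p r .W v.1) v.2 := hGW v hw
    rw [hFF v a ha, hEE v b hb]
    show par ((v.1 : ℤ) : ZMod 8) ≠ bst (p .W) v.2
    rw [par_intCast]
    unfold offT at h1
    by_cases he : Even v.1
    · simp only [he, if_true] at h1
      have h0 : ((v.1 : ℤ) : ZMod 2) = 0 := (ZMod.intCast_zmod_eq_zero_iff_dvd _ _).2 he.two_dvd
      rw [h0]
      unfold bst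
      rw [if_pos h1]
      decide
    · simp only [he, if_false] at h1
      have h2 := near_not hW h1
      have h0 : ((v.1 : ℤ) : ZMod 2) ≠ 0 := by
        intro h
        have := (ZMod.intCast_zmod_eq_zero_iff_dvd _ _).1 h
        exact he (even_iff_two_dvd.2 (by exact_mod_cast this))
      unfold bst
      rw [if_neg h2]
      exact h0
  · intro n v a hq ha
    have h1 := hG n v hq
    rw [offT_gate, li_gate, ti_gate] at h1
    obtain ⟨-, h2⟩ := hD n a v ha
    apply h2
    have hRpos : 0 < prodR r n := Finset.prod_pos fun a _ => hr n a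
    have hRpos' : (0 : ℤ) < prodR r n := by exact_mod_cast hRpos
    have hex : ∃ η : ℤ, 0 ≤ η ∧ η < prodR r n ∧
        Near (p n.gate) (2 * p n.gate * η) (li n.cmp v) :=
      ⟨_, Int.emod_nonneg _ hRpos'.ne', Int.emod_lt_of_pos _ hRpos', h1⟩
    have hh : holT p r n (li n.cmp v) = ti n.cmp v % prodR r n := by
      unfold holT
      rw [dif_pos hex]
      obtain ⟨c0, c1, c2⟩ := hex.choose_spec
      exact near_unique (hQ n) c0 c1 (Int.emod_nonneg _ hRpos'.ne')
        (Int.emod_lt_of_pos _ hRpos') c2 h1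
    rw [hh]
    have hdvd : (r n.cmp a : ℤ) ∣ ti n.cmp v - ti n.cmp v % prodR r n := by
      have e1 : (prodR r n : ℤ) ∣ ti n.cmp v - ti n.cmp v % prodR r n := by
        exact Int.dvd_self_sub_emod
      refine dvd_trans ?_ e1
      exact_mod_cast Finset.dvd_prod_of_mem _ (Finset.mem_univ a)
    rw [← sub_eq_zero, ← Int.cast_sub]
    exact (ZMod.intCast_zmod_eq_zero_iff_dvd _ _).2 hdvd

end Crest.Agent.R046.Glue
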