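import Crest.Agent.R046.Data
import Crest.Agent.R046.Moduli
import Crest.Agent.R046.TruthLogic
import Crest.Agent.R046.Cells

set_option autoImplicit false

/-! Row 46: assembling the proof of S0065 from the component theorems, the clause list and the
cells argument. -/

namespace Crest.Agent.R046.Glue

open Crest.CombinatoricsR.Tiling Crest.Agent.R046.Comp

/-! ### the clause list, semantically -/

/-- `(J, l)` is a forbidden combination: it is excluded by the clauses. -/
def Forb (J : Finset Cmp) (l : ∀ i, L i) : Prop :=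
  ∀ Bad : ∀ i : Cmp, L i → ℤ × ℤ → Prop, Clauses Bad → ∀ v, ∃ i ∈ J, ¬ Bad i (l i) v

/-- a label choice -/
def mk4 (a : L .F) (b : L .E) (c : L .K) (d : L .G) : ∀ i, L i
  | .F => a
  | .E => b
  | .K => c
  | .G => d
  | .QF => ()
  | .QE => ()
  | .QK => ()
  | .QG => ()
  | .U => ()
  | .W => ()

def a0 : L .F := ((0 : ZMod 8), (0 : ZMod 8))
def b0 : L .E := ((0 : ZMod 8), (0 : ZMod 8), (0 : ZMod 2))
def c0 : L .K := ((0 : ZMod 8), (0 : ZMod 8))
def d0 : L .G := (0 : ZMod 8)

theorem clauses_of_forb (Bad : ∀ i : Cmp, L i → ℤ × ℤ → Prop)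
    (h : ∀ J l, J.Nonempty → Forb J l → ∀ v, ∃ i ∈ J, ¬ Bad i (l i) v) : Clauses Bad := by
  have key : ∀ (J : Finset Cmp) (l : ∀ i, L i) (v : ℤ × ℤ), J.Nonempty → (∀ i ∈ J, Bad i (l i) v) →
      ¬ Forb J l := by
    intro J l v hJ hb hf
    obtain ⟨i, hi, hi'⟩ := h J l hJ hf v
    exact hi' (hb i hi)
  constructor
  · intro v a b c ha hb hc
    by_contra hne
    refine key {.F, .E, .K} (mk4 a b c d0) v ⟨.F, by decide⟩ ?_ ?_
    · intro i hi
      simp only [Finset.mem_insert, Finset.mem_singleton] at hi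
      rcases hi with rfl | rfl | rfl
      exacts [ha, hb, hc]
    · intro B hB w
      by_contra hcon
      push Not at hcon
      exact hne (hB.cauchy w a b c (hcon .F (by decide)) (hcon .E (by decide))
        (hcon .K (by decide)))
  · intro v a b c d ha hb hc hd
    by_contra hne
    refine key {.F, .E, .K, .G} (mk4 a b c d) v ⟨.F, by decide⟩ ?_ ?_
    · intro i hi
      simp only [Finset.mem_insert, Finset.mem_singleton] at hi
      rcases hi with rfl | rfl | rfl | rfl
      exacts [ha, hb, hc, hd]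
    · intro B hB w
      by_contra hcon
      push Not at hcon
      exact hne (hB.rel w a b c d (hcon .F (by decide)) (hcon .E (by decide))
        (hcon .K (by decide)) (hcon .G (by decide)))
  · intro v a ha
    by_contra hne
    refine key {.F} (mk4 a b0 c0 d0) v ⟨.F, by decide⟩ ?_ ?_
    · intro i hi
      simp only [Finset.mem_singleton] at hi
      subst hi
      exact ha
    · intro B hB w
      by_contra hcon
      push Not at hcon
      exact hne (hB.okF w a (hcon .F (by decide)))
  · intro v a ha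
    by_contra hne
    refine key {.E} (mk4 a0 a c0 d0) v ⟨.E, by decide⟩ ?_ ?_
    · intro i hi
      simp only [Finset.mem_singleton] at hi
      subst hi
      exact ha
    · intro B hB w
      by_contra hcon
      push Not at hcon
      exact hne (hB.okE w a (hcon .E (by decide)))
  · intro v a ha
    by_contra hne
    refine key {.K} (mk4 a0 b0 a d0) v ⟨.K, by decide⟩ ?_ ?_
    · intro i hi
      simp only [Finset.mem_singleton] at hi
      subst hi
      exact ha
    · intro B hB w
      by_contra hcon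
      push Not at hcon
      exact hne (hB.okK w a (hcon .K (by decide)))
  · intro v a ha
    by_contra hne
    refine key {.G} (mk4 a0 b0 c0 a) v ⟨.G, by decide⟩ ?_ ?_
    · intro i hi
      simp only [Finset.mem_singleton] at hi
      subst hi
      exact ha
    · intro B hB w
      by_contra hcon
      push Not at hcon
      exact hB.okG w a (hcon .G (by decide)) hne
  · intro v a b hu ha hb
    by_contra hne
    refine key {.U, .F, .E} (mk4 a b c0 d0) v ⟨.F, by decide⟩ ?_ ?_
    · intro i hi
      simp only [Finset.mem_insert, Finset.mem_singleton] at hi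
      rcases hi with rfl | rfl | rfl
      exacts [hu, ha, hb]
    · intro B hB w
      by_contra hcon
      push Not at hcon
      exact hne (hB.parU w a b (hcon .U (by decide)) (hcon .F (by decide)) (hcon .E (by decide)))
  · intro v a b hu ha hb hne
    refine key {.W, .F, .E} (mk4 a b c0 d0) v ⟨.F, by decide⟩ ?_ ?_
    · intro i hi
      simp only [Finset.mem_insert, Finset.mem_singleton] at hi
      rcases hi with rfl | rfl | rfl
      exacts [hu, ha, hb]
    · intro B hB w
      by_contra hcon
      push Not at hcon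
      exact hB.parW w a b (hcon .W (by decide)) (hcon .F (by decide)) (hcon .E (by decide)) hne
  · intro n v a hq ha
    cases n
    · refine key {.QF, .F} (mk4 a b0 c0 d0) v ⟨.F, by decide⟩ ?_ ?_
      · intro i hi
        simp only [Finset.mem_insert, Finset.mem_singleton] at hi
        rcases hi with rfl | rfl
        exacts [hq, ha]
      · intro B hB w
        by_contra hcon
        push Not at hcon
        exact hB.align .F w a (hcon .QF (by decide)) (hcon .F (by decide))
    · refine key {.QE, .E} (mk4 a0 a c0 d0) v ⟨.E, by decide⟩ ?_ ?_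
      · intro i hi
        simp only [Finset.mem_insert, Finset.mem_singleton] at hi
        rcases hi with rfl | rfl
        exacts [hq, ha]
      · intro B hB w
        by_contra hcon
        push Not at hcon
        exact hB.align .E w a (hcon .QE (by decide)) (hcon .E (by decide))
    · refine key {.QK, .K} (mk4 a0 b0 a d0) v ⟨.K, by decide⟩ ?_ ?_
      · intro i hi
        simp only [Finset.mem_insert, Finset.mem_singleton] at hi
        rcases hi with rfl | rfl
        exacts [hq, ha]
      · intro B hB w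
        by_contra hcon
        push Not at hcon
        exact hB.align .K w a (hcon .QK (by decide)) (hcon .K (by decide))
    · refine key {.QG, .G} (mk4 a0 b0 c0 a) v ⟨.G, by decide⟩ ?_ ?_
      · intro i hi
        simp only [Finset.mem_insert, Finset.mem_singleton] at hi
        rcases hi with rfl | rfl
        exacts [hq, ha]
      · intro B hB w
        by_contra hcon
        push Not at hcon
        exact hB.align .G w a (hcon .QG (by decide)) (hcon .G (by decide))

/-! ### the component theorem, as a hypothesis -/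

/-- the statement of the component theorem (`Comp.lean`) -/
def CompThm : Prop :=
  ∀ {p : ℕ} [NeZero p] (_ : 2 ≤ p) {S : Type} [Fintype S] [DecidableEq S] [Nonempty S]
    (r : Option S → ℕ) [∀ a, NeZero (r a)] (_ : ∀ a, 3 ≤ r a)
    (_ : Pairwise fun a b => Nat.Coprime (r a) (r b)) (_ : ∀ a, Nat.Coprime p (r a))
    (w e : ℤ × ℤ) (l t : ℤ × ℤ → ℤ) (_ : ∀ v, v = l v • e + t v • w)
    (_ : ∀ a b : ℤ, l (a • e + b • w) = a) (_ : ∀ a b : ℤ, t (a • e + b • w) = b)
    (rigid : Prop),
    ∃ C : Set (Finset ((ℤ × ℤ) × Fib p r)), C.Finite ∧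
      (∀ A, (∀ F ∈ C, IsTilingBy F A) → Transv (fT p r) A ∧
        ∃ τ : ℤ → ℤ, (rigid → ∀ n, τ n = τ 0) ∧ ∀ n, ∃ (s : S) (h : ℤ), ∀ v, l v = n →
          ((t v : ℤ) : ZMod (p ^ 2)) = τ n → ((t v : ℤ) : ZMod (r (some s))) ≠ h →
            Bad A (some s) v) ∧
      (∀ (lam : ℤ → S) (h o : ℤ → ℤ), (rigid → ∀ n, o n = 0) →
        ∃ A, Transv (fT p r) A ∧ (∀ F ∈ C, IsTilingBy F A) ∧
          ∀ v s, Bad A (some s) v → lam (l v) = s ∧
            ((t v : ℤ) : ZMod (r (some s))) ≠ h (l v) ∧
            ∃ j : ℤ, j ≠ 0 ∧ |j| < p ∧ ((t v : ℤ) : ZMod (p ^ 2)) = o (l v) + j)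

/-- transversal vector -/
def ei : Cmp → ℤ × ℤ
  | .F => (1, 0)
  | .E => (0, 1)
  | .K => (0, 1)
  | .G => (1, 0)
  | .QF => (0, 1)
  | .QE => (1, 0)
  | .QK => (1, -1)
  | .QG => (-8, 1)
  | .U => (0, 1)
  | .W => (1, 0)

/-- direction of the lines -/
def wi : Cmp → ℤ × ℤ
  | .F => (0, 1)
  | .E => (1, 0)
  | .K => (1, -1)
  | .G => (-8, 1)
  | .QF => (1, 0)
  | .QE => (0, 1)
  | .QK => (0, 1)
  | .QG => (1, 0)
  | .U => (1, 0)
  | .W => (0, 1)

theorem geo (i : Cmp) (v : ℤ × ℤ) : v = li i v • ei i + ti i v • wi i := by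
  cases i <;> (simp only [li, ti, ei, wi]; ext <;> simp <;> ring)

theorem geo_li (i : Cmp) (a b : ℤ) : li i (a • ei i + b • wi i) = a := by
  cases i <;> (simp only [li, ei, wi]; simp <;> ring)

theorem geo_ti (i : Cmp) (a b : ℤ) : ti i (a • ei i + b • wi i) = b := by
  cases i <;> (simp only [ti, ei, wi]; simp <;> ring)

instance instNonemptyL (i : Cmp) : Nonempty (L i) := ⟨mk4 a0 b0 c0 d0 i⟩

/-- the gate across a component (junk value `QF` for gates) -/
def gateOf : Cmp → Cmp
  | .F => .QF
  | .E => .QE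
  | .K => .QK
  | .G => .QG
  | _ => .QF

/-- the letters of the true solution, for all components -/
noncomputable def lamC (pW : ℕ) : ∀ i : Cmp, ℤ → L i
  | .F => lamT pW .F
  | .E => lamT pW .E
  | .K => lamT pW .K
  | .G => lamT pW .G
  | .QF => fun _ => ()
  | .QE => fun _ => ()
  | .QK => fun _ => ()
  | .QG => fun _ => ()
  | .U => fun _ => ()
  | .W => fun _ => ()

/-- the holes of the true solution -/
noncomputable def holC (p : Cmp → ℕ) (r : ∀ i, L i → ℕ) : Cmp → ℤ → ℤ
  | .F => holT p r .F
  | .E => holT p r .E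
  | .K => holT p r .K
  | .G => holT p r .G
  | _ => fun _ => 0

theorem near_of {p : ℕ} {o t j : ℤ} (hj : j ≠ 0) (hj' : |j| < p)
    (h : ((t : ℤ) : ZMod (p ^ 2)) = (o : ZMod (p ^ 2)) + (j : ZMod (p ^ 2))) : Near p o t := by
  refine ⟨j, hj, hj', ?_⟩
  have : ((t - o - j : ℤ) : ZMod (p ^ 2)) = 0 := by
    push_cast
    rw [h]; ring
  have := (ZMod.intCast_zmod_eq_zero_iff_dvd _ _).1 this
  exact_mod_cast this

/-- the index of a modulus -/
def midx : (Σ i, Option (L i)) → Cmp ⊕ (Σ i, Option (L i))
  | ⟨i, none⟩ => Sum.inl i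
  | ⟨i, some a⟩ => Sum.inr ⟨i, some a⟩

theorem midx_injective : Function.Injective midx := by
  rintro ⟨i, x⟩ ⟨j, y⟩ h
  cases x <;> cases y
  · simp only [midx] at h
    obtain rfl := Sum.inl.inj h
    rfl
  · simp [midx] at h
  · simp [midx] at h
  · simp only [midx] at h
    exact Sum.inr.inj h

/-- **S0065 from the component theorem.** -/
theorem s0065_of_comp (hcomp : CompThm) :
    ∃ T : Finset (Fin 3 → ℤ), T.Nonempty ∧
      (∃ A : Set (Fin 3 → ℤ), IsTilingBy T A) ∧
      (∀ A : Set (Fin 3 → ℤ), IsTilingBy T A → ¬ IsFullyPeriodic A) ∧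
      (∃ B : Set (Fin 3 → ℝ), IsAETilingBy (cubeThickening T) B) ∧
      ∀ B : Set (Fin 3 → ℝ), IsAETilingBy (cubeThickening T) B → ¬ IsLatticePeriodic B := by
  classical
  obtain ⟨m, hinj, hprime, hU, hW, hQ⟩ := exists_moduli (I := Cmp) (fun i => Option (L i)) .U .W
    (by decide) {i | ¬ IsGate i} gateOf (by
      intro n _
      cases n <;> exact ⟨by decide, by decide⟩)
  let p : Cmp → ℕ := fun i => m (Sum.inl i)
  let rr : ∀ i, Option (L i) → ℕ := fun i a => m (Sum.inr ⟨i, a⟩)
  let r : ∀ i, L i → ℕ := fun i a => rr i (some a)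
  have hpU : p .U = 2 := hU
  have hpW : p .W = 5 := hW
  have hp2 : ∀ i, 2 ≤ p i := fun i => (hprime _).two_le
  have hrr3 : ∀ i a, 3 ≤ rr i a := by
    intro i a
    have h1 : 2 ≤ rr i a := (hprime _).two_le
    have h2 : rr i a ≠ 2 := by
      intro h
      have : m (Sum.inr ⟨i, a⟩) = m (Sum.inl .U) := by rw [hU]; exact h
      exact absurd (hinj this) (by simp)
    omega
  have instp : ∀ i, NeZero (p i) := fun i => ⟨by have := hp2 i; omega⟩
  have instr : ∀ i a, NeZero (rr i a) := fun i a => ⟨by have := hrr3 i a; omega⟩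
  have key := fun i : Cmp => hcomp (p := p i) (hp2 i) (S := L i) (rr i) (hrr3 i)
    (moduli_rr hinj hprime i) (moduli_pr hinj hprime i i) (wi i) (ei i) (li i) (ti i) (geo i)
    (geo_li i) (geo_ti i) (¬ IsGate i)
  choose C hCfin hF hT using key
  have hfin : ∀ i, Finite (C i) := fun i => (hCfin i).to_subtype
  refine s0065_of_data p (fun i => Option (L i)) rr hp2 (moduli_pp hinj hprime)
    (moduli_pr hinj hprime) (moduli_rr hinj hprime) (moduli_rr' hinj hprime)
    (κ := fun i => C i) (fun i k => k.1)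
    (γ := {c : Finset Cmp × (∀ i, L i) // c.1.Nonempty ∧ Forb c.1 c.2}) (fun c => c.1.1)
    (fun c => c.2.1) (fun c i => some (c.1.2 i)) ?_ ?_
  · -- existence
    have hrig : ∀ i, ¬ IsGate i → ∀ n, offT p r i n = 0 := by
      intro i hi n
      cases i <;> first | rfl | exact absurd trivial hi
    choose A hA1 hA2 hA3 using fun i => hT i (lamC (p .W) i) (holC p r i) (offT p r i) (hrig i)
    refine ⟨A, hA1, fun i k => hA2 i k.1 k.2, fun c v => ?_⟩
    have hcl : Clauses (fun i a v => Bad (A i) (some a) v) := by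
      refine clauses_of_truth p r hpU hpW.ge (fun n a => ?_) (fun n => ?_) _ ?_ ?_ ?_ ?_
      · have := hrr3 n.cmp (some a)
        show 0 < rr n.cmp (some a)
        omega
      · have h1 : 2 * ∏ a : Option (L n.cmp), m (Sum.inr ⟨n.cmp, a⟩) ≤ m (Sum.inl (gateOf n.cmp)) :=
          hQ n.cmp (by cases n <;> simp [Dig.cmp, IsGate])
        have h2 : gateOf n.cmp = n.gate := by cases n <;> rfl
        rw [h2, Fintype.prod_option] at h1
        refine le_trans ?_ h1
        refine Nat.mul_le_mul_left _ ?_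
        refine Nat.le_mul_of_pos_left _ ?_
        exact (hprime _).pos
      · intro n a v hb
        obtain ⟨h1, h2, -⟩ := hA3 n.cmp v a hb
        cases n
        · exact ⟨h1, h2⟩
        · exact ⟨h1, h2⟩
        · exact ⟨h1, h2⟩
        · exact ⟨h1, h2⟩
      · intro n v hb
        obtain ⟨-, -, j, hj, hj', h3⟩ := hA3 n.gate v n.star hb
        exact near_of hj hj' h3
      · intro v hb
        obtain ⟨-, -, j, hj, hj', h3⟩ := hA3 .U v starU hb
        exact near_of hj hj' h3
      · intro v hb
        obtain ⟨-, -, j, hj, hj', h3⟩ := hA3 .W v starW hb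
        exact near_of hj hj' h3
    exact c.2.2 _ hcl v
  · -- no periodic solution
    intro A hA1 hA2 hA3 N hN hper
    have hcl : Clauses (fun i a v => Bad (A i) (some a) v) :=
      clauses_of_forb _ fun J l hJ hf v => hA3 ⟨(J, l), hJ, hf⟩ v
    have hforced := fun i => (hF i (A i) (fun F hFm => hA2 i ⟨F, hFm⟩)).2
    refine false_of_forced (p := p) (r := r) (fun i a => ?_) ?_ hcl ?_ ?_ (N := (N : ℤ))
      (by exact_mod_cast hN) ?_
    · exact le_trans (by norm_num) (hrr3 i (some a))
    · intro x y hxy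
      have : ∀ z, modul p r z = m (midx z) := by
        rintro ⟨i, z⟩
        cases z <;> rfl
      show Nat.Coprime (modul p r x) (modul p r y)
      rw [this, this]
      exact moduli_coprime hinj hprime (fun h => hxy (midx_injective h))
    · intro d
      obtain ⟨τ, hτ, hl⟩ := hforced d.cmp
      have hnd : ¬ IsGate d.cmp := by cases d <;> simp [Dig.cmp, IsGate]
      refine ⟨(τ 0 : ZMod (p d.cmp ^ 2)), fun n => ?_⟩
      obtain ⟨s, h, hs⟩ := hl n
      refine ⟨s, (h : ZMod _), fun v hv h1 h2 => hs v hv ?_ h2⟩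
      rw [hτ hnd n]
      exact h1
    · intro i _ n
      obtain ⟨τ, -, hl⟩ := hforced i
      obtain ⟨s, h, hs⟩ := hl n
      exact ⟨(τ n : ZMod _), s, (h : ZMod _), fun v hv h1 h2 => hs v hv h1 h2⟩
    · intro i a v u
      constructor
      · rintro ⟨g, g', h1, h2, h3⟩
        exact ⟨g, g', (hper i v u g).2 h1, (hper i v u g').2 h2, h3⟩
      · rintro ⟨g, g', h1, h2, h3⟩
        exact ⟨g, g', (hper i v u g).1 h1, (hper i v u g').1 h2, h3⟩

end Crest.Agent.R046.Glue
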