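import Crest.Agent.R046.Clauses

set_option autoImplicit false

/-! Row 46: the clauses as data for `s0065_of_data`. -/

namespace Crest.Agent.R046.Glue

/-- the clauses in terms of the labels `LL i` of the tiles; `γ` consists of all pairs
`(J, lab)` whose clause follows from `Clauses` -/
theorem clause_data {LL : Cmp → Type} [∀ i, Finite (LL i)] [∀ i, Nonempty (LL i)]
    (emb : ∀ i, L i → LL i) :
    ∃ (γ : Type) (_ : Finite γ) (J : γ → Finset Cmp) (lab : γ → ∀ i, LL i),
      (∀ c, (J c).Nonempty) ∧ ∀ Bad' : ∀ i, LL i → ℤ × ℤ → Prop,
        (∀ c v, ∃ i ∈ J c, ¬ Bad' i (lab c i) v) ↔ Clauses (fun i a v => Bad' i (emb i a) v) := by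
  classical
  let Valid : Finset Cmp × (∀ i, LL i) → Prop := fun c => c.1.Nonempty ∧
    ∀ Bad' : ∀ i, LL i → ℤ × ℤ → Prop, Clauses (fun i a v => Bad' i (emb i a) v) →
      ∀ v, ∃ i ∈ c.1, ¬ Bad' i (c.2 i) v
  let d : ∀ i, LL i := fun i => Classical.arbitrary _
  refine ⟨{c : Finset Cmp × (∀ i, LL i) // Valid c}, inferInstance, fun c => c.1.1, fun c => c.1.2,
    fun c => c.2.1, fun Bad' => ⟨fun h => ?_, fun h c v => c.2.2 Bad' h v⟩⟩
  have key : ∀ (J : Finset Cmp) (lab : ∀ i, LL i), Valid (J, lab) → ∀ v,
      (∀ i ∈ J, Bad' i (lab i) v) → False := by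
    intro J lab hv v hb
    obtain ⟨i, hi, hi'⟩ := h ⟨(J, lab), hv⟩ v
    exact hi' (hb i hi)
  constructor
  · intro v a b c ha hb hc
    by_contra hne
    let lab : ∀ i, LL i := Function.update (Function.update (Function.update d .F (emb .F a))
      .E (emb .E b)) .K (emb .K c)
    have e1 : lab .F = emb .F a := by simp [lab]
    have e2 : lab .E = emb .E b := by simp [lab]
    have e3 : lab .K = emb .K c := by simp [lab]
    refine key {.F, .E, .K} lab ⟨⟨.F, by simp⟩, fun B hB w => ?_⟩ v ?_
    · by_contra hcon
      push Not at hcon
      have f1 := hcon .F (by simp)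
      have f2 := hcon .E (by simp)
      have f3 := hcon .K (by simp)
      simp only [e1, e2, e3] at f1 f2 f3
      exact hne (hB.cauchy w a b c f1 f2 f3)
    · intro i hi
      simp only [Finset.mem_insert, Finset.mem_singleton] at hi
      rcases hi with rfl | rfl | rfl
      · rw [e1]; exact ha
      · rw [e2]; exact hb
      · rw [e3]; exact hc
  · intro v a b c g ha hb hc hg
    by_contra hne
    let lab : ∀ i, LL i := Function.update (Function.update (Function.update (Function.update d
      .F (emb .F a)) .E (emb .E b)) .K (emb .K c)) .G (emb .G g)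
    have e1 : lab .F = emb .F a := by simp [lab]
    have e2 : lab .E = emb .E b := by simp [lab]
    have e3 : lab .K = emb .K c := by simp [lab]
    have e4 : lab .G = emb .G g := by simp [lab]
    refine key {.F, .E, .K, .G} lab ⟨⟨.F, by simp⟩, fun B hB w => ?_⟩ v ?_
    · by_contra hcon
      push Not at hcon
      have f1 := hcon .F (by simp)
      have f2 := hcon .E (by simp)
      have f3 := hcon .K (by simp)
      have f4 := hcon .G (by simp)
      simp only [e1, e2, e3, e4] at f1 f2 f3 f4
      exact hne (hB.rel w a b c g f1 f2 f3 f4)
    · intro i hi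
      simp only [Finset.mem_insert, Finset.mem_singleton] at hi
      rcases hi with rfl | rfl | rfl | rfl
      · rw [e1]; exact ha
      · rw [e2]; exact hb
      · rw [e3]; exact hc
      · rw [e4]; exact hg
  · intro v a ha
    by_contra hne
    let lab : ∀ i, LL i := Function.update d .F (emb .F a)
    have e1 : lab .F = emb .F a := by simp [lab]
    refine key {.F} lab ⟨⟨.F, by simp⟩, fun B hB w => ?_⟩ v ?_
    · by_contra hcon
      push Not at hcon
      have f1 := hcon .F (by simp)
      simp only [e1] at f1
      exact hne (hB.okF w a f1)
    · intro i hi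
      simp only [Finset.mem_singleton] at hi
      subst hi
      rw [e1]; exact ha
  · intro v a ha
    by_contra hne
    let lab : ∀ i, LL i := Function.update d .E (emb .E a)
    have e1 : lab .E = emb .E a := by simp [lab]
    refine key {.E} lab ⟨⟨.E, by simp⟩, fun B hB w => ?_⟩ v ?_
    · by_contra hcon
      push Not at hcon
      have f1 := hcon .E (by simp)
      simp only [e1] at f1
      exact hne (hB.okE w a f1)
    · intro i hi
      simp only [Finset.mem_singleton] at hi
      subst hi
      rw [e1]; exact ha
  · intro v a ha
    by_contra hne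
    let lab : ∀ i, LL i := Function.update d .K (emb .K a)
    have e1 : lab .K = emb .K a := by simp [lab]
    refine key {.K} lab ⟨⟨.K, by simp⟩, fun B hB w => ?_⟩ v ?_
    · by_contra hcon
      push Not at hcon
      have f1 := hcon .K (by simp)
      simp only [e1] at f1
      exact hne (hB.okK w a f1)
    · intro i hi
      simp only [Finset.mem_singleton] at hi
      subst hi
      rw [e1]; exact ha
  · intro v a ha
    by_contra hne
    let lab : ∀ i, LL i := Function.update d .G (emb .G a)
    have e1 : lab .G = emb .G a := by simp [lab]
    refine key {.G} lab ⟨⟨.G, by simp⟩, fun B hB w => ?_⟩ v ?_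
    · by_contra hcon
      push Not at hcon
      have f1 := hcon .G (by simp)
      simp only [e1] at f1
      exact hB.okG w a f1 hne
    · intro i hi
      simp only [Finset.mem_singleton] at hi
      subst hi
      rw [e1]; exact ha
  · intro v a b hu ha hb
    by_contra hne
    let lab : ∀ i, LL i := Function.update (Function.update (Function.update d .F (emb .F a))
      .E (emb .E b)) .U (emb .U starU)
    have e1 : lab .F = emb .F a := by simp [lab]
    have e2 : lab .E = emb .E b := by simp [lab]
    have e3 : lab .U = emb .U starU := by simp [lab]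
    refine key {.F, .E, .U} lab ⟨⟨.F, by simp⟩, fun B hB w => ?_⟩ v ?_
    · by_contra hcon
      push Not at hcon
      have f1 := hcon .F (by simp)
      have f2 := hcon .E (by simp)
      have f3 := hcon .U (by simp)
      simp only [e1, e2, e3] at f1 f2 f3
      exact hne (hB.parU w a b f3 f1 f2)
    · intro i hi
      simp only [Finset.mem_insert, Finset.mem_singleton] at hi
      rcases hi with rfl | rfl | rfl
      · rw [e1]; exact ha
      · rw [e2]; exact hb
      · rw [e3]; exact hu
  · intro v a b hu ha hb
    by_contra hne
    let lab : ∀ i, LL i := Function.update (Function.update (Function.update d .F (emb .F a))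
      .E (emb .E b)) .W (emb .W starW)
    have e1 : lab .F = emb .F a := by simp [lab]
    have e2 : lab .E = emb .E b := by simp [lab]
    have e3 : lab .W = emb .W starW := by simp [lab]
    refine key {.F, .E, .W} lab ⟨⟨.F, by simp⟩, fun B hB w => ?_⟩ v ?_
    · by_contra hcon
      push Not at hcon
      have f1 := hcon .F (by simp)
      have f2 := hcon .E (by simp)
      have f3 := hcon .W (by simp)
      simp only [e1, e2, e3] at f1 f2 f3
      exact hB.parW w a b f3 f1 f2 hne
    · intro i hi
      simp only [Finset.mem_insert, Finset.mem_singleton] at hi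
      rcases hi with rfl | rfl | rfl
      · rw [e1]; exact ha
      · rw [e2]; exact hb
      · rw [e3]; exact hu
  · intro n v a hg ha
    have hne : n.cmp ≠ n.gate := by cases n <;> decide
    let lab : ∀ i, LL i := Function.update (Function.update d n.cmp (emb n.cmp a))
      n.gate (emb n.gate n.star)
    have e1 : lab n.cmp = emb n.cmp a := by
      simp only [lab]
      rw [Function.update_of_ne hne, Function.update_self]
    have e2 : lab n.gate = emb n.gate n.star := by
      simp only [lab]
      rw [Function.update_self]
    refine key {n.cmp, n.gate} lab ⟨⟨n.cmp, by simp⟩, fun B hB w => ?_⟩ v ?_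
    · by_contra hcon
      push Not at hcon
      have f1 := hcon n.cmp (by simp)
      have f2 := hcon n.gate (by simp)
      simp only [e1, e2] at f1 f2
      exact hB.align n w a f2 f1
    · intro i hi
      simp only [Finset.mem_insert, Finset.mem_singleton] at hi
      rcases hi with rfl | rfl
      · rw [e1]; exact ha
      · rw [e2]; exact hg

end Crest.Agent.R046.Glue
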