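import Mathlib


/-!
Row 46: the integers with prescribed residues used in the tiles of a component.
-/

set_option autoImplicit false

namespace Crest.Agent.R046.CompSys

variable (p : ℕ) {Γ : Type} (r : Γ → ℕ)

/-- integers with prescribed residues -/
structure Nums where
  /-- `1` modulo `p^2`, `0` modulo the labels -/
  N1 : ℤ
  /-- `p` modulo `p^2`, `0` modulo the labels -/
  Np : ℤ
  /-- `0` modulo `p^2`, `1` modulo `r a`, `0` modulo the other labels -/
  N : Γ → ℤ
  h1 : (N1 : ZMod (p ^ 2)) = 1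
  h1r : ∀ a, (N1 : ZMod (r a)) = 0
  hp : (Np : ZMod (p ^ 2)) = p
  hpr : ∀ a, (Np : ZMod (r a)) = 0
  hN : ∀ a, (N a : ZMod (p ^ 2)) = 0
  hNa : ∀ a, (N a : ZMod (r a)) = 1
  hNb : ∀ a b, b ≠ a → (N b : ZMod (r a)) = 0

theorem exists_residues [Fintype Γ] [DecidableEq Γ] (hpr : ∀ a, Nat.Coprime p (r a))
    (hrr : ∀ a b, a ≠ b → Nat.Coprime (r a) (r b)) (x : ZMod (p ^ 2)) (y : ∀ a, ZMod (r a)) :
    ∃ n : ℤ, (n : ZMod (p ^ 2)) = x ∧ ∀ a, (n : ZMod (r a)) = y a := by
  let m : Option Γ → ℕ := fun o => o.elim (p ^ 2) r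
  have hm : Pairwise (Function.onFun Nat.Coprime m) := by
    intro a b hab
    rcases a with _ | a <;> rcases b with _ | b
    · exact absurd rfl hab
    · exact Nat.Coprime.pow_left 2 (hpr b)
    · exact (Nat.Coprime.pow_left 2 (hpr a)).symm
    · exact hrr a b (fun h => hab (by rw [h]))
  let tgt : ∀ o, ZMod (m o) := fun o => match o with
    | none => x
    | some a => y a
  obtain ⟨n, hn⟩ := ZMod.intCast_surjective ((ZMod.prodEquivPi m hm).symm tgt)
  have h : ∀ o, (n : ZMod (m o)) = tgt o := by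
    intro o
    have h1 : (ZMod.prodEquivPi m hm) (n : ZMod (∏ i, m i)) = tgt := by
      rw [hn]; simp
    have h2 := congrFun h1 o
    rw [map_intCast] at h2
    simpa using h2
  exact ⟨n, h none, fun a => h (some a)⟩

theorem exists_nums [Fintype Γ] [DecidableEq Γ] (hpr : ∀ a, Nat.Coprime p (r a))
    (hrr : ∀ a b, a ≠ b → Nat.Coprime (r a) (r b)) : Nonempty (Nums p r) := by
  obtain ⟨N1, h1, h1r⟩ := exists_residues p r hpr hrr 1 0
  obtain ⟨Np, hp, hpr'⟩ := exists_residues p r hpr hrr p 0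
  choose N hN hNr using fun a => exists_residues p r hpr hrr 0 (Pi.single a 1)
  exact ⟨⟨N1, Np, N, h1, h1r, hp, hpr', hN, fun a => by rw [hNr]; simp,
    fun a b hb => by rw [hNr]; exact Pi.single_eq_of_ne (Ne.symm hb) _⟩⟩

end Crest.Agent.R046.CompSys
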