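import Crest.Agent.R046.ForcedSlice
import Crest.Agent.R046.Nums

set_option autoImplicit false

/-! Row 46: the slice form of a solution of the component system (labels `Option S`, direction `w`,
transversal `e`). -/

namespace Crest.Agent.R046.CompSys

open Crest.Agent.R046.Comp

variable {p : ℕ} {S : Type} {r : Option S → ℕ}

/-- slice statements of all tiles of a component -/
structure SliceSol (n : Nums p r) (w e : ℤ × ℤ) (rigid : Prop)
    (Y : ℤ × ℤ → ZMod p → ZMod (p ^ 3)) (z : ℤ × ℤ → ZMod p → ∀ a, ZMod (r a)) : Prop where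
  /-- role, per, step, c4, c5, d2, d3 for the base label -/
  base : Base2 p (r none) w n.N1 n.Np (n.N none) Y (fun v ρ => z v ρ none)
  /-- positions do not depend on the line -/
  rig : rigid → ∀ v ρ, Y (v + e) ρ = Y v ρ
  /-- (X) -/
  cX : ∀ v c, ∃! k : ℕ, k < p ∧ r32 p (Y (v - k • (n.Np • w)) (r21 p c)) = c
  /-- (C5) -/
  c5 : ∀ a v ρ, z (v + ((p : ℤ) ^ 2 * r a) • w) ρ a = z v ρ a
  /-- (C6) -/
  c6 : ∀ (s : S) v ρ,
    (z (v + n.N (some s) • w) ρ (some s) = z v ρ (some s) ∧
      z (v - n.N (some s) • w) ρ (some s) = z v ρ (some s)) ∨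
    (z (v + n.N (some s) • w) ρ (some s) = z v ρ (some s) + 1 ∧
      z (v - n.N (some s) • w) ρ (some s) = z v ρ (some s) - 1)
  /-- (C9a) slope of the base label `1`, or slope of the label `s` equal to `0` -/
  c9a : ∀ (s : S) v ρ, z (v - n.N none • w) ρ none + 1 = z v ρ none ∨
    z (v - n.N (some s) • w) ρ (some s) = z v ρ (some s)
  /-- (C9b) slope of the base label `0`, or the slope of some label equal to `1` -/
  c9b : ∀ v ρ, z (v - n.N none • w) ρ none = z v ρ none ∨
    ∃ s : S, z (v - n.N (some s) • w) ρ (some s) + 1 = z v ρ (some s)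

end Crest.Agent.R046.CompSys
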