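import Crest.Agent.R046.Tiles
import Crest.Agent.R046.Clause

set_option autoImplicit false
set_option linter.unusedSectionVars false

/-! Row 46: the slope clause (C9), helper877.

`slopeTile` : at every point of the graph, for some `i` the label `a i` has slope `al i` along
`u i`. -/

namespace Crest.Agent.R046.Tiles

open Crest.CombinatoricsR.Tiling
open Crest.Agent.R046

section gen

variable {V K R : Type*} [AddCommGroup V] [AddCommGroup K] [AddCommGroup R]
  [DecidableEq V] [DecidableEq K] [DecidableEq R] [Fintype K]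
  {Γ : Type} [Fintype Γ] [DecidableEq Γ] {M : Γ → Type} [∀ g, AddCommGroup (M g)]
  [∀ g, Fintype (M g)] [∀ g, DecidableEq (M g)]

variable {n : ℕ} [NeZero n]

/-- base displacement of the state `c` -/
def sDisp (u : Fin n → V) (c : Fin n → Bool) : V := ∑ i, if c (i + 1) then u i else 0

/-- labels of the state `c` -/
def sLab (a : Fin n → Γ) (al : ∀ i, M (a i)) (c : Fin n → Bool) : Finset (∀ g, M g) :=
  Finset.univ.filter fun l => ∀ i, (l (a i) - (if c (i + 1) then al i else 0) = 0 ↔ c i = false)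

theorem mem_sLab {a : Fin n → Γ} {al : ∀ i, M (a i)} {c : Fin n → Bool} {l : ∀ g, M g} :
    l ∈ sLab a al c ↔ ∀ i, (l (a i) - (if c (i + 1) then al i else 0) = 0 ↔ c i = false) := by
  unfold sLab
  rw [Finset.mem_filter]
  simp only [Finset.mem_univ, true_and]

/-- the moved block -/
def sBlock (a : Fin n → Γ) (al : ∀ i, M (a i)) (u : Fin n → V) :
    Finset (V × K × ∀ g, M g) :=
  (Finset.univ : Finset (Fin n → Bool)).biUnion fun c => bx {sDisp u c} {0} (sLab a al c)

/-- (C9) -/
def slopeTile (rol : K →+ R) (a : Fin n → Γ) (al : ∀ i, M (a i)) (u : Fin n → V) :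
    Finset (V × K × ∀ g, M g) :=
  (Tt rol \ bx {0} {0} Finset.univ) ∪ sBlock a al u

variable (rol : K →+ R)

theorem sDisp_false (u : Fin n → V) : sDisp u (fun _ => false) = 0 := by
  unfold sDisp; simp

theorem sDisp_zsmul_periodic {T : Type*} {u : Fin n → V} {f : V → T}
    (hf : ∀ i v, f (v + u i) = f v) (c : Fin n → Bool) (v : V) : f (v - sDisp u c) = f v := by
  have key : ∀ (s : Finset (Fin n)) (v : V), f (v - ∑ i ∈ s, if c (i + 1) then u i else 0) = f v := by
    intro s
    induction s using Finset.induction_on with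
    | empty => intro v; simp
    | insert i s hi ih =>
      intro v
      rw [Finset.sum_insert hi, ← sub_sub, ih]
      split_ifs
      · have := hf i (v - u i)
        rw [sub_add_cancel] at this
        exact this.symm
      · rw [sub_zero]
  exact key _ v

/-- only the `i`-th displacement matters for a function periodic along all the others -/
theorem sDisp_one {T : Type*} {u : Fin n → V} {f : V → T} (i : Fin n)
    (hf : ∀ j, i ≠ j → ∀ v, f (v + u j) = f v) (c : Fin n → Bool) (v : V) :
    f (v - sDisp u c) = f (v - if c (i + 1) then u i else 0) := by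
  have key : ∀ (s : Finset (Fin n)), i ∉ s → ∀ (v : V),
      f (v - ∑ j ∈ s, if c (j + 1) then u j else 0) = f v := by
    intro s
    induction s using Finset.induction_on with
    | empty => intro _ v; simp
    | insert j s hj ih =>
      intro his v
      rw [Finset.mem_insert, not_or] at his
      rw [Finset.sum_insert hj, ← sub_sub, ih his.2]
      split_ifs
      · have := hf j his.1 (v - u j)
        rw [sub_add_cancel] at this
        exact this.symm
      · rw [sub_zero]
  have h := key (Finset.univ.erase i) (Finset.notMem_erase i _) (v - if c (i + 1) then u i else 0)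
  rw [← h, sub_sub, Finset.add_sum_erase _ (fun j => if c (j + 1) then u j else 0)
    (Finset.mem_univ i)]
  rfl

theorem sBlock_disj (a : Fin n → Γ) (al : ∀ i, M (a i)) (u : Fin n → V) :
    Disjoint ((Tt rol : Finset (V × K × ∀ g, M g)) \ bx {0} {0} Finset.univ) (sBlock a al u) := by
  rw [Finset.disjoint_left]
  rintro ⟨v, y, l⟩ h1 h2
  rw [Finset.mem_sdiff, mem_Tt, mem_bx] at h1
  unfold sBlock at h2
  rw [Finset.mem_biUnion] at h2
  obtain ⟨c, -, h3⟩ := h2
  rw [mem_bx, Finset.mem_singleton, Finset.mem_singleton] at h3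
  apply h1.2
  simp only [Finset.mem_singleton, Finset.mem_univ, and_true]
  exact ⟨h1.1.1, h3.2.1⟩

theorem cov_sBlock (a : Fin n → Γ) (al : ∀ i, M (a i)) {u : Fin n → V}
    (hu : Function.Injective (sDisp u)) {Y : V → R → K} {z : V → R → ∀ g, M g}
    (hY : ∀ v ρ, rol (Y v ρ) = ρ) (hYu : ∀ i v ρ, Y (v + u i) ρ = Y v ρ)
    (hzu : ∀ i j, i ≠ j → ∀ v ρ, z (v + u j) ρ (a i) = z v ρ (a i)) (v : V) (y : K)
    (l : ∀ g, M g) :
    (cov (sBlock a al u) (gr Y z) (v, y, l) : ℤ) =
      if y = Y v (rol y) then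
        1 + ∏ i, ((if l (a i) = z v (rol y) (a i) then (1 : ℤ) else 0) -
          if l (a i) = z (v - u i) (rol y) (a i) + al i then 1 else 0)
      else 0 := by
  classical
  unfold sBlock
  rw [cov_biUnion (by
    intro c _ c' _ hc
    rw [Finset.disjoint_left]
    rintro ⟨v, y, l⟩ h1 h2
    rw [mem_bx, Finset.mem_singleton] at h1 h2
    exact hc (hu (h1.1.symm.trans h2.1)))]
  have hcov : ∀ c : Fin n → Bool, (cov (bx {sDisp u c} ({0} : Finset K) (sLab a al c)) (gr Y z)
      (v, y, l) : ℤ) =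
      if y = Y v (rol y) then ∏ i, (if (l (a i) - z (v - if c (i + 1) then u i else 0) (rol y) (a i)
        - (if c (i + 1) then al i else 0) = 0 ↔ c i = false) then (1 : ℤ) else 0) else 0 := by
    intro c
    rw [cov_bx rol hY, Finset.sum_singleton, Finset.sum_singleton, sub_zero]
    have e1 : Y (v - sDisp u c) (rol y) = Y v (rol y) :=
      sDisp_zsmul_periodic (f := fun v => Y v (rol y)) (fun i v => hYu i v (rol y)) c v
    have e2 : ∀ i, z (v - sDisp u c) (rol y) (a i) =
        z (v - if c (i + 1) then u i else 0) (rol y) (a i) := fun i =>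
      sDisp_one (f := fun v => z v (rol y) (a i)) i (fun j hij v => hzu i j hij v (rol y)) c v
    rw [e1]
    by_cases hy : y = Y v (rol y)
    · rw [if_pos hy]
      rw [Finset.prod_ite_zero]
      simp only [Finset.prod_const_one, Finset.mem_univ, true_implies]
      by_cases hl : l - z (v - sDisp u c) (rol y) ∈ sLab a al c
      · rw [if_pos ⟨hy, hl⟩, if_pos]
        · norm_num
        · rw [mem_sLab] at hl
          intro i
          have := hl i
          rw [Pi.sub_apply, e2] at this
          exact this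
      · rw [if_neg (fun h => hl h.2), if_neg]
        · norm_num
        · intro h
          apply hl
          rw [mem_sLab]
          intro i
          rw [Pi.sub_apply, e2]
          exact h i
    · rw [if_neg hy, if_neg (fun h => hy h.1)]
      norm_num
  push_cast
  rw [Finset.sum_congr rfl (fun c _ => hcov c)]
  by_cases hy : y = Y v (rol y)
  · simp only [if_pos hy]
    rw [Clause.cyc_sum n (fun i x w => if (l (a i) - z (v - if w then u i else 0) (rol y) (a i)
        - (if w then al i else 0) = 0 ↔ x = false) then (1 : ℤ) else 0)]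
    · congr 1
      refine Finset.prod_congr rfl fun i _ => ?_
      simp only [if_true, Bool.false_eq_true, if_false, sub_zero, iff_true]
      congr 1
      · simp only [sub_eq_zero]
      · have e : (l (a i) - z (v - u i) (rol y) (a i) - al i = 0) ↔
            (l (a i) = z (v - u i) (rol y) (a i) + al i) := by
          rw [sub_sub, sub_eq_zero]
        simp only [e]
    · intro i w
      simp only [iff_true, Bool.true_eq_false, iff_false]
      by_cases h : l (a i) - z (v - if w then u i else 0) (rol y) (a i)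
        - (if w then al i else 0) = 0
      · rw [if_pos h, if_neg (fun h' => h' h)]; norm_num
      · rw [if_neg h, if_pos h]; norm_num
  · simp only [if_neg hy, Finset.sum_const_zero]

/-- (C9) general form -/
theorem C9_iff_gen (a : Fin n → Γ) (al : ∀ i, M (a i)) {u : Fin n → V}
    (hu : Function.Injective (sDisp u)) {Y : V → R → K} {z : V → R → ∀ g, M g}
    (hY : ∀ v ρ, rol (Y v ρ) = ρ) (hYu : ∀ i v ρ, Y (v + u i) ρ = Y v ρ)
    (hzu : ∀ i j, i ≠ j → ∀ v ρ, z (v + u j) ρ (a i) = z v ρ (a i)) :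
    IsTilingBy (slopeTile rol a al u : Finset (V × K × ∀ g, M g)) (gr Y z) ↔
      ∀ v ρ, ∃ i, z (v - u i) ρ (a i) + al i = z v ρ (a i) := by
  have hs : Function.Surjective rol := fun ρ => ⟨Y 0 ρ, hY 0 ρ⟩
  unfold slopeTile
  rw [isTilingBy_swap ((Tt_iff rol hs).2 ⟨Y, z, hY, rfl⟩) (bx_zero_subset rol _)
    (sBlock_disj rol a al u)]
  constructor
  · intro h v ρ
    have h1 := h (v, Y v ρ, z v ρ)
    have h2 := cov_sBlock rol a al hu hY hYu hzu v (Y v ρ) (z v ρ)
    rw [h1, cov_single rol hY] at h2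
    simp only [hY, if_true, Finset.mem_univ, and_true] at h2
    by_contra hne
    push Not at hne
    rw [Finset.prod_congr rfl (fun i _ => by rw [if_neg (fun h => hne i h.symm)])] at h2
    norm_num at h2
  · rintro h ⟨v, y, l⟩
    have h2 := cov_sBlock rol a al hu hY hYu hzu v y l
    rw [cov_single rol hY]
    obtain ⟨i, hi⟩ := h v (rol y)
    rw [Finset.prod_eq_zero (Finset.mem_univ i) (by rw [hi, sub_self])] at h2
    simp only [Finset.mem_univ, and_true, add_zero] at h2 ⊢
    split_ifs at h2 ⊢ with hy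
    · exact_mod_cast h2
    · exact_mod_cast h2

/-- displacements which are told apart by residues -/
theorem sDisp_inj {w : ℤ × ℤ} (hw : w ≠ 0) {N : Fin n → ℤ} {q : Fin n → ℕ}
    (hq : ∀ i, 2 ≤ q i) (h1 : ∀ i, ((N i : ℤ) : ZMod (q i)) = 1)
    (h0 : ∀ i j, i ≠ j → ((N j : ℤ) : ZMod (q i)) = 0) :
    Function.Injective (sDisp (fun i => N i • w)) := by
  intro c c' h
  unfold sDisp at h
  have e : ∀ c : Fin n → Bool, (∑ i, if c (i + 1) then N i • w else 0) =
      (∑ i, if c (i + 1) then N i else 0) • w := by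
    intro c
    rw [Finset.sum_smul]
    refine Finset.sum_congr rfl fun i _ => ?_
    split_ifs <;> simp
  rw [e, e] at h
  have h2 : (∑ i, if c (i + 1) then N i else 0) = ∑ i, if c' (i + 1) then N i else 0 := by
    have h3 : ((∑ i, if c (i + 1) then N i else 0) - ∑ i, if c' (i + 1) then N i else 0) • w = 0 := by
      rw [sub_smul, h, sub_self]
    rcases smul_eq_zero.1 h3 with h4 | h4
    · exact sub_eq_zero.1 h4
    · exact absurd h4 hw
  have h5 : ∀ (c : Fin n → Bool) (i : Fin n),
      (((∑ i, if c (i + 1) then N i else 0 : ℤ)) : ZMod (q i)) = if c (i + 1) then 1 else 0 := by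
    intro c i
    rw [Int.cast_sum, Finset.sum_eq_single i]
    · split_ifs
      · exact h1 i
      · simp
    · intro j _ hj
      split_ifs
      · exact h0 i j (fun h => hj h.symm)
      · simp
    · intro h; exact absurd (Finset.mem_univ i) h
  have h6 : ∀ i, c (i + 1) = c' (i + 1) := by
    intro i
    have h7 := h5 c i
    rw [h2, h5 c' i] at h7
    have : Fact (1 < q i) := ⟨hq i⟩
    have h8 : (1 : ZMod (q i)) ≠ 0 := one_ne_zero
    cases h9 : c (i + 1) <;> cases h10 : c' (i + 1)
    · rfl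
    · rw [h9, h10] at h7; simp at h7
    · rw [h9, h10] at h7; simp at h7
    · rfl
  funext i
  have := h6 (i - 1)
  rwa [sub_add_cancel] at this

end gen

section concrete

open Crest.Agent.R046.Comp

variable {p : ℕ} [NeZero p] {Γ : Type} [Fintype Γ] [DecidableEq Γ] {r : Γ → ℕ}
  [∀ g, NeZero (r g)]

variable (p r)

/-- (C9) frozen form 8244: labels `a i`, slopes `al i`, displacements `u i`. -/
def tC9' {n : ℕ} [NeZero n] (a : Fin n → Γ) (al : ∀ i, ZMod (r (a i))) (u : Fin n → ℤ × ℤ) :
    Finset ((ℤ × ℤ) × (ZMod (p ^ 3) × ∀ g, ZMod (r g))) :=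
  slopeTile (r31 p : ZMod (p ^ 3) →+ ZMod p) a al u

/-- (C9) Finset form: for the nonempty set `J` of labels, slopes `δ g`, displacements `u g`. -/
noncomputable def tC9 (J : Finset Γ) (δ : Γ → ℤ) (u : Γ → ℤ × ℤ) :
    Finset ((ℤ × ℤ) × (ZMod (p ^ 3) × ∀ g, ZMod (r g))) :=
  if h : J.card = 0 then ∅ else
    haveI : NeZero J.card := ⟨h⟩
    tC9' p r (fun i : Fin J.card => (J.equivFin.symm i : Γ)) (fun i => (δ (J.equivFin.symm i) : ℤ))
      (fun i => u (J.equivFin.symm i))

variable {p r}

variable {Y : ℤ × ℤ → ZMod p → ZMod (p ^ 3)} {z : ℤ × ℤ → ZMod p → ∀ g, ZMod (r g)}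

theorem tC9'_iff (hY : ∀ v ρ, r31 p (Y v ρ) = ρ) {n : ℕ} [NeZero n] (a : Fin n → Γ)
    (al : ∀ i, ZMod (r (a i))) {u : Fin n → ℤ × ℤ}
    (hu : Function.Injective (sDisp u)) (hYu : ∀ i v ρ, Y (v + u i) ρ = Y v ρ)
    (hzu : ∀ i j, i ≠ j → ∀ v ρ, z (v + u j) ρ (a i) = z v ρ (a i)) :
    IsTilingBy (tC9' p r a al u) (gr Y z) ↔
      ∀ v ρ, ∃ i, z (v - u i) ρ (a i) + al i = z v ρ (a i) := by
  have h := C9_iff_gen (r31 p : ZMod (p ^ 3) →+ ZMod p) a al hu (Y := Y) (z := z) hY hYu hzu
  exact h

/-- **(C9)**, Finset form with displacements `u g = N g • w`. -/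
theorem tC9_iff (hY : ∀ v ρ, r31 p (Y v ρ) = ρ) (hr : ∀ g, 2 ≤ r g) {w : ℤ × ℤ} (hw : w ≠ 0)
    {N : Γ → ℤ} (h1 : ∀ g, ((N g : ℤ) : ZMod (r g)) = 1)
    (h0 : ∀ g g', g ≠ g' → ((N g' : ℤ) : ZMod (r g)) = 0)
    (hYu : ∀ g v ρ, Y (v + N g • w) ρ = Y v ρ)
    (hzu : ∀ g g', g ≠ g' → ∀ v ρ, z (v + N g' • w) ρ g = z v ρ g)
    (J : Finset Γ) (hJ : J.Nonempty) (δ : Γ → ℤ) :
    IsTilingBy (tC9 p r J δ (fun g => N g • w)) (gr Y z) ↔
      ∀ v ρ, ∃ g ∈ J, z (v - N g • w) ρ g + (δ g : ℤ) = z v ρ g := by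
  have hne : J.card ≠ 0 := by rw [Finset.card_ne_zero]; exact hJ
  have : NeZero J.card := ⟨hne⟩
  have hinj : ∀ i j : Fin J.card, i ≠ j →
      ((J.equivFin.symm i : J) : Γ) ≠ ((J.equivFin.symm j : J) : Γ) := by
    intro i j hij h
    exact hij (J.equivFin.symm.injective (Subtype.ext h))
  unfold tC9
  rw [dif_neg hne]
  rw [tC9'_iff hY]
  · refine forall_congr' fun v => forall_congr' fun ρ => ?_
    constructor
    · rintro ⟨i, hi⟩
      exact ⟨_, (J.equivFin.symm i).2, hi⟩
    · rintro ⟨g, hg, h⟩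
      refine ⟨J.equivFin ⟨g, hg⟩, ?_⟩
      have key : ∀ g' : J, (g' : Γ) = g →
          z (v - N g' • w) ρ g' + ((δ g' : ℤ) : ZMod (r g')) = z v ρ g' := by
        rintro ⟨g', hg'⟩ rfl
        exact h
      exact key _ (by rw [Equiv.symm_apply_apply])
  · exact sDisp_inj hw (q := fun i => r (J.equivFin.symm i : Γ)) (fun i => hr _) (fun i => h1 _)
      (fun i j hij => h0 _ _ (hinj i j hij))
  · intro i v ρ
    exact hYu _ v ρ
  · intro i j hij v ρ
    exact hzu _ _ (hinj i j hij) v ρ

end concrete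

end Crest.Agent.R046.Tiles
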