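import Crest.Agent.R046.Tiles
import Crest.Agent.R046.Slope
import Crest.Agent.R046.SliceSol

set_option autoImplicit false

/-! Row 46: the finite tile system of a component and its slice form. -/

namespace Crest.Agent.R046.CompSys

open Crest.CombinatoricsR.Tiling
open Crest.Agent.R046.Comp Crest.Agent.R046.Tiles

variable {p : ℕ} [NeZero p] {S : Type} [Fintype S] [DecidableEq S] {r : Option S → ℕ}
  [∀ a, NeZero (r a)]

/-- the fibre group -/
abbrev FG (p : ℕ) {S : Type} (r : Option S → ℕ) : Type := ZMod (p ^ 3) × (∀ a : Option S, ZMod (r a))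

/-- the tiles without the slope clauses -/
def baseSys (n : Nums p r) (w e : ℤ × ℤ) (rigid : Prop) :
    Set (Finset ((ℤ × ℤ) × FG p r)) :=
  {tT p r, tC2 p r (((p : ℤ) ^ 2) • w), tC3 p r w, tC4 p r w, tX p r (n.Np • w),
    tD p r none 0 (n.Np • w) (n.N1 • w), tD p r none 1 (n.Np • w) ((n.N1 + n.N none) • w)} ∪
  {F | rigid ∧ F = tC2 p r e} ∪
  Set.range (fun a => tC5 p r a (((p : ℤ) ^ 2 * r a) • w)) ∪
  Set.range (fun s : S => tC6 p r (some s) (n.N (some s) • w))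

theorem baseSys_finite (n : Nums p r) (w e : ℤ × ℤ) (rigid : Prop) :
    (baseSys n w e rigid).Finite := by
  unfold baseSys
  refine Set.Finite.union (Set.Finite.union (Set.Finite.union ?_ ?_) ?_) ?_
  · exact Set.toFinite _
  · exact (Set.finite_singleton (tC2 p r e)).subset (by rintro F ⟨-, h⟩; exact h)
  · exact Set.finite_range _
  · exact Set.finite_range _

omit [NeZero p] [Fintype S] [DecidableEq S] [∀ a, NeZero (r a)] in
theorem per_zero {Y : ℤ × ℤ → ZMod p → ZMod (p ^ 3)} {w : ℤ × ℤ}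
    (h : ∀ v ρ, Y (v + ((p : ℤ) ^ 2) • w) ρ = Y v ρ) {m : ℤ} (hm : (m : ZMod (p ^ 2)) = 0)
    (v : ℤ × ℤ) (ρ : ZMod p) : Y (v + m • w) ρ = Y v ρ := by
  rw [ZMod.intCast_zmod_eq_zero_iff_dvd] at hm
  obtain ⟨k, rfl⟩ := hm
  have key : ∀ (k : ℤ) (v : ℤ × ℤ), Y (v + ((p : ℤ) ^ 2 * k) • w) ρ = Y v ρ := by
    intro k
    induction k with
    | zero => intro v; simp
    | succ k ih =>
      intro v
      have := h (v + ((p : ℤ) ^ 2 * k) • w) ρ
      rw [ih] at this
      rw [← this, add_assoc, ← add_smul]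
      congr 3
    | pred k ih =>
      intro v
      have := h (v + ((p : ℤ) ^ 2 * (-(k : ℤ) - 1)) • w) ρ
      rw [← this, add_assoc, ← add_smul, ← ih v]
      congr 3
      ring
  have := key k v
  push_cast at this ⊢
  exact this

/-- everything of `SliceSol` except the slope clauses -/
def SolBase (n : Nums p r) (w e : ℤ × ℤ) (rigid : Prop)
    (Y : ℤ × ℤ → ZMod p → ZMod (p ^ 3)) (z : ℤ × ℤ → ZMod p → ∀ a, ZMod (r a)) : Prop :=
  Base2 p (r none) w n.N1 n.Np (n.N none) Y (fun v ρ => z v ρ none) ∧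
  (rigid → ∀ v ρ, Y (v + e) ρ = Y v ρ) ∧
  (∀ v c, ∃! k : ℕ, k < p ∧ r32 p (Y (v - k • (n.Np • w)) (r21 p c)) = c) ∧
  (∀ a v ρ, z (v + ((p : ℤ) ^ 2 * r a) • w) ρ a = z v ρ a) ∧
  (∀ (s : S) v ρ,
    (z (v + n.N (some s) • w) ρ (some s) = z v ρ (some s) ∧
      z (v - n.N (some s) • w) ρ (some s) = z v ρ (some s)) ∨
    (z (v + n.N (some s) • w) ρ (some s) = z v ρ (some s) + 1 ∧
      z (v - n.N (some s) • w) ρ (some s) = z v ρ (some s) - 1))

section facts

variable (hp : 2 ≤ p) (hr : ∀ a, 3 ≤ r a) {w : ℤ × ℤ} (hw : w ≠ 0) (n : Nums p r)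

include hp

omit [NeZero p] [Fintype S] [DecidableEq S] [∀ a, NeZero (r a)] in
theorem psq_cast_ne : ((p : ℕ) : ZMod (p ^ 2)) ≠ 0 := by
  rw [Ne, ZMod.natCast_eq_zero_iff]
  intro h
  have h1 := Nat.le_of_dvd (by omega) h
  have h2 : p * 2 ≤ p * p := Nat.mul_le_mul_left p hp
  rw [← sq] at h2
  omega

include hw

omit [NeZero p] [Fintype S] [DecidableEq S] [∀ a, NeZero (r a)] in
theorem P_ne : n.Np • w ≠ 0 := by
  rw [Ne, smul_eq_zero]
  rintro (h | h)
  · have := n.hp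
    rw [h, Int.cast_zero] at this
    exact psq_cast_ne hp this.symm
  · exact hw h

omit [NeZero p] [Fintype S] [DecidableEq S] [∀ a, NeZero (r a)] in
/-- `i P + m w ≠ j P` if `m = 1` modulo `p` -/
theorem hu_aux {m : ℤ} (hm : (m : ZMod (p ^ 2)) = 1) (i j : ℕ) :
    i • (n.Np • w) + m • w ≠ j • (n.Np • w) := by
  intro h
  have h1 : ((i : ℤ) * n.Np + m - j * n.Np) • w = 0 := by
    rw [sub_smul, add_smul, mul_smul, mul_smul, natCast_zsmul, natCast_zsmul, h, sub_self]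
  have h2 : (i : ℤ) * n.Np + m - j * n.Np = 0 := by
    rcases smul_eq_zero.1 h1 with h2 | h2
    · exact h2
    · exact absurd h2 hw
  have h3 := congrArg (fun x : ℤ => r21 p (x : ZMod (p ^ 2))) h2
  simp only [Int.cast_sub, Int.cast_add, Int.cast_mul, map_sub, map_add, map_mul, n.hp, hm,
    map_natCast, map_one, ZMod.natCast_self, mul_zero, zero_add, sub_zero, Int.cast_zero,
    map_zero] at h3
  have : Fact (1 < p) := ⟨hp⟩
  exact one_ne_zero h3

omit [NeZero p] [Fintype S] [DecidableEq S] [∀ a, NeZero (r a)] hp in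
include hr in
theorem N_ne (a : Option S) : n.N a • w ≠ 0 := by
  rw [Ne, smul_eq_zero]
  rintro (h | h)
  · have := n.hNa a
    rw [h, Int.cast_zero] at this
    have h3 := hr a
    have : Fact (1 < r a) := ⟨by omega⟩
    exact zero_ne_one (by assumption)
  · exact hw h

end facts

/-- slice form of the tiles without slope clauses -/
theorem baseSys_iff (hp : 2 ≤ p) (hr : ∀ a, 3 ≤ r a) {w e : ℤ × ℤ} (hw : w ≠ 0) (he : e ≠ 0)
    (n : Nums p r) (rigid : Prop) {A : Set ((ℤ × ℤ) × FG p r)} :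
    (∀ F ∈ baseSys n w e rigid, IsTilingBy F A) ↔
      ∃ (Y : ℤ × ℤ → ZMod p → ZMod (p ^ 3)) (z : ℤ × ℤ → ZMod p → ∀ a, ZMod (r a)),
        A = gr Y z ∧ SolBase n w e rigid Y z := by
  have hp0 : 0 < p := by omega
  have hp2w : ((p : ℤ) ^ 2) • w ≠ 0 := by
    rw [Ne, smul_eq_zero]
    rintro (h | h)
    · have : (p : ℤ) ≠ 0 := by exact_mod_cast hp0.ne'
      exact this (pow_eq_zero_iff (two_ne_zero)|>.1 h)
    · exact hw h
  have hraw : ∀ a, ((p : ℤ) ^ 2 * r a) • w ≠ 0 := by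
    intro a
    rw [Ne, smul_eq_zero]
    rintro (h | h)
    · have h1 : (p : ℤ) ≠ 0 := by exact_mod_cast hp0.ne'
      have h2 : (r a : ℤ) ≠ 0 := by have := hr a; omega
      exact mul_ne_zero (pow_ne_zero 2 h1) h2 h
    · exact hw h
  have hm : (((p : ℤ) ^ 2 : ℤ) : ZMod (p ^ 2)) = 0 := by
    have := ZMod.natCast_self (p ^ 2)
    push_cast at this ⊢
    exact this
  have h1N : ((n.N1 + n.N none : ℤ) : ZMod (p ^ 2)) = 1 := by
    rw [Int.cast_add, n.h1, n.hN, add_zero]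
  constructor
  · intro h
    have hin1 : ∀ {F}, F ∈ ({tT p r, tC2 p r (((p : ℤ) ^ 2) • w), tC3 p r w, tC4 p r w,
        tX p r (n.Np • w), tD p r none 0 (n.Np • w) (n.N1 • w),
        tD p r none 1 (n.Np • w) ((n.N1 + n.N none) • w)} :
          Set (Finset ((ℤ × ℤ) × FG p r))) → IsTilingBy F A := by
      intro F hF
      exact h F (Or.inl (Or.inl (Or.inl hF)))
    obtain ⟨Y, z, hY, hA⟩ := (tT_iff).1 (hin1 (by simp : tT p r ∈ _))
    subst hA
    have hper := (tC2_iff hY hp2w).1 (hin1 (by simp : tC2 p r (((p : ℤ) ^ 2) • w) ∈ _))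
    have hstep := (tC3_iff hY hw).1 (hin1 (by simp : tC3 p r w ∈ _))
    have hc4 := (tC4_iff hY hw).1 (hin1 (by simp : tC4 p r w ∈ _))
    have hX := (tX_iff hY (P_ne hp hw n)).1 (hin1 (by simp : tX p r (n.Np • w) ∈ _))
    have hd2 := (tD_iff hY hp (P_ne hp hw n) (fun i j _ _ => hu_aux hp hw n n.h1 i j) hX
      none 0).1 (hin1 (by simp : tD p r none 0 (n.Np • w) (n.N1 • w) ∈ _))
    have hd3 := (tD_iff hY hp (P_ne hp hw n) (fun i j _ _ => hu_aux hp hw n h1N i j) hX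
      none 1).1 (hin1 (by simp : tD p r none 1 (n.Np • w) ((n.N1 + n.N none) • w) ∈ _))
    have hc5 : ∀ a v ρ, z (v + ((p : ℤ) ^ 2 * r a) • w) ρ a = z v ρ a := by
      intro a
      refine (tC5_iff hY (hraw a) ?_ a).1 (h _ (Or.inl (Or.inr ⟨a, rfl⟩)))
      refine per_zero hper ?_
      rw [Int.cast_mul, hm, zero_mul]
    refine ⟨Y, z, rfl, ⟨hY, hper, hstep, hc4, hc5 none, hd2, hd3⟩, ?_, hX, hc5, ?_⟩
    · intro hrig
      exact (tC2_iff hY he).1 (h _ (Or.inl (Or.inl (Or.inr ⟨hrig, rfl⟩))))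
    · intro s
      have h2 : 2 ≤ r (some s) := by have := hr (some s); omega
      exact (tC6_iff hY (N_ne hr hw n (some s)) (per_zero hper (n.hN _)) (some s) h2).1
        (h _ (Or.inr ⟨s, rfl⟩))
  · rintro ⟨Y, z, rfl, hb, hrig, hX, hc5, hc6⟩ F hF
    have hY := hb.role
    have hper := hb.per
    rcases hF with ((hF | ⟨hri, rfl⟩) | ⟨a, rfl⟩) | ⟨s, rfl⟩
    · rcases hF with rfl | rfl | rfl | rfl | rfl | rfl | rfl
      · exact tT_iff.2 ⟨Y, z, hY, rfl⟩
      · exact (tC2_iff hY hp2w).2 hper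
      · exact (tC3_iff hY hw).2 hb.step
      · exact (tC4_iff hY hw).2 hb.c4
      · exact (tX_iff hY (P_ne hp hw n)).2 hX
      · exact (tD_iff hY hp (P_ne hp hw n) (fun i j _ _ => hu_aux hp hw n n.h1 i j) hX
          none 0).2 hb.d2
      · exact (tD_iff hY hp (P_ne hp hw n) (fun i j _ _ => hu_aux hp hw n h1N i j) hX
          none 1).2 hb.d3
    · exact (tC2_iff hY he).2 (hrig hri)
    · refine (tC5_iff hY (hraw a) ?_ a).2 (hc5 a)
      refine per_zero hper ?_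
      rw [Int.cast_mul, hm, zero_mul]
    · have h2 : 2 ≤ r (some s) := by have := hr (some s); omega
      exact (tC6_iff hY (N_ne hr hw n (some s)) (per_zero hper (n.hN _)) (some s) h2).2 (hc6 s)


omit [NeZero p] [Fintype S] [DecidableEq S] [∀ a, NeZero (r a)] in
theorem zper_zero {z : ℤ × ℤ → ZMod p → ∀ a, ZMod (r a)} {w : ℤ × ℤ} {a : Option S}
    (h : ∀ v ρ, z (v + ((p : ℤ) ^ 2 * r a) • w) ρ a = z v ρ a) (hcop : Nat.Coprime p (r a))
    {m : ℤ} (hm : (m : ZMod (p ^ 2)) = 0) (hm2 : (m : ZMod (r a)) = 0)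
    (v : ℤ × ℤ) (ρ : ZMod p) : z (v + m • w) ρ a = z v ρ a := by
  rw [ZMod.intCast_zmod_eq_zero_iff_dvd] at hm hm2
  have hc : IsCoprime (((p ^ 2 : ℕ)) : ℤ) (r a : ℤ) :=
    Nat.isCoprime_iff_coprime.2 (Nat.Coprime.pow_left 2 hcop)
  obtain ⟨k, rfl⟩ := hc.mul_dvd hm hm2
  have key : ∀ (k : ℤ) (v : ℤ × ℤ), z (v + ((p : ℤ) ^ 2 * r a * k) • w) ρ a = z v ρ a := by
    intro k
    induction k with
    | zero => intro v; simp
    | succ k ih =>
      intro v
      have := h (v + ((p : ℤ) ^ 2 * r a * k) • w) ρ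
      rw [ih] at this
      rw [← this, add_assoc, ← add_smul]
      congr 3
    | pred k ih =>
      intro v
      have := h (v + ((p : ℤ) ^ 2 * r a * (-(k : ℤ) - 1)) • w) ρ
      rw [← this, add_assoc, ← add_smul, ← ih v]
      congr 3
      ring
  have := key k v
  push_cast at this ⊢
  exact this

/-- (C9a): base slope `1` or slope of `s` equal to `0` -/
noncomputable def c9aTile (n : Nums p r) (w : ℤ × ℤ) (s : S) : Finset ((ℤ × ℤ) × FG p r) :=
  tC9 p r {none, some s} (fun g => if g = none then 1 else 0) (fun g => n.N g • w)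

/-- (C9b): base slope `0` or some letter slope `1` -/
noncomputable def c9bTile (n : Nums p r) (w : ℤ × ℤ) : Finset ((ℤ × ℤ) × FG p r) :=
  tC9 p r Finset.univ (fun g => if g = none then 0 else 1) (fun g => n.N g • w)

/-- **the tile system of a component** -/
def compSys (n : Nums p r) (w e : ℤ × ℤ) (rigid : Prop) : Set (Finset ((ℤ × ℤ) × FG p r)) :=
  baseSys n w e rigid ∪ Set.range (c9aTile n w) ∪ {c9bTile n w}

theorem compSys_finite (n : Nums p r) (w e : ℤ × ℤ) (rigid : Prop) :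
    (compSys n w e rigid).Finite :=
  ((baseSys_finite n w e rigid).union (Set.finite_range _)).union (Set.finite_singleton _)

/-- **slice form of the component system** -/
theorem compSys_iff (hp : 2 ≤ p) (hr : ∀ a, 3 ≤ r a) (hpr : ∀ a, Nat.Coprime p (r a))
    {w e : ℤ × ℤ} (hw : w ≠ 0) (he : e ≠ 0)
    (n : Nums p r) (rigid : Prop) {A : Set ((ℤ × ℤ) × FG p r)} :
    (∀ F ∈ compSys n w e rigid, IsTilingBy F A) ↔
      ∃ (Y : ℤ × ℤ → ZMod p → ZMod (p ^ 3)) (z : ℤ × ℤ → ZMod p → ∀ a, ZMod (r a)),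
        SliceSol n w e rigid Y z ∧ A = gr Y z := by
  have hr2 : ∀ a, 2 ≤ r a := fun a => by have := hr a; omega
  -- the slope clauses for a graph
  have clause : ∀ (Y : ℤ × ℤ → ZMod p → ZMod (p ^ 3)) (z : ℤ × ℤ → ZMod p → ∀ a, ZMod (r a)),
      SolBase n w e rigid Y z → ∀ (J : Finset (Option S)), J.Nonempty → ∀ δ : Option S → ℤ,
      (IsTilingBy (tC9 p r J δ (fun g => n.N g • w)) (gr Y z) ↔
        ∀ v ρ, ∃ g ∈ J, z (v - n.N g • w) ρ g + (δ g : ℤ) = z v ρ g) := by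
    rintro Y z ⟨hb, -, -, hc5, -⟩ J hJ δ
    exact tC9_iff hb.role hr2 hw (fun g => n.hNa g) (fun g g' h => n.hNb g g' (Ne.symm h))
      (fun g => per_zero hb.per (n.hN g))
      (fun g g' h => zper_zero (hc5 g) (hpr g) (n.hN g') (n.hNb g g' (Ne.symm h))) J hJ δ
  have ca : ∀ (Y : ℤ × ℤ → ZMod p → ZMod (p ^ 3)) (z : ℤ × ℤ → ZMod p → ∀ a, ZMod (r a)),
      SolBase n w e rigid Y z → ∀ s : S, (IsTilingBy (c9aTile n w s) (gr Y z) ↔
        ∀ v ρ, z (v - n.N none • w) ρ none + 1 = z v ρ none ∨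
          z (v - n.N (some s) • w) ρ (some s) = z v ρ (some s)) := by
    intro Y z h s
    unfold c9aTile
    rw [clause Y z h _ (Finset.insert_nonempty _ _)]
    refine forall_congr' fun v => forall_congr' fun ρ => ?_
    simp
  have cb : ∀ (Y : ℤ × ℤ → ZMod p → ZMod (p ^ 3)) (z : ℤ × ℤ → ZMod p → ∀ a, ZMod (r a)),
      SolBase n w e rigid Y z → (IsTilingBy (c9bTile n w) (gr Y z) ↔
        ∀ v ρ, z (v - n.N none • w) ρ none = z v ρ none ∨
          ∃ s : S, z (v - n.N (some s) • w) ρ (some s) + 1 = z v ρ (some s)) := by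
    intro Y z h
    unfold c9bTile
    rw [clause Y z h _ ⟨none, Finset.mem_univ _⟩]
    refine forall_congr' fun v => forall_congr' fun ρ => ?_
    constructor
    · rintro ⟨g, -, hg⟩
      rcases g with _ | s
      · left; simpa using hg
      · right; exact ⟨s, by simpa using hg⟩
    · rintro (h | ⟨s, h⟩)
      · exact ⟨none, Finset.mem_univ _, by simpa using h⟩
      · exact ⟨some s, Finset.mem_univ _, by simpa using h⟩
  constructor
  · intro h
    obtain ⟨Y, z, rfl, hB⟩ := (baseSys_iff hp hr hw he n rigid).1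
      (fun F hF => h F (Or.inl (Or.inl hF)))
    have h1 := fun s => (ca Y z hB s).1 (h _ (Or.inl (Or.inr ⟨s, rfl⟩)))
    have h2 := (cb Y z hB).1 (h _ (Or.inr rfl))
    obtain ⟨hb, hrig, hX, hc5, hc6⟩ := hB
    exact ⟨Y, z, ⟨hb, hrig, hX, hc5, hc6, h1, h2⟩, rfl⟩
  · rintro ⟨Y, z, hS, rfl⟩ F hF
    have hB : SolBase n w e rigid Y z := ⟨hS.base, hS.rig, hS.cX, hS.c5, hS.c6⟩
    rcases hF with (hF | ⟨s, rfl⟩) | rfl
    · exact (baseSys_iff hp hr hw he n rigid).2 ⟨Y, z, rfl, hB⟩ F hF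
    · exact (ca Y z hB s).2 (hS.c9a s)
    · exact (cb Y z hB).2 hS.c9b

end Crest.Agent.R046.CompSys
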