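import Crest.Agent.R046.CompTruth
import Crest.Agent.R046.SliceSol

/-!
Row 46: the truth side of the component theorem.
-/

set_option autoImplicit false

namespace Crest.Agent.R046.Truth

open Crest.CombinatoricsR.Tiling Crest.Agent.R046.Comp Crest.Agent.R046.CompSys

variable {p : ℕ} {S : Type} [DecidableEq S] {r : Option S → ℕ}

/-- the explicit graph solves the slice system. -/
theorem truth_slice (hp : 2 ≤ p) (n : Nums p r) (w e : ℤ × ℤ) (l t : ℤ × ℤ → ℤ)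
    (hv : ∀ v, v = l v • e + t v • w) (hl : ∀ a b : ℤ, l (a • e + b • w) = a)
    (ht : ∀ a b : ℤ, t (a • e + b • w) = b) (rigid : Prop)
    (lam : ℤ → S) (h o : ℤ → ℤ) (ho : rigid → ∀ m, o m = 0) :
    ∃ (Y : ℤ × ℤ → ZMod p → ZMod (p ^ 3)) (z : ℤ × ℤ → ZMod p → ∀ a, ZMod (r a)),
      SliceSol n w e rigid Y z ∧
      ∀ v (s : S) ρ ρ', z v ρ (some s) ≠ z v ρ' (some s) →
        lam (l v) = s ∧ (t v : ZMod (r (some s))) ≠ h (l v) ∧
          ∃ j : ℤ, j ≠ 0 ∧ |j| < p ∧ (t v : ZMod (p ^ 2)) = o (l v) + j := by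
  have hne : NeZero p := ⟨by omega⟩
  refine ⟨Times.Y (tD (p := p) w e l t hv hl ht lam h o),
    Times.z r (tD (p := p) w e l t hv hl ht lam h o), ?_, ?_⟩
  · exact
      { base := t_base2 p w e l t hv hl ht lam h o r hp n
        rig := fun hr v ρ => t_trans p w e l t hv hl ht lam h o (ho hr) v ρ
        cX := fun v c => t_X p w e l t hv hl ht lam h o r n v c
        c5 := fun a v ρ => t_c5 p w e l t hv hl ht lam h o r a v ρ
        c6 := fun s v ρ => t_c6 p w e l t hv hl ht lam h o r n (some s) v ρ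
        c9a := fun s v ρ => t_c9a p w e l t hv hl ht lam h o r n s v ρ
        c9b := fun v ρ => t_c9b p w e l t hv hl ht lam h o r n v ρ }
  · intro v s ρ ρ' hz
    exact t_bad p w e l t hv hl ht lam h o r hp hz

/-- a graph over the roles is a transversal of the fibre tile. -/
theorem transv_gr [NeZero p] [Fintype S] [∀ a, NeZero (r a)]
    {Y : ℤ × ℤ → ZMod p → ZMod (p ^ 3)} {z : ℤ × ℤ → ZMod p → ∀ a, ZMod (r a)}
    (hY : ∀ v ρ, r31 p (Y v ρ) = ρ) :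
    Transv (fT p r) (Tiles.gr Y z : Set ((ℤ × ℤ) × Fib p r)) := by
  rw [transv_iff]
  intro b ρ
  refine ⟨(Y b ρ, z b ρ), ⟨⟨ρ, rfl, rfl⟩, hY b ρ⟩, ?_⟩
  rintro ⟨y, x⟩ ⟨⟨ρ', h1, h2⟩, h3⟩
  simp only at h1 h2 h3
  have : ρ' = ρ := by rw [← hY b ρ', ← h1, h3]
  subst this
  rw [h1, h2]

omit [DecidableEq S] in
/-- badness of a graph. -/
theorem bad_gr {Y : ℤ × ℤ → ZMod p → ZMod (p ^ 3)} {z : ℤ × ℤ → ZMod p → ∀ a, ZMod (r a)}
    {a : Option S} {v : ℤ × ℤ} :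
    Bad (Tiles.gr Y z : Set ((ℤ × ℤ) × Fib p r)) a v ↔ ∃ ρ ρ', z v ρ a ≠ z v ρ' a := by
  constructor
  · rintro ⟨g, g', ⟨ρ, h1, h2⟩, ⟨ρ', h3, h4⟩, hne⟩
    refine ⟨ρ, ρ', ?_⟩
    have e1 : g.2 = z v ρ := h2
    have e2 : g'.2 = z v ρ' := h4
    rw [e1, e2] at hne
    exact hne
  · rintro ⟨ρ, ρ', hne⟩
    exact ⟨(Y v ρ, z v ρ), (Y v ρ', z v ρ'), ⟨ρ, rfl, rfl⟩, ⟨ρ', rfl, rfl⟩, hne⟩

/-- **TRUTH of a component**, in terms of `gr`, `Transv`, `Bad`. -/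
theorem truth [Fintype S] [NeZero p] [∀ a, NeZero (r a)] (hp : 2 ≤ p) (n : Nums p r)
    (w e : ℤ × ℤ) (l t : ℤ × ℤ → ℤ)
    (hv : ∀ v, v = l v • e + t v • w) (hl : ∀ a b : ℤ, l (a • e + b • w) = a)
    (ht : ∀ a b : ℤ, t (a • e + b • w) = b) (rigid : Prop)
    (lam : ℤ → S) (h o : ℤ → ℤ) (ho : rigid → ∀ m, o m = 0) :
    ∃ (Y : ℤ × ℤ → ZMod p → ZMod (p ^ 3)) (z : ℤ × ℤ → ZMod p → ∀ a, ZMod (r a)),
      SliceSol n w e rigid Y z ∧
      Transv (fT p r) (Tiles.gr Y z : Set ((ℤ × ℤ) × Fib p r)) ∧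
      ∀ v (s : S), Bad (Tiles.gr Y z : Set ((ℤ × ℤ) × Fib p r)) (some s) v →
        lam (l v) = s ∧ (t v : ZMod (r (some s))) ≠ h (l v) ∧
          ∃ j : ℤ, j ≠ 0 ∧ |j| < p ∧ (t v : ZMod (p ^ 2)) = o (l v) + j := by
  obtain ⟨Y, z, h1, h2⟩ := truth_slice hp n w e l t hv hl ht rigid lam h o ho
  refine ⟨Y, z, h1, transv_gr h1.base.role, ?_⟩
  intro v s hb
  obtain ⟨ρ, ρ', hz⟩ := bad_gr.1 hb
  exact h2 v s ρ ρ' hz

end Crest.Agent.R046.Truth
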