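import Crest.Agent.R046.CompOf
import Crest.Agent.R046.CompSys
import Crest.Agent.R046.TruthFinal

/-!
Row 46: the component theorem.
-/

set_option autoImplicit false

namespace Crest.Agent.R046.Comp

open Crest.CombinatoricsR.Tiling
open Crest.Agent.R046.CompSys

/-- **The component theorem.** -/
theorem comp {p : ℕ} [NeZero p] (hp : 2 ≤ p) {S : Type} [Fintype S] [DecidableEq S] [Nonempty S]
    (r : Option S → ℕ) [∀ a, NeZero (r a)] (hr : ∀ a, 3 ≤ r a)
    (hrr : Pairwise fun a b => Nat.Coprime (r a) (r b)) (hpr : ∀ a, Nat.Coprime p (r a))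
    (w e : ℤ × ℤ) (l t : ℤ × ℤ → ℤ) (hv : ∀ v, v = l v • e + t v • w)
    (hl : ∀ a b : ℤ, l (a • e + b • w) = a) (ht : ∀ a b : ℤ, t (a • e + b • w) = b)
    (rigid : Prop) :
    ∃ C : Set (Finset ((ℤ × ℤ) × Fib p r)), C.Finite ∧
      (∀ A, (∀ F ∈ C, IsTilingBy F A) → Transv (fT p r) A ∧
        ∃ τ : ℤ → ℤ, (rigid → ∀ n, τ n = τ 0) ∧ ∀ n, ∃ (s : S) (h : ℤ), ∀ v, l v = n →
          ((t v : ℤ) : ZMod (p ^ 2)) = τ n → ((t v : ℤ) : ZMod (r (some s))) ≠ h →
            Bad A (some s) v) ∧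
      (∀ (lam : ℤ → S) (h o : ℤ → ℤ), (rigid → ∀ n, o n = 0) →
        ∃ A, Transv (fT p r) A ∧ (∀ F ∈ C, IsTilingBy F A) ∧
          ∀ v s, Bad A (some s) v → lam (l v) = s ∧
            ((t v : ℤ) : ZMod (r (some s))) ≠ h (l v) ∧
            ∃ j : ℤ, j ≠ 0 ∧ |j| < p ∧ ((t v : ℤ) : ZMod (p ^ 2)) = o (l v) + j) := by
  have hw : w ≠ 0 := by
    rintro rfl
    have h1 := ht 0 0
    have h2 := ht 0 1
    simp only [smul_zero] at h1 h2
    rw [h1] at h2
    exact absurd h2 (by norm_num)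
  have he : e ≠ 0 := by
    rintro rfl
    have h1 := hl 0 0
    have h2 := hl 1 0
    simp only [smul_zero] at h1 h2
    rw [h1] at h2
    exact absurd h2 (by norm_num)
  obtain ⟨n⟩ := exists_nums p r hpr (fun a b hab => hrr hab)
  refine ⟨compSys n w e rigid, ?_⟩
  exact comp_of hp (fun a => by have := hr a; omega) hpr n w e l t hv rigid _
    (compSys_finite n w e rigid) (fun A => compSys_iff hp hr hpr hw he n rigid)
    (fun lam h o ho => by
      obtain ⟨Y, z, h1, _, h3⟩ := Truth.truth hp n w e l t hv hl ht rigid lam h o ho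
      exact ⟨Y, z, h1, h3⟩)

end Crest.Agent.R046.Comp
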