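import Mathlib

/-!
Row 46, forcedness of the component: the arithmetic core.

`Y T ρ : ZMod (p^3)` is the position of the point of role `ρ : ZMod p` at time `T : ZMod (p^2)`,
`σ T ρ` is the slope of the base label at that point.  The hypotheses force that at some time
there are a moving and a non-moving role.
-/

set_option autoImplicit false

namespace Crest.Agent.R046.Comp

open Finset

variable (p : ℕ)

/-- reduction `ZMod (p^2) → ZMod p`. -/
def r21 : ZMod (p ^ 2) →+* ZMod p := ZMod.castHom (dvd_pow_self p two_ne_zero) (ZMod p)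

/-- reduction `ZMod (p^3) → ZMod (p^2)`. -/
def r32 : ZMod (p ^ 3) →+* ZMod (p ^ 2) :=
  ZMod.castHom (pow_dvd_pow p (by norm_num : 2 ≤ 3)) (ZMod (p ^ 2))

/-- reduction `ZMod (p^3) → ZMod p`. -/
def r31 : ZMod (p ^ 3) →+* ZMod p := ZMod.castHom (dvd_pow_self p three_ne_zero) (ZMod p)

theorem r21_r32 (x : ZMod (p ^ 3)) : r21 p (r32 p x) = r31 p x := by
  have : (r21 p).comp (r32 p) = r31 p := Subsingleton.elim _ _
  exact congrArg (fun f => f x) this

/-- multiplication by `p`, `ZMod (p^2) → ZMod (p^3)`. -/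
def m23 : ZMod (p ^ 2) →+ ZMod (p ^ 3) :=
  ZMod.lift (p ^ 2) ⟨(zmultiplesHom (ZMod (p ^ 3))) (p : ZMod (p ^ 3)), by
    simp only [zmultiplesHom_apply]
    have h : (((p : ℤ) ^ 2) • (p : ZMod (p ^ 3)) : ZMod (p ^ 3)) = ((p ^ 3 : ℕ) : ZMod (p ^ 3)) := by
      rw [zsmul_eq_mul]; push_cast; ring
    push_cast
    rw [h, ZMod.natCast_self]⟩

/-- multiplication by `p`, `ZMod p → ZMod (p^2)`. -/
def m12 : ZMod p →+ ZMod (p ^ 2) :=
  ZMod.lift p ⟨(zmultiplesHom (ZMod (p ^ 2))) (p : ZMod (p ^ 2)), by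
    simp only [zmultiplesHom_apply]
    have h : ((p : ℤ) • (p : ZMod (p ^ 2)) : ZMod (p ^ 2)) = ((p ^ 2 : ℕ) : ZMod (p ^ 2)) := by
      rw [zsmul_eq_mul]; push_cast; ring
    rw [h, ZMod.natCast_self]⟩

theorem m23_intCast (n : ℤ) : m23 p (n : ZMod (p ^ 2)) = (p : ZMod (p ^ 3)) * n := by
  unfold m23
  rw [ZMod.lift_coe]
  simp [zmultiplesHom_apply, mul_comm]

theorem m12_intCast (n : ℤ) : m12 p (n : ZMod p) = (p : ZMod (p ^ 2)) * n := by
  unfold m12
  rw [ZMod.lift_coe]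
  simp [zmultiplesHom_apply, mul_comm]

theorem m12_one : m12 p 1 = (p : ZMod (p ^ 2)) := by
  have := m12_intCast p 1
  simpa using this

variable {p}

theorem exists_int {n : ℕ} (x : ZMod n) : ∃ k : ℤ, (k : ZMod n) = x := ZMod.intCast_surjective x

/-- `r32 (p * x) = p * x` -/
theorem r32_m23 (x : ZMod (p ^ 2)) : r32 p (m23 p x) = m12 p (r21 p x) := by
  obtain ⟨n, rfl⟩ := exists_int x
  rw [m23_intCast, map_mul, map_natCast, map_intCast, map_intCast, m12_intCast]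

theorem r21_m12 (x : ZMod p) : r21 p (m12 p x) = 0 := by
  obtain ⟨n, rfl⟩ := exists_int x
  rw [m12_intCast, map_mul, map_natCast, ZMod.natCast_self, zero_mul]

theorem r31_m23 (x : ZMod (p ^ 2)) : r31 p (m23 p x) = 0 := by
  rw [← r21_r32, r32_m23, r21_m12]

/-- `p^2 * k = 0` in `ZMod (p^3)` iff `p ∣ k`. -/
theorem psq_mul_eq_zero [NeZero p] {k : ℤ} (h : ((p : ZMod (p ^ 3)) ^ 2) * k = 0) :
    (k : ZMod p) = 0 := by
  have h1 : (((p : ℤ) ^ 2 * k : ℤ) : ZMod (p ^ 3)) = 0 := by push_cast; exact h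
  rw [ZMod.intCast_zmod_eq_zero_iff_dvd] at h1
  rw [ZMod.intCast_zmod_eq_zero_iff_dvd]
  have hp : (p : ℤ) ^ 2 ≠ 0 := pow_ne_zero _ (by exact_mod_cast NeZero.ne p)
  have h2 : ((p : ℤ) ^ 2) * p ∣ (p : ℤ) ^ 2 * k := by
    have : ((p ^ 3 : ℕ) : ℤ) = (p : ℤ) ^ 2 * p := by push_cast; ring
    rw [← this]; exact h1
  exact (mul_dvd_mul_iff_left hp).1 h2

/-- the window structure: (C1) and (C3). -/
structure Win (Y : ZMod (p ^ 2) → ZMod p → ZMod (p ^ 3)) : Prop where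
  role : ∀ T ρ, r31 p (Y T ρ) = ρ
  step : ∀ T ρ, r32 p (Y (T + 1) (ρ + 1)) = r32 p (Y T ρ) + 1

/-- the window at time `0`. -/
def b (Y : ZMod (p ^ 2) → ZMod p → ZMod (p ^ 3)) (x : ZMod p) : ZMod (p ^ 2) := r32 p (Y 0 x)

/-- the time at which the class `c` (of role `ρ`) is occupied at residue `τ`. -/
def tm (Y : ZMod (p ^ 2) → ZMod p → ZMod (p ^ 3)) (ρ : ZMod p) (c : ZMod (p ^ 2)) (τ : ZMod p) :
    ZMod (p ^ 2) := c - b Y (ρ - τ)

namespace Win

variable {Y : ZMod (p ^ 2) → ZMod p → ZMod (p ^ 3)}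

theorem r21_b (h : Win Y) (x : ZMod p) : r21 p (b Y x) = x := by
  unfold b; rw [r21_r32, h.role]

theorem cl_nat (h : Win Y) (n : ℕ) (ρ : ZMod p) :
    r32 p (Y (n : ZMod (p ^ 2)) (ρ + n)) = b Y ρ + n := by
  induction n with
  | zero => simp [b]
  | succ n ih =>
    have := h.step (n : ZMod (p ^ 2)) (ρ + n)
    push_cast
    rw [← add_assoc, this, ih, add_assoc]

/-- the class of role `ρ` at time `T`. -/
theorem cl (h : Win Y) [NeZero p] (T : ZMod (p ^ 2)) (ρ : ZMod p) :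
    r32 p (Y T ρ) = b Y (ρ - r21 p T) + T := by
  have : NeZero (p ^ 2) := ⟨pow_ne_zero _ (NeZero.ne p)⟩
  obtain ⟨n, hn⟩ : ∃ n : ℕ, (n : ZMod (p ^ 2)) = T := ⟨T.val, by simp⟩
  have h1 := h.cl_nat n (ρ - n)
  have h2 : r21 p T = (n : ZMod p) := by rw [← hn, map_natCast]
  rw [h2, ← hn]
  rw [sub_add_cancel] at h1
  exact h1

theorem r21_tm (h : Win Y) {ρ : ZMod p} {c : ZMod (p ^ 2)} (hc : r21 p c = ρ) (τ : ZMod p) :
    r21 p (tm Y ρ c τ) = τ := by
  unfold tm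
  rw [map_sub, h.r21_b, hc]; ring

theorem cl_tm (h : Win Y) [NeZero p] {ρ : ZMod p} {c : ZMod (p ^ 2)} (hc : r21 p c = ρ)
    (τ : ZMod p) : r32 p (Y (tm Y ρ c τ) ρ) = c := by
  rw [h.cl, h.r21_tm hc]
  unfold tm
  ring

theorem eq_tm (h : Win Y) [NeZero p] {T : ZMod (p ^ 2)} {ρ : ZMod p} {c : ZMod (p ^ 2)}
    (hT : r32 p (Y T ρ) = c) : T = tm Y ρ c (r21 p T) := by
  rw [h.cl] at hT
  unfold tm
  rw [← hT]
  ring

end Win

/-- the hypotheses on a component, at the level of positions `Y` and slopes `σ`. -/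
structure Core (Y : ZMod (p ^ 2) → ZMod p → ZMod (p ^ 3)) (σ : ZMod (p ^ 2) → ZMod p → ℕ) :
    Prop extends Win Y where
  inj : ∀ ρ, Function.Injective (fun T => Y T ρ + m23 p T)
  le_one : ∀ T ρ, σ T ρ ≤ 1
  cls : ∀ ρ T T', r32 p (Y T ρ) = r32 p (Y T' ρ) → σ T ρ = σ T' ρ
  move : ∀ ρ T T', r32 p (Y T ρ) = r32 p (Y T' ρ) → r21 p T = r21 p T' + 1 →
    Y T ρ - Y T' ρ = (p : ZMod (p ^ 3)) ^ 2 * (σ T ρ : ZMod (p ^ 3))

namespace Core

variable {Y : ZMod (p ^ 2) → ZMod p → ZMod (p ^ 3)} {σ : ZMod (p ^ 2) → ZMod p → ℕ}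

theorem r21_b (h : Core Y σ) (x : ZMod p) : r21 p (b Y x) = x := h.toWin.r21_b x

theorem cl (h : Core Y σ) [NeZero p] (T : ZMod (p ^ 2)) (ρ : ZMod p) :
    r32 p (Y T ρ) = b Y (ρ - r21 p T) + T := h.toWin.cl T ρ

theorem r21_tm (h : Core Y σ) {ρ : ZMod p} {c : ZMod (p ^ 2)} (hc : r21 p c = ρ) (τ : ZMod p) :
    r21 p (tm Y ρ c τ) = τ := h.toWin.r21_tm hc τ

theorem cl_tm (h : Core Y σ) [NeZero p] {ρ : ZMod p} {c : ZMod (p ^ 2)} (hc : r21 p c = ρ)
    (τ : ZMod p) : r32 p (Y (tm Y ρ c τ) ρ) = c := h.toWin.cl_tm hc τ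

/-- the slope of the class `c` of role `ρ`. -/
def sl (Y : ZMod (p ^ 2) → ZMod p → ZMod (p ^ 3)) (σ : ZMod (p ^ 2) → ZMod p → ℕ) (ρ : ZMod p)
    (c : ZMod (p ^ 2)) : ℕ := σ (tm Y ρ c 0) ρ

theorem sl_eq (h : Core Y σ) [NeZero p] {ρ : ZMod p} {c : ZMod (p ^ 2)} (hc : r21 p c = ρ)
    {T : ZMod (p ^ 2)} (hT : r32 p (Y T ρ) = c) : σ T ρ = sl Y σ ρ c := by
  unfold sl
  exact h.cls ρ _ _ (by rw [hT, h.cl_tm hc])

/-- the sum of the slopes over a chain is `1` modulo `p`. -/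
theorem sum_slopes (h : Core Y σ) [NeZero p] (ρ : ZMod p) (e : ZMod (p ^ 2))
    (he : r21 p e = ρ) :
    (((∑ τ : ZMod p, sl Y σ ρ (e - m12 p τ) : ℕ) : ℤ) - 1 : ℤ) = (0 : ZMod p) := by
  have hne2 : NeZero (p ^ 2) := ⟨pow_ne_zero _ (NeZero.ne p)⟩
  have hne3 : NeZero (p ^ 3) := ⟨pow_ne_zero _ (NeZero.ne p)⟩
  -- the value `Y T + p T` at the point of class `e - p τ` and residue `τ`
  let g : ZMod (p ^ 2) → ZMod p → ZMod (p ^ 3) := fun e τ =>
    Y (tm Y ρ (e - m12 p τ) τ) ρ + m23 p (tm Y ρ (e - m12 p τ) τ)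
  have hr : ∀ e : ZMod (p ^ 2), r21 p e = ρ → ∀ τ, r21 p (e - m12 p τ) = ρ := by
    intro e he τ
    rw [map_sub, r21_m12, he, sub_zero]
  have hg : ∀ e : ZMod (p ^ 2), r21 p e = ρ → ∀ τ, r32 p (g e τ) = e := by
    intro e he τ
    simp only [g]
    rw [map_add, h.cl_tm (hr e he τ), r32_m23, h.r21_tm (hr e he τ)]
    ring
  have hginj : ∀ e : ZMod (p ^ 2), r21 p e = ρ → Function.Injective (g e) := by
    intro e he τ τ' hττ'
    have h1 := h.inj ρ hττ'
    have h2 := congrArg (r21 p) h1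
    rwa [h.r21_tm (hr e he τ), h.r21_tm (hr e he τ')] at h2
  -- the fibre of the reduction
  let Fb : ZMod (p ^ 2) → Finset (ZMod (p ^ 3)) := fun e => univ.filter (fun x => r32 p x = e)
  have hcard : ∀ e, (Fb e).card = p := by
    intro e
    have hsurj : Function.Surjective (r32 p) := ZMod.castHom_surjective _
    have h1 : ∀ e, (Fb e).card = (Fb 0).card := by
      intro e
      obtain ⟨x0, hx0⟩ := hsurj e
      apply Finset.card_bij (fun x _ => x - x0)
      · intro x hx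
        simp only [Fb, Finset.mem_filter, Finset.mem_univ, true_and] at hx ⊢
        rw [map_sub, hx, hx0, sub_self]
      · intro x _ y _ hxy
        exact sub_left_injective hxy
      · intro y hy
        simp only [Fb, Finset.mem_filter, Finset.mem_univ, true_and] at hy
        refine ⟨y + x0, ?_, by ring⟩
        simp only [Fb, Finset.mem_filter, Finset.mem_univ, true_and]
        rw [map_add, hy, hx0, zero_add]
    have h2 : ∑ e : ZMod (p ^ 2), (Fb e).card = p ^ 3 := by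
      rw [← Finset.card_biUnion]
      · have : (univ.biUnion Fb : Finset (ZMod (p ^ 3))) = univ := by
          ext x; simp [Fb]
        rw [this, Finset.card_univ, ZMod.card]
      · intro a _ b _ hab
        show Disjoint (Fb a) (Fb b)
        rw [Finset.disjoint_left]
        intro x hx hx'
        simp only [Fb, Finset.mem_filter, Finset.mem_univ, true_and] at hx hx'
        exact hab (hx.symm.trans hx')
    rw [Finset.sum_congr rfl (fun e _ => h1 e), Finset.sum_const, Finset.card_univ, ZMod.card,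
      smul_eq_mul] at h2
    rw [h1 e]
    have h3 : p ^ 2 * (Fb 0).card = p ^ 2 * p := by rw [h2]; ring
    exact Nat.eq_of_mul_eq_mul_left (Nat.pos_of_ne_zero hne2.ne) h3
  have hsum : ∀ e : ZMod (p ^ 2), r21 p e = ρ → ∑ τ : ZMod p, g e τ = ∑ x ∈ Fb e, x := by
    intro e he
    have himg : (univ : Finset (ZMod p)).image (g e) = Fb e := by
      apply Finset.eq_of_subset_of_card_le
      · intro x hx
        obtain ⟨τ, _, rfl⟩ := Finset.mem_image.1 hx
        simp only [Fb, Finset.mem_filter, Finset.mem_univ, true_and]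
        exact hg e he τ
      · rw [hcard, Finset.card_image_of_injective _ (hginj e he), Finset.card_univ, ZMod.card]
    rw [← himg, Finset.sum_image (fun a _ b _ hab => hginj e he hab)]
  have hshift : ∑ x ∈ Fb (e + (p : ZMod (p ^ 2))), x = ∑ x ∈ Fb e, x + (p : ZMod (p ^ 3)) ^ 2 := by
    have h1 : ∑ x ∈ Fb (e + (p : ZMod (p ^ 2))), x = ∑ x ∈ Fb e, (x + (p : ZMod (p ^ 3))) := by
      symm
      apply Finset.sum_bij (fun x _ => x + (p : ZMod (p ^ 3)))
      · intro x hx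
        simp only [Fb, Finset.mem_filter, Finset.mem_univ, true_and] at hx ⊢
        rw [map_add, hx, map_natCast]
      · intro x _ y _ hxy
        exact add_left_injective _ hxy
      · intro y hy
        simp only [Fb, Finset.mem_filter, Finset.mem_univ, true_and] at hy
        refine ⟨y - p, ?_, by ring⟩
        simp only [Fb, Finset.mem_filter, Finset.mem_univ, true_and]
        rw [map_sub, hy, map_natCast]; ring
      · intro x _; rfl
    rw [h1, Finset.sum_add_distrib, Finset.sum_const, hcard, nsmul_eq_mul]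
    ring
  have hp1 : r21 p (e + (p : ZMod (p ^ 2))) = ρ := by
    rw [map_add, he, map_natCast, ZMod.natCast_self, add_zero]
  -- compare
  have hdiff : ∑ τ : ZMod p, (g (e + (p : ZMod (p ^ 2))) (τ + 1) - g e τ)
      = (p : ZMod (p ^ 3)) ^ 2 := by
    rw [Finset.sum_sub_distrib, hsum e he]
    have : ∑ τ : ZMod p, g (e + (p : ZMod (p ^ 2))) (τ + 1)
        = ∑ τ : ZMod p, g (e + (p : ZMod (p ^ 2))) τ :=
      Fintype.sum_equiv (Equiv.addRight (1 : ZMod p)) _ _ (fun _ => rfl)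
    rw [this, hsum _ hp1, hshift]
    ring
  have hterm : ∀ τ : ZMod p, g (e + (p : ZMod (p ^ 2))) (τ + 1) - g e τ
      = (p : ZMod (p ^ 3)) ^ 2 * (sl Y σ ρ (e - m12 p τ) : ZMod (p ^ 3))
        + m23 p (b Y (ρ - τ) - b Y (ρ - (τ + 1))) := by
    intro τ
    have hc : e + (p : ZMod (p ^ 2)) - m12 p (τ + 1) = e - m12 p τ := by
      rw [map_add, m12_one]; ring
    simp only [g]
    rw [hc]
    have hcr := hr e he τ
    have hmove := h.move ρ (tm Y ρ (e - m12 p τ) (τ + 1)) (tm Y ρ (e - m12 p τ) τ)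
      (by rw [h.cl_tm hcr, h.cl_tm hcr]) (by rw [h.r21_tm hcr, h.r21_tm hcr])
    have hs := h.sl_eq hcr (T := tm Y ρ (e - m12 p τ) (τ + 1)) (h.cl_tm hcr _)
    rw [hs] at hmove
    have hm : m23 p (tm Y ρ (e - m12 p τ) (τ + 1)) - m23 p (tm Y ρ (e - m12 p τ) τ)
        = m23 p (b Y (ρ - τ) - b Y (ρ - (τ + 1))) := by
      rw [← map_sub]
      congr 1
      unfold tm
      ring
    rw [← hm, ← hmove]
    ring
  rw [Finset.sum_congr rfl (fun τ _ => hterm τ), Finset.sum_add_distrib, ← Finset.mul_sum] at hdiff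
  have hzero : ∑ τ : ZMod p, m23 p (b Y (ρ - τ) - b Y (ρ - (τ + 1))) = 0 := by
    rw [← map_sum, Finset.sum_sub_distrib]
    have : ∑ τ : ZMod p, b Y (ρ - (τ + 1)) = ∑ τ : ZMod p, b Y (ρ - τ) :=
      Fintype.sum_equiv (Equiv.addRight (1 : ZMod p)) _ _ (fun _ => rfl)
    rw [this, sub_self, map_zero]
  rw [hzero, add_zero] at hdiff
  apply psq_mul_eq_zero
  push_cast
  rw [mul_sub, hdiff]
  ring

/-- at some time a moving and a non-moving role are present. -/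
theorem exists_mixed (h : Core Y σ) (hp : 2 ≤ p) :
    ∃ T ρ ρ', σ T ρ = 1 ∧ σ T ρ' = 0 := by
  have hne : NeZero p := ⟨by omega⟩
  have hne2 : NeZero (p ^ 2) := ⟨pow_ne_zero _ (NeZero.ne p)⟩
  have hfact : Fact (1 < p) := ⟨by omega⟩
  by_contra hcon
  push Not at hcon
  have hconst : ∀ T ρ ρ', σ T ρ = 1 → σ T ρ' = 1 := by
    intro T ρ ρ' h1
    have h2 := hcon T ρ ρ' h1
    have h3 := h.le_one T ρ'
    omega
  have hsl1 : ∀ ρ c, sl Y σ ρ c ≤ 1 := fun ρ c => h.le_one _ _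
  -- exactly one moving class per chain
  have huniq : ∀ ρ, ∃ c, r21 p c = ρ ∧ sl Y σ ρ c = 1 ∧
      ∀ c', r21 p c' = ρ → sl Y σ ρ c' = 1 → c' = c := by
    intro ρ
    obtain ⟨e, he⟩ : ∃ e, r21 p e = ρ := ZMod.castHom_surjective _ ρ
    have hs := h.sum_slopes ρ e he
    have hN : ∑ τ : ZMod p, sl Y σ ρ (e - m12 p τ) ≤ p := by
      calc ∑ τ : ZMod p, sl Y σ ρ (e - m12 p τ) ≤ ∑ _τ : ZMod p, 1 :=
            Finset.sum_le_sum (fun τ _ => hsl1 _ _)
        _ = p := by simp [ZMod.card]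
    have hN1 : ∑ τ : ZMod p, sl Y σ ρ (e - m12 p τ) = 1 := by
      rw [ZMod.intCast_zmod_eq_zero_iff_dvd] at hs
      obtain ⟨k, hk⟩ := hs
      have hk0 : k = 0 := by
        by_contra hk0
        rcases lt_or_gt_of_ne hk0 with hlt | hgt
        · have : (p : ℤ) * k ≤ (p : ℤ) * (-1) :=
            mul_le_mul_of_nonneg_left (by omega) (by omega)
          omega
        · have : (p : ℤ) * 1 ≤ (p : ℤ) * k :=
            mul_le_mul_of_nonneg_left (by omega) (by omega)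
          omega
      rw [hk0] at hk
      omega
    obtain ⟨τ0, _, hτ0⟩ : ∃ τ0 ∈ (univ : Finset (ZMod p)), sl Y σ ρ (e - m12 p τ0) ≠ 0 := by
      by_contra hc
      push Not at hc
      rw [Finset.sum_eq_zero hc] at hN1
      omega
    have hr0 : r21 p (e - m12 p τ0) = ρ := by rw [map_sub, r21_m12, he, sub_zero]
    refine ⟨e - m12 p τ0, hr0, by have := hsl1 ρ (e - m12 p τ0); omega, ?_⟩
    intro c' hc' hs'
    -- `c' = e - p τ'`
    obtain ⟨τ', hτ'⟩ : ∃ τ', c' = e - m12 p τ' := by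
      have hd : r21 p (e - c') = 0 := by rw [map_sub, he, hc', sub_self]
      obtain ⟨k, hk⟩ := exists_int (e - c')
      rw [← hk, map_intCast, ZMod.intCast_zmod_eq_zero_iff_dvd] at hd
      obtain ⟨q, hq⟩ := hd
      refine ⟨(q : ZMod p), ?_⟩
      rw [m12_intCast]
      have : (k : ZMod (p ^ 2)) = (p : ZMod (p ^ 2)) * q := by rw [hq]; push_cast; ring
      rw [← this, hk]; ring
    subst hτ'
    by_contra hne'
    have hττ : τ' ≠ τ0 := fun hh => hne' (by rw [hh])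
    have h2 : sl Y σ ρ (e - m12 p τ') + sl Y σ ρ (e - m12 p τ0) ≤
        ∑ τ : ZMod p, sl Y σ ρ (e - m12 p τ) := by
      rw [← Finset.sum_pair (f := fun τ => sl Y σ ρ (e - m12 p τ)) hττ]
      exact Finset.sum_le_sum_of_subset (Finset.subset_univ _)
    omega
  choose mc hmc1 hmc2 hmc3 using huniq
  -- all roles at the two times of the moving class of role 0
  have hall : ∀ τ ρ, r32 p (Y (tm Y 0 (mc 0) τ) ρ) = mc ρ := by
    intro τ ρ
    have h1 : σ (tm Y 0 (mc 0) τ) 0 = 1 := by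
      rw [h.sl_eq (hmc1 0) (h.cl_tm (hmc1 0) τ)]; exact hmc2 0
    have h2 := hconst _ 0 ρ h1
    apply hmc3 ρ
    · rw [r21_r32, h.role]
    · rw [← h.sl_eq (by rw [r21_r32, h.role]) rfl]; exact h2
  let T0 := tm Y 0 (mc 0) 0
  let T1 := tm Y 0 (mc 0) 1
  have hT0 : r21 p T0 = 0 := h.r21_tm (hmc1 0) 0
  have hT1 : r21 p T1 = 1 := h.r21_tm (hmc1 0) 1
  have heq : ∀ ρ, b Y (ρ - 1) + T1 = b Y ρ + T0 := by
    intro ρ
    have h0 := hall 0 ρ
    have h1 := hall 1 ρ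
    rw [h.cl] at h0 h1
    have e0 : r21 p (tm Y 0 (mc 0) 0) = 0 := hT0
    have e1 : r21 p (tm Y 0 (mc 0) 1) = 1 := hT1
    rw [e0, sub_zero] at h0
    rw [e1] at h1
    exact h1.trans h0.symm
  have hsum : ∑ ρ : ZMod p, (b Y (ρ - 1) + T1) = ∑ ρ : ZMod p, (b Y ρ + T0) :=
    Finset.sum_congr rfl (fun ρ _ => heq ρ)
  rw [Finset.sum_add_distrib, Finset.sum_add_distrib] at hsum
  have hre : ∑ ρ : ZMod p, b Y (ρ - 1) = ∑ ρ : ZMod p, b Y ρ :=
    Fintype.sum_equiv (Equiv.subRight (1 : ZMod p)) _ _ (fun _ => rfl)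
  rw [hre] at hsum
  have hsum' := add_left_cancel hsum
  simp only [Finset.sum_const, Finset.card_univ, ZMod.card, nsmul_eq_mul] at hsum'
  have hd : (p : ZMod (p ^ 2)) * (T1 - T0) = 0 := by rw [mul_sub, hsum', sub_self]
  obtain ⟨k, hk⟩ := exists_int (T1 - T0)
  rw [← hk] at hd
  have hd' : (((p : ℤ) * k : ℤ) : ZMod (p ^ 2)) = 0 := by push_cast; exact hd
  rw [ZMod.intCast_zmod_eq_zero_iff_dvd] at hd'
  have hk1 : (p : ℤ) ∣ k := by
    have : (p : ℤ) * p ∣ (p : ℤ) * k := by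
      have e : ((p ^ 2 : ℕ) : ℤ) = (p : ℤ) * p := by push_cast; ring
      rw [← e]; exact hd'
    exact (mul_dvd_mul_iff_left (by exact_mod_cast NeZero.ne p)).1 this
  have : r21 p (T1 - T0) = 0 := by
    rw [← hk, map_intCast, ZMod.intCast_zmod_eq_zero_iff_dvd]; exact hk1
  rw [map_sub, hT0, hT1, sub_zero] at this
  exact one_ne_zero this

end Core

end Crest.Agent.R046.Comp
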