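import Crest.Agent.R046.Final
import Crest.Agent.R046.Clause
import Crest.Agent.R046.CompCore

set_option autoImplicit false

/-! Row 46: concrete fibres, clauses as data.

`s0065_of_data` reduces S0065 to: component systems, a finite list of negative clauses on the
predicates `Bad`, one solution, and the impossibility of a common period. -/

namespace Crest.Agent.R046

open Crest.CombinatoricsR.Tiling Crest.Agent.R046.Comp

section fib

/-- the fibre of a component: position coordinate in `ZMod (p^3)` and one coordinate in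
`ZMod (r a)` for every label `a` -/
abbrev Fib (p : ℕ) {L : Type} (r : L → ℕ) : Type := ZMod (p ^ 3) × (∀ a : L, ZMod (r a))

variable (p : ℕ) {L : Type} (r : L → ℕ)

section T
variable [NeZero p] [Fintype L] [DecidableEq L] [∀ a, NeZero (r a)]

/-- the fibre tile: position divisible by `p`, all labels -/
def fT : Finset (Fib p r) := Finset.univ.filter (fun h => r31 p h.1 = 0)

variable {p r} in
theorem mem_fT {h : Fib p r} : h ∈ fT p r ↔ r31 p h.1 = 0 := by
  simp [fT]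

theorem zero_mem_fT : (0 : Fib p r) ∈ fT p r := by simp [mem_fT]

end T

variable {p r}

/-- the labels `a` of the points over `v` are not all equal -/
def Bad {B : Type*} (A : Set (B × Fib p r)) (a : L) (v : B) : Prop :=
  ∃ g g', (v, g) ∈ A ∧ (v, g') ∈ A ∧ g.2 a ≠ g'.2 a

theorem not_bad_iff {B : Type*} {A : Set (B × Fib p r)} {a : L} {v : B} :
    ¬ Bad A a v ↔ ∀ g ∈ {h | (v, h) ∈ A}, ∀ g' ∈ {h | (v, h) ∈ A}, g.2 a = g'.2 a := by
  unfold Bad
  push Not
  constructor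
  · intro h g hg g' hg'; exact h g g' hg hg'
  · intro h g g' hg hg'; exact h g hg g' hg'

theorem r31_surjective (p : ℕ) (x : ZMod p) : ∃ n : ℤ, r31 p (n : ZMod (p ^ 3)) = x := by
  obtain ⟨n, rfl⟩ := ZMod.intCast_surjective x
  exact ⟨n, map_intCast _ n⟩

theorem transv_iff [NeZero p] [Fintype L] [DecidableEq L] [∀ a, NeZero (r a)]
    {B : Type*} {A : Set (B × Fib p r)} :
    Transv (fT p r) A ↔ ∀ (b : B) (ρ : ZMod p), ∃! g, (b, g) ∈ A ∧ r31 p g.1 = ρ := by
  constructor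
  · intro h b ρ
    obtain ⟨n, hn⟩ := r31_surjective p ρ
    obtain ⟨t, ⟨ht, hA⟩, hu⟩ := h b ((n : ZMod (p ^ 3)), 0)
    rw [mem_fT] at ht
    refine ⟨_, ⟨hA, by simp [ht, ← hn]⟩, ?_⟩
    rintro g ⟨hg, hgρ⟩
    have := hu (((n : ZMod (p ^ 3)), 0) - g) ⟨mem_fT.2 (by simp [hgρ, ← hn]), by
      rwa [sub_sub_cancel]⟩
    rw [← this, sub_sub_cancel]
  · intro h b x
    obtain ⟨g, ⟨hg, hgρ⟩, hu⟩ := h b (r31 p x.1)
    refine ⟨x - g, ⟨mem_fT.2 (by simp [hgρ]), by rwa [sub_sub_cancel]⟩, ?_⟩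
    rintro t ⟨ht, htA⟩
    rw [mem_fT] at ht
    have := hu (x - t) ⟨htA, by simp [ht]⟩
    rw [← this, sub_sub_cancel]

end fib

/-! ### cyclicity -/

theorem isAddCyclic_prod_of_coprime {M N : Type*} [AddCommGroup M] [AddCommGroup N] [Fintype M]
    [Fintype N] [IsAddCyclic M] [IsAddCyclic N]
    (hco : Nat.Coprime (Fintype.card M) (Fintype.card N)) : IsAddCyclic (M × N) := by
  obtain ⟨g, hg⟩ := exists_generator M
  obtain ⟨g', hg'⟩ := exists_generator N
  refine ⟨⟨(g, g'), fun h => ?_⟩⟩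
  obtain ⟨a, ha⟩ := hg h.1
  obtain ⟨b, hb⟩ := hg' h.2
  obtain ⟨u, v, huv⟩ := Nat.isCoprime_iff_coprime.2 hco
  -- `m ≡ a mod |M|`, `m ≡ b mod |N|`
  have h0 : (Fintype.card M : ℤ) • g = 0 := by rw [natCast_zsmul]; exact card_nsmul_eq_zero
  have h0' : (Fintype.card N : ℤ) • g' = 0 := by rw [natCast_zsmul]; exact card_nsmul_eq_zero
  refine ⟨a + u * Fintype.card M * (b - a), ?_⟩
  show (a + u * Fintype.card M * (b - a)) • (g, g') = h
  ext
  · show (a + u * Fintype.card M * (b - a)) • g = h.1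
    have : a + u * Fintype.card M * (b - a) = a + (u * (b - a)) * Fintype.card M := by ring
    rw [this, add_smul, mul_smul, h0, smul_zero, add_zero, ha]
  · show (a + u * Fintype.card M * (b - a)) • g' = h.2
    have : a + u * Fintype.card M * (b - a) = b + (v * (a - b)) * Fintype.card N := by
      have : u * Fintype.card M = 1 - v * Fintype.card N := by linarith
      rw [this]; ring
    rw [this, add_smul, mul_smul, h0', smul_zero, add_zero, hb]

theorem isAddCyclic_fib (p : ℕ) {L : Type} [Fintype L] [DecidableEq L] (r : L → ℕ) [NeZero p]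
    [∀ a, NeZero (r a)] (hpr : ∀ a, Nat.Coprime p (r a))
    (hrr : Pairwise fun a b => Nat.Coprime (r a) (r b)) : IsAddCyclic (Fib p r) := by
  have : IsAddCyclic (∀ a : L, ZMod (r a)) := by
    refine isAddCyclic_pi ?_
    intro a b hab
    simpa [ZMod.card] using hrr hab
  refine isAddCyclic_prod_of_coprime ?_
  rw [Fintype.card_pi, ZMod.card]
  refine Nat.Coprime.pow_left _ (Nat.Coprime.prod_right fun a _ => ?_)
  rw [ZMod.card]
  exact hpr a

theorem card_fib (p : ℕ) {L : Type} [Fintype L] [DecidableEq L] (r : L → ℕ) [NeZero p]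
    [∀ a, NeZero (r a)] : Fintype.card (Fib p r) = p ^ 3 * ∏ a, r a := by
  rw [Fintype.card_prod, Fintype.card_pi, ZMod.card]
  simp [ZMod.card]

/-! ### the clause tile -/

section clause

variable {B : Type*} [AddCommGroup B] [DecidableEq B]

theorem tiles_fibTile_iff {K : Type*} [AddCommGroup K] [DecidableEq K] (C : Finset K)
    (A : Set (B × K)) : IsTilingBy (fibTile C) A ↔ ∀ b, IsTilingBy C {h | (b, h) ∈ A} := by
  rw [isTilingBy_fibTile]
  refine forall_congr' fun b => ?_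
  rw [isTilingBy_iff]
  rfl

variable {n : ℕ} [NeZero n] (p : Fin n → ℕ) (L : Fin n → Type) (r : ∀ i, L i → ℕ)
  [∀ i, NeZero (p i)] [∀ i, Fintype (L i)] [∀ i, DecidableEq (L i)] [∀ i a, NeZero (r i a)]

/-- the clause tile: forbids that all components of `J` are bad for the labels `lab` -/
def clTile (J : Finset (Fin n)) (lab : ∀ i, L i) : Finset (B × ∀ i, Fib (p i) (r i)) :=
  fibTile (Clause.clauseTile (Clause.trans (fun i => fT (p i) (r i))
    (fun i => (fT (p i) (r i)).filter (fun h => h.2 (lab i) = 0)) (fun _ => (1, 0)) J))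

theorem clTile_iff (hp : ∀ i, 2 ≤ p i) (J : Finset (Fin n)) (hJ : J.Nonempty) (lab : ∀ i, L i)
    (A : ∀ i, Set (B × Fib (p i) (r i))) (hA : ∀ i, Transv (fT (p i) (r i)) (A i)) :
    IsTilingBy (clTile p L r J lab) (fprod A) ↔ ∀ b, ∃ i ∈ J, ¬ Bad (A i) (lab i) b := by
  unfold clTile
  rw [tiles_fibTile_iff]
  refine forall_congr' fun b => ?_
  have hsl : {h | (b, h) ∈ fprod A} = Set.univ.pi (fun i => {h | (b, h) ∈ A i}) := by
    ext h
    simp [fprod]
  have hA' : ∀ i, IsTilingBy (fT (p i) (r i)) {h | (b, h) ∈ A i} := fun i =>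
    (tiles_fibTile_iff _ _).1 ((isTilingBy_fibTile).2 (hA i)) b
  have h1 : ∀ i, r31 (p i) (1 : ZMod (p i ^ 3)) ≠ 0 := by
    intro i
    rw [map_one]
    have : Fact (1 < p i) := ⟨hp i⟩
    exact one_ne_zero
  rw [hsl, Clause.clause_iff _ _ _ J hJ (fun i _ => Finset.filter_subset _ _) ?_ _ hA']
  · refine exists_congr fun i => and_congr_right fun hi => ?_
    rw [not_bad_iff]
    refine Clause.good_iff (fT (p i) (r i)) (zero_mem_fT _ _) ?_ _
      ((Pi.evalAddMonoidHom (fun a => ZMod (r i a)) (lab i)).comp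
        (AddMonoidHom.snd (ZMod (p i ^ 3)) (∀ a, ZMod (r i a)))) ?_ ((1 : ZMod (p i ^ 3)), 0) ?_ ?_
      ?_ _ (hA' i)
    · intro a ha b hb
      rw [mem_fT] at *
      simp [ha, hb]
    · intro f
      rw [Finset.mem_filter]
      rfl
    · rfl
    · intro h
      obtain ⟨k, hk⟩ := ZMod.intCast_surjective (r31 (p i) h.1)
      refine ⟨k, mem_fT.2 ?_⟩
      simp [← hk]
    · intro l
      refine ⟨(0, Pi.single (lab i) l), mem_fT.2 (by simp), ?_⟩
      simp
  · intro i _ f hf g hg hfg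
    rw [mem_fT] at hf hg
    rw [hfg] at hf
    simp only [Prod.fst_add, map_add, hg, zero_add] at hf
    exact h1 i hf

end clause

/-! ### the statement from data -/

/-- version for the index type `Fin n` -/
theorem s0065_of_data_fin {n : ℕ} [NeZero n] (p : Fin n → ℕ) (L : Fin n → Type)
    (r : ∀ i, L i → ℕ)
    [∀ i, NeZero (p i)] [∀ i, Fintype (L i)] [∀ i, DecidableEq (L i)] [∀ i a, NeZero (r i a)]
    (hp : ∀ i, 2 ≤ p i)
    (hpp : Pairwise fun i j => Nat.Coprime (p i) (p j))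
    (hpr : ∀ i j a, Nat.Coprime (p i) (r j a))
    (hrr : ∀ i, Pairwise fun a b => Nat.Coprime (r i a) (r i b))
    (hrr' : ∀ i j, i ≠ j → ∀ a b, Nat.Coprime (r i a) (r j b))
    {κ : Fin n → Type} [∀ i, Finite (κ i)] (S : ∀ i, κ i → Finset ((ℤ × ℤ) × Fib (p i) (r i)))
    {γ : Type} [Finite γ] (J : γ → Finset (Fin n)) (hJ : ∀ c, (J c).Nonempty)
    (lab : γ → ∀ i, L i)
    (hex : ∃ A : ∀ i, Set ((ℤ × ℤ) × Fib (p i) (r i)), (∀ i, Transv (fT (p i) (r i)) (A i)) ∧
      (∀ i k, IsTilingBy (S i k) (A i)) ∧ ∀ c v, ∃ i ∈ J c, ¬ Bad (A i) (lab c i) v)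
    (hno : ∀ A : ∀ i, Set ((ℤ × ℤ) × Fib (p i) (r i)), (∀ i, Transv (fT (p i) (r i)) (A i)) →
      (∀ i k, IsTilingBy (S i k) (A i)) → (∀ c v, ∃ i ∈ J c, ¬ Bad (A i) (lab c i) v) →
      ∀ N : ℕ, 0 < N → (∀ i (b v : ℤ × ℤ) (x : Fib (p i) (r i)),
        (b, x) ∈ A i ↔ (b + (N : ℤ) • v, x) ∈ A i) → False) :
    ∃ T : Finset (Fin 3 → ℤ), T.Nonempty ∧
      (∃ A : Set (Fin 3 → ℤ), IsTilingBy T A) ∧
      (∀ A : Set (Fin 3 → ℤ), IsTilingBy T A → ¬ IsFullyPeriodic A) ∧
      (∃ B : Set (Fin 3 → ℝ), IsAETilingBy (cubeThickening T) B) ∧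
      ∀ B : Set (Fin 3 → ℝ), IsAETilingBy (cubeThickening T) B → ¬ IsLatticePeriodic B := by
  have hcyc : ∀ i, IsAddCyclic (Fib (p i) (r i)) := fun i =>
    isAddCyclic_fib _ _ (hpr i i) (hrr i)
  refine s0065_of_components (H := fun i => Fib (p i) (r i)) ?_ (fun i => fT (p i) (r i))
    (fun i => zero_mem_fT _ _) S (fun c : γ => clTile p L r (J c) (lab c)) ?_ ?_
  · intro i j hij
    show Nat.Coprime (Fintype.card (Fib (p i) (r i))) (Fintype.card (Fib (p j) (r j)))
    rw [card_fib, card_fib]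
    refine Nat.Coprime.mul_left (Nat.Coprime.mul_right ?_ ?_) (Nat.Coprime.mul_right ?_ ?_)
    · exact Nat.Coprime.pow _ _ (hpp hij)
    · exact Nat.Coprime.pow_left _ (Nat.Coprime.prod_right fun a _ => hpr i j a)
    · exact Nat.Coprime.pow_right _ (Nat.Coprime.prod_left fun a _ => (hpr j i a).symm)
    · exact Nat.Coprime.prod_left fun a _ => Nat.Coprime.prod_right fun b _ => hrr' i j hij a b
  · obtain ⟨A, hT, hS, hC⟩ := hex
    exact ⟨A, hT, hS, fun c => (clTile_iff p L r hp (J c) (hJ c) (lab c) A hT).2 (hC c)⟩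
  · intro A hT hS hC N hN hper
    exact hno A hT hS (fun c => (clTile_iff p L r hp (J c) (hJ c) (lab c) A hT).1 (hC c)) N hN hper

/-- **S0065 from data.** -/
theorem s0065_of_data {I : Type} [Fintype I] [DecidableEq I] [Nonempty I] (p : I → ℕ)
    (L : I → Type) (r : ∀ i, L i → ℕ)
    [∀ i, NeZero (p i)] [∀ i, Fintype (L i)] [∀ i, DecidableEq (L i)] [∀ i a, NeZero (r i a)]
    (hp : ∀ i, 2 ≤ p i)
    (hpp : Pairwise fun i j => Nat.Coprime (p i) (p j))
    (hpr : ∀ i j a, Nat.Coprime (p i) (r j a))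
    (hrr : ∀ i, Pairwise fun a b => Nat.Coprime (r i a) (r i b))
    (hrr' : ∀ i j, i ≠ j → ∀ a b, Nat.Coprime (r i a) (r j b))
    {κ : I → Type} [∀ i, Finite (κ i)] (S : ∀ i, κ i → Finset ((ℤ × ℤ) × Fib (p i) (r i)))
    {γ : Type} [Finite γ] (J : γ → Finset I) (hJ : ∀ c, (J c).Nonempty)
    (lab : γ → ∀ i, L i)
    (hex : ∃ A : ∀ i, Set ((ℤ × ℤ) × Fib (p i) (r i)), (∀ i, Transv (fT (p i) (r i)) (A i)) ∧
      (∀ i k, IsTilingBy (S i k) (A i)) ∧ ∀ c v, ∃ i ∈ J c, ¬ Bad (A i) (lab c i) v)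
    (hno : ∀ A : ∀ i, Set ((ℤ × ℤ) × Fib (p i) (r i)), (∀ i, Transv (fT (p i) (r i)) (A i)) →
      (∀ i k, IsTilingBy (S i k) (A i)) → (∀ c v, ∃ i ∈ J c, ¬ Bad (A i) (lab c i) v) →
      ∀ N : ℕ, 0 < N → (∀ i (b v : ℤ × ℤ) (x : Fib (p i) (r i)),
        (b, x) ∈ A i ↔ (b + (N : ℤ) • v, x) ∈ A i) → False) :
    ∃ T : Finset (Fin 3 → ℤ), T.Nonempty ∧
      (∃ A : Set (Fin 3 → ℤ), IsTilingBy T A) ∧
      (∀ A : Set (Fin 3 → ℤ), IsTilingBy T A → ¬ IsFullyPeriodic A) ∧
      (∃ B : Set (Fin 3 → ℝ), IsAETilingBy (cubeThickening T) B) ∧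
      ∀ B : Set (Fin 3 → ℝ), IsAETilingBy (cubeThickening T) B → ¬ IsLatticePeriodic B := by
  classical
  let m := Fintype.card I
  have : NeZero m := ⟨Fintype.card_ne_zero⟩
  let e : Fin m ≃ I := (Fintype.equivFin I).symm
  refine s0065_of_data_fin (fun k => p (e k)) (fun k => L (e k)) (fun k => r (e k))
    (fun k => hp _) (fun k l hkl => hpp (fun h => hkl (e.injective h))) (fun k l a => hpr _ _ _)
    (fun k => hrr _) (fun k l hkl => hrr' _ _ (fun h => hkl (e.injective h)))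
    (fun k => S (e k)) (fun c => (J c).map e.symm.toEmbedding)
    (fun c => by simpa using hJ c) (fun c k => lab c (e k)) ?_ ?_
  · obtain ⟨A, hT, hS, hC⟩ := hex
    refine ⟨fun k => A (e k), fun k => hT _, fun k => hS _, fun c v => ?_⟩
    obtain ⟨i, hi, hb⟩ := hC c v
    obtain ⟨k, rfl⟩ := e.surjective i
    exact ⟨k, by simpa using hi, hb⟩
  · intro A hT hS hC N hN hper
    let P : I → Type := fun i => Set ((ℤ × ℤ) × Fib (p i) (r i))
    let A' : ∀ i, P i := (Equiv.piCongrLeft P e) A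
    have hA' : ∀ k, A' (e k) = A k := fun k => Equiv.piCongrLeft_apply_apply P e A k
    refine hno A' ?_ ?_ ?_ N hN ?_
    · rw [e.surjective.forall]
      intro k
      rw [hA']
      exact hT k
    · rw [e.surjective.forall]
      intro k
      rw [hA']
      exact hS k
    · intro c v
      obtain ⟨k, hk, hb⟩ := hC c v
      refine ⟨e k, by simpa using hk, ?_⟩
      rw [hA']
      exact hb
    · rw [e.surjective.forall]
      intro k
      rw [hA']
      exact hper k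

end Crest.Agent.R046
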