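import Crest.Agent.R046.Cov
import Crest.Agent.R046.CompCore

set_option autoImplicit false
set_option linter.unusedSectionVars false
set_option linter.deprecated false

/-! Row 46: tile equations of one component in slice language.

Base group `V`, fibre `K × L` (`K` = position group, `L = ∀ g, ZMod (r g)` = labels), role map
`rol : K →+ R`, class map `cls : K →+ Q`, `rc : Q →+ R` with `rc ∘ cls = rol`.
The set is the graph `{(v, Y v ρ, z v ρ)}` with `rol (Y v ρ) = ρ`. -/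

namespace Crest.Agent.R046.Tiles

open Crest.CombinatoricsR.Tiling
open Crest.Agent.R046

section general

variable {G : Type*} [AddCommGroup G] [DecidableEq G]

/-- translate of a finite set -/
def tr (u : G) (F : Finset G) : Finset G := F.map (addRightEmbedding u)

theorem mem_tr {u : G} {F : Finset G} {x : G} : x ∈ tr u F ↔ x - u ∈ F := by
  unfold tr
  rw [Finset.mem_map]
  constructor
  · rintro ⟨f, hf, rfl⟩
    simpa using hf
  · intro h
    exact ⟨x - u, h, by simp⟩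

theorem cov_tr (u : G) (F : Finset G) (A : Set G) (x : G) : cov (tr u F) A x = cov F A (x - u) := by
  classical
  rw [cov_eq_sum, cov_eq_sum]
  unfold tr
  rw [Finset.sum_map]
  refine Finset.sum_congr rfl fun f _ => ?_
  have : x - (addRightEmbedding u) f = x - u - f := by
    simp only [addRightEmbedding_apply]; abel
  rw [this]

/-- the shift tile: the block `B` of `E` is moved by `u` -/
def shiftTile (E B : Finset G) (u : G) : Finset G := E \ B ∪ tr u B

theorem shift_iff {E B : Finset G} {A : Set G} (hE : IsTilingBy E A) (u : G) (hB : B ⊆ E)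
    (hd : Disjoint (E \ B) (tr u B)) :
    IsTilingBy (shiftTile E B u) A ↔ ∀ x, cov B A (x - u) = cov B A x := by
  unfold shiftTile
  rw [isTilingBy_swap hE hB hd]
  simp only [cov_tr]

/-- the swap tile: `E0` is moved by `-g` and `E0 + e` by `g` -/
def swapTile (E E0 : Finset G) (e g : G) : Finset G :=
  E \ (E0 ∪ tr e E0) ∪ (tr (-g) E0 ∪ tr (e + g) E0)

theorem swap_iff {E E0 : Finset G} {A : Set G} (hE : IsTilingBy E A) (e g : G)
    (h0 : E0 ⊆ E) (h1 : tr e E0 ⊆ E) (h01 : Disjoint E0 (tr e E0))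
    (hd : Disjoint (E \ (E0 ∪ tr e E0)) (tr (-g) E0 ∪ tr (e + g) E0))
    (hd' : Disjoint (tr (-g) E0) (tr (e + g) E0)) :
    IsTilingBy (swapTile E E0 e g) A ↔
      ∀ x, cov E0 A (x + g) + cov E0 A (x - (e + g)) = cov E0 A x + cov E0 A (x - e) := by
  unfold swapTile
  rw [isTilingBy_swap hE (Finset.union_subset h0 h1) hd]
  refine forall_congr' fun x => ?_
  rw [cov_disjUnion hd', cov_disjUnion h01, cov_tr, cov_tr, cov_tr, sub_neg_eq_add]

end general

section state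

/-- the three line lemma behind all swap tiles -/
theorem two_point_iff {M : Type*} [AddCommGroup M] [DecidableEq M] {a a1 a2 e : M} (he : e ≠ 0) :
    (∀ m : M, ((if m = a1 then 1 else 0) + (if m - e = a2 then 1 else 0) : ℕ) =
      (if m = a then 1 else 0) + (if m - e = a then 1 else 0)) ↔
      ((a1 = a ∧ a2 = a) ∨ (a1 = a + e ∧ a2 = a - e)) := by
  constructor
  · intro h
    have h1 := h a
    have h2 := h (a + e)
    have e1 : ¬ (a - e = a) := by
      intro h; exact he (by simpa using h)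
    have e2 : ¬ (a + e = a) := by
      intro h; exact he (by simpa using h)
    simp only [if_true, add_sub_cancel_right] at h1 h2
    rw [if_neg e1] at h1
    rw [if_neg e2] at h2
    by_cases c1 : a = a1
    · subst c1
      left
      refine ⟨rfl, ?_⟩
      rw [if_neg e2] at h2
      by_contra hne
      rw [if_neg (fun h => hne h.symm)] at h2
      omega
    · right
      rw [if_neg c1] at h1
      by_cases c2 : a - e = a2
      · refine ⟨?_, c2.symm⟩
        by_contra hne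
        rw [if_neg (fun h => hne h.symm)] at h2
        have : ¬ (a = a2) := by
          intro h; rw [← h] at c2; exact e1 c2
        rw [if_neg this] at h2
        omega
      · rw [if_neg c2] at h1; omega
  · rintro (⟨rfl, rfl⟩ | ⟨rfl, rfl⟩) m
    · rfl
    · have e1 : (m - e = a - e) ↔ (m = a) := by
        constructor
        · intro h; simpa using h
        · rintro rfl; rfl
      have e2 : (m = a + e) ↔ (m - e = a) := by
        rw [sub_eq_iff_eq_add]
      simp only [e1, e2]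
      omega

end state

section comp

variable {V K L R Q : Type*} [AddCommGroup V] [AddCommGroup K] [AddCommGroup L] [AddCommGroup R]
  [AddCommGroup Q] [DecidableEq V] [DecidableEq K] [DecidableEq L] [DecidableEq R] [DecidableEq Q]
  [Fintype K] [Fintype L]

/-- box -/
def bx (U : Finset V) (H : Finset K) (S : Finset L) : Finset (V × K × L) := U ×ˢ (H ×ˢ S)

theorem mem_bx {U : Finset V} {H : Finset K} {S : Finset L} {v : V} {y : K} {l : L} :
    (v, y, l) ∈ bx U H S ↔ v ∈ U ∧ y ∈ H ∧ l ∈ S := by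
  unfold bx
  simp [Finset.mem_product]

/-- graph of the state functions -/
def gr (Y : V → R → K) (z : V → R → L) : Set (V × K × L) :=
  {x | ∃ ρ, x.2.1 = Y x.1 ρ ∧ x.2.2 = z x.1 ρ}

variable (rol : K →+ R)

theorem mem_gr {Y : V → R → K} {z : V → R → L} (hY : ∀ v ρ, rol (Y v ρ) = ρ) {v : V} {y : K}
    {l : L} : (v, y, l) ∈ gr Y z ↔ y = Y v (rol y) ∧ l = z v (rol y) := by
  unfold gr
  simp only [Set.mem_setOf_eq]
  constructor
  · rintro ⟨ρ, h1, h2⟩
    have : rol y = ρ := by rw [h1, hY]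
    subst this
    exact ⟨h1, h2⟩
  · rintro ⟨h1, h2⟩
    exact ⟨_, h1, h2⟩

/-- the fibre-only tile `{0} × ker rol × L` -/
def Tt : Finset (V × K × L) :=
  bx ({0} : Finset V) (Finset.univ.filter fun η : K => rol η = 0) (Finset.univ : Finset L)

theorem mem_Tt {v : V} {y : K} {l : L} : (v, y, l) ∈ (Tt rol : Finset (V × K × L)) ↔
    v = 0 ∧ rol y = 0 := by
  unfold Tt
  rw [mem_bx]
  simp

/-- (C1) `{0} × ker rol × L` tiles `A` iff `A` is a graph over the roles. -/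
theorem Tt_iff {A : Set (V × K × L)} (hs : Function.Surjective rol) :
    IsTilingBy (Tt rol) A ↔
      ∃ (Y : V → R → K) (z : V → R → L), (∀ v ρ, rol (Y v ρ) = ρ) ∧ A = gr Y z := by
  rw [isTilingBy_iff_unique]
  constructor
  · intro h
    have key : ∀ v ρ, ∃! q : K × L, rol q.1 = ρ ∧ (v, q.1, q.2) ∈ A := by
      intro v ρ
      obtain ⟨y0, hy0⟩ := hs ρ
      obtain ⟨⟨u, η, s⟩, ⟨hf, ha⟩, huniq⟩ := h (v, y0, 0)
      rw [mem_Tt] at hf
      obtain ⟨rfl, hη⟩ := hf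
      simp only [Prod.mk_sub_mk, sub_zero, zero_sub] at ha
      refine ⟨(y0 - η, -s), ⟨by simp [hy0, hη], ha⟩, ?_⟩
      rintro ⟨y', l'⟩ ⟨h1, h2⟩
      simp only at h1 h2
      have := huniq (0, y0 - y', -l') ⟨by rw [mem_Tt]; simp [hy0, h1], by simpa using h2⟩
      simp only [Prod.mk.injEq, true_and] at this
      ext
      · simp only; rw [← this.1]; abel
      · simp only; rw [← this.2]; abel
    choose q hq hquniq using key
    refine ⟨fun v ρ => (q v ρ).1, fun v ρ => (q v ρ).2, fun v ρ => (hq v ρ).1, ?_⟩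
    ext ⟨v, y, l⟩
    constructor
    · intro hA
      have := hquniq v (rol y) (y, l) ⟨rfl, hA⟩
      exact ⟨rol y, by simp [← this], by simp [← this]⟩
    · rintro ⟨ρ, h1, h2⟩
      simp only at h1 h2
      have := (hq v ρ).2
      rw [h1, h2]
      exact this
  · rintro ⟨Y, z, hY, rfl⟩ ⟨v, y, l⟩
    refine ⟨(0, y - Y v (rol y), l - z v (rol y)), ⟨?_, ?_⟩, ?_⟩
    · rw [mem_Tt]; simp [hY]
    · simp only [Prod.mk_sub_mk, sub_zero, sub_sub_cancel]
      exact ⟨rol y, rfl, rfl⟩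
    · rintro ⟨u, η, s⟩ ⟨h1, h2⟩
      rw [mem_Tt] at h1
      obtain ⟨rfl, hη⟩ := h1
      simp only [Prod.mk_sub_mk, sub_zero] at h2
      rw [mem_gr rol hY] at h2
      have e1 : rol (y - η) = rol y := by rw [map_sub, hη, sub_zero]
      rw [e1] at h2
      obtain ⟨h3, h4⟩ := h2
      simp only [Prod.mk.injEq, true_and]
      refine ⟨?_, ?_⟩
      · rw [← h3]; abel
      · rw [← h4]; abel

/-- covering number of a box -/
theorem cov_bx {Y : V → R → K} {z : V → R → L} (hY : ∀ v ρ, rol (Y v ρ) = ρ) (U : Finset V)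
    (H : Finset K) (S : Finset L) (v : V) (y : K) (l : L) :
    cov (bx U H S) (gr Y z) (v, y, l) = ∑ u ∈ U, ∑ η ∈ H,
      if y - η = Y (v - u) (rol (y - η)) ∧ l - z (v - u) (rol (y - η)) ∈ S then 1 else 0 := by
  classical
  rw [cov_eq_sum]
  unfold bx
  rw [Finset.sum_product]
  refine Finset.sum_congr rfl fun u _ => ?_
  rw [Finset.sum_product]
  refine Finset.sum_congr rfl fun η _ => ?_
  simp only [Prod.mk_sub_mk, mem_gr rol hY]
  by_cases h : y - η = Y (v - u) (rol (y - η))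
  · by_cases h2 : l - z (v - u) (rol (y - η)) ∈ S
    · rw [if_pos ⟨h, h2⟩]
      rw [Finset.sum_eq_single_of_mem _ h2]
      · rw [if_pos]
        exact ⟨h, by abel⟩
      · intro b _ hb
        rw [if_neg]
        rintro ⟨-, h3⟩
        apply hb
        rw [← h3]; abel
    · rw [if_neg (fun h' => h2 h'.2)]
      apply Finset.sum_eq_zero
      intro b hb
      rw [if_neg]
      rintro ⟨-, h3⟩
      apply h2
      rw [← h3]
      have : l - (l - b) = b := by abel
      rwa [this]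
  · rw [if_neg (fun h' => h h'.1)]
    apply Finset.sum_eq_zero
    intro b hb
    rw [if_neg (fun h' => h h'.1)]


theorem mem_tr_bx {U : Finset V} {H : Finset K} {S : Finset L} {g : V × K × L} {v : V} {y : K}
    {l : L} : (v, y, l) ∈ tr g (bx U H S) ↔ v - g.1 ∈ U ∧ y - g.2.1 ∈ H ∧ l - g.2.2 ∈ S := by
  obtain ⟨a, b, c⟩ := g
  rw [mem_tr]
  simp only [Prod.mk_sub_mk, mem_bx]

/-- blocks with different base parts are disjoint -/
theorem disjoint_of_fst {F F' : Finset (V × K × L)} {U U' : Finset V}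
    (h : ∀ x ∈ F, x.1 ∈ U) (h' : ∀ x ∈ F', x.1 ∈ U') (hU : Disjoint U U') : Disjoint F F' := by
  rw [Finset.disjoint_left]
  intro x hx hx'
  exact Finset.disjoint_left.1 hU (h x hx) (h' x hx')

section C2

theorem cov_single {Y : V → R → K} {z : V → R → L} (hY : ∀ v ρ, rol (Y v ρ) = ρ)
    (S : Finset L) (v : V) (y : K) (l : L) :
    cov (bx ({0} : Finset V) ({0} : Finset K) S) (gr Y z) (v, y, l) =
      if y = Y v (rol y) ∧ l - z v (rol y) ∈ S then 1 else 0 := by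
  rw [cov_bx rol hY]
  simp only [Finset.sum_singleton, sub_zero]

theorem bx_zero_subset (S : Finset L) :
    bx ({0} : Finset V) ({0} : Finset K) S ⊆ (Tt rol : Finset (V × K × L)) := by
  rintro ⟨v, y, l⟩ h
  rw [mem_bx] at h
  rw [mem_Tt]
  simp only [Finset.mem_singleton] at h
  exact ⟨h.1, by rw [h.2.1, map_zero]⟩

theorem disj_T {u : V} (hu : u ≠ 0) {B : Finset (V × K × L)} {a : K} {b : L}
    (hB : B ⊆ (Tt rol : Finset (V × K × L))) :
    Disjoint ((Tt rol : Finset (V × K × L)) \ B) (tr (u, a, b) B) := by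
  apply disjoint_of_fst (U := {0}) (U' := {u})
  · rintro ⟨v, y, l⟩ hx
    have := (Finset.mem_sdiff.1 hx).1
    rw [mem_Tt] at this
    simp [this.1]
  · rintro ⟨v, y, l⟩ hx
    rw [mem_tr] at hx
    have := hB hx
    simp only [Prod.mk_sub_mk] at this
    rw [mem_Tt] at this
    have h1 := sub_eq_zero.1 this.1
    simp [h1]
  · rw [Finset.disjoint_singleton]; exact fun h => hu h.symm

/-- (C2) -/
theorem C2_iff_gen {Y : V → R → K} {z : V → R → L} (hY : ∀ v ρ, rol (Y v ρ) = ρ) {u : V}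
    (hu : u ≠ 0) :
    IsTilingBy (shiftTile (Tt rol) (bx {0} {0} Finset.univ) ((u, 0, 0) : V × K × L)) (gr Y z) ↔
      ∀ v ρ, Y (v + u) ρ = Y v ρ := by
  have hs : Function.Surjective rol := fun ρ => ⟨Y 0 ρ, hY 0 ρ⟩
  rw [shift_iff ((Tt_iff rol hs).2 ⟨Y, z, hY, rfl⟩) _ (bx_zero_subset rol _)
    (disj_T rol hu (bx_zero_subset rol _))]
  constructor
  · intro h v ρ
    have := h (v + u, Y (v + u) ρ, 0)
    simp only [Prod.mk_sub_mk, sub_zero, add_sub_cancel_right] at this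
    rw [cov_single rol hY, cov_single rol hY] at this
    simp only [hY, Finset.mem_univ, and_true, if_true] at this
    by_contra hne
    rw [if_neg hne] at this
    exact absurd this (by norm_num)
  · rintro h ⟨v, y, l⟩
    simp only [Prod.mk_sub_mk, sub_zero]
    rw [cov_single rol hY, cov_single rol hY]
    have := h (v - u) (rol y)
    rw [sub_add_cancel] at this
    simp only [Finset.mem_univ, and_true, this]

end C2

section C3

variable (cls : K →+ Q) (rc : Q →+ R)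

theorem clsker_subset (hrc : ∀ y, rc (cls y) = rol y) (S : Finset L) :
    bx ({0} : Finset V) (Finset.univ.filter fun η : K => cls η = 0) S ⊆
      (Tt rol : Finset (V × K × L)) := by
  rintro ⟨v, y, l⟩ h
  rw [mem_bx] at h
  rw [mem_Tt]
  simp only [Finset.mem_singleton, Finset.mem_filter, Finset.mem_univ, true_and] at h
  exact ⟨h.1, by rw [← hrc, h.2.1, map_zero]⟩

/-- covering number of a class block -/
theorem cov_class (hrc : ∀ y, rc (cls y) = rol y) {Y : V → R → K} {z : V → R → L}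
    (hY : ∀ v ρ, rol (Y v ρ) = ρ) (v : V) (y : K) (l : L) :
    cov (bx ({0} : Finset V) (Finset.univ.filter fun η : K => cls η = 0)
      (Finset.univ : Finset L)) (gr Y z) (v, y, l) =
      if cls y = cls (Y v (rol y)) then 1 else 0 := by
  rw [cov_bx rol hY]
  simp only [Finset.sum_singleton, sub_zero, Finset.mem_univ, and_true]
  rw [Finset.sum_filter]
  by_cases h : cls y = cls (Y v (rol y))
  · rw [if_pos h]
    have hk : rol (y - (y - Y v (rol y))) = rol y := by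
      rw [sub_sub_cancel, hY]
    rw [Finset.sum_eq_single (y - Y v (rol y))]
    · have h1 : cls (y - Y v (rol y)) = 0 := by rw [map_sub, h, sub_self]
      rw [if_pos h1, if_pos]
      rw [hk]; abel
    · intro η _ hη
      by_cases h1 : cls η = 0
      · rw [if_pos h1, if_neg]
        intro h2
        apply hη
        have h3 : rol (y - η) = rol y := by
          rw [map_sub, ← hrc η, h1, map_zero, sub_zero]
        rw [h3] at h2
        rw [← h2]; abel
      · rw [if_neg h1]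
    · intro h1; exact absurd (Finset.mem_univ _) h1
  · rw [if_neg h]
    apply Finset.sum_eq_zero
    intro η _
    by_cases h1 : cls η = 0
    · rw [if_pos h1, if_neg]
      intro h2
      apply h
      have h3 : rol (y - η) = rol y := by
        rw [map_sub, ← hrc η, h1, map_zero, sub_zero]
      rw [h3] at h2
      rw [← h2, map_sub, h1, sub_zero]
    · rw [if_neg h1]

/-- (C3) -/
theorem C3_iff_gen (hrc : ∀ y, rc (cls y) = rol y) {Y : V → R → K} {z : V → R → L}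
    (hY : ∀ v ρ, rol (Y v ρ) = ρ) {w : V} (hw : w ≠ 0) (κ : K) :
    IsTilingBy (shiftTile (Tt rol) (bx {0} (Finset.univ.filter fun η : K => cls η = 0) Finset.univ)
      ((w, κ, 0) : V × K × L)) (gr Y z) ↔
      ∀ v ρ, cls (Y (v + w) (ρ + rol κ)) = cls (Y v ρ) + cls κ := by
  have hs : Function.Surjective rol := fun ρ => ⟨Y 0 ρ, hY 0 ρ⟩
  rw [shift_iff ((Tt_iff rol hs).2 ⟨Y, z, hY, rfl⟩) _ (clsker_subset rol cls rc hrc _)
    (disj_T rol hw (clsker_subset rol cls rc hrc _))]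
  constructor
  · intro h v ρ
    have := h (v + w, Y v ρ + κ, 0)
    simp only [Prod.mk_sub_mk, sub_zero, add_sub_cancel_right] at this
    rw [cov_class rol cls rc hrc hY, cov_class rol cls rc hrc hY] at this
    simp only [hY, if_true, map_add] at this
    by_contra hne
    rw [if_neg (fun h => hne h.symm)] at this
    exact absurd this (by norm_num)
  · rintro h ⟨v, y, l⟩
    simp only [Prod.mk_sub_mk, sub_zero]
    rw [cov_class rol cls rc hrc hY, cov_class rol cls rc hrc hY]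
    have := h (v - w) (rol y - rol κ)
    rw [sub_add_cancel, sub_add_cancel] at this
    rw [this, map_sub, map_sub]
    have e : (cls y - cls κ = cls (Y (v - w) (rol y - rol κ))) ↔
        (cls y = cls (Y (v - w) (rol y - rol κ)) + cls κ) := sub_eq_iff_eq_add
    simp only [e]

end C3

section C4

/-- line tile -/
def lineTile (n : ℕ) (w : V) (κ : K) : Finset (V × K × L) :=
  (Finset.range n).biUnion fun k => bx {k • w} {-(k • κ)} Finset.univ

/-- (C4) -/
theorem C4_iff_gen {Y : V → R → K} {z : V → R → L}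
    (hY : ∀ v ρ, rol (Y v ρ) = ρ) {w : V} {n : ℕ} (hw : ∀ i < n, ∀ j < n, i • w = j • w → i = j)
    (κ : K) (hκ : rol κ = 0) :
    IsTilingBy (lineTile n w κ : Finset (V × K × L)) (gr Y z) ↔
      ∀ v y, ∃! k : ℕ, k < n ∧ Y (v - k • w) (rol y) = y + k • κ := by
  classical
  rw [isTilingBy_iff_unique]
  have mem : ∀ v y l, (v, y, l) ∈ (lineTile n w κ : Finset (V × K × L)) ↔
      ∃ k < n, v = k • w ∧ y = -(k • κ) := by
    intro v y l
    unfold lineTile
    simp only [Finset.mem_biUnion, Finset.mem_range, mem_bx, Finset.mem_singleton,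
      Finset.mem_univ, and_true]
  have hr : ∀ (y : K) (k : ℕ), rol (y + k • κ) = rol y := by
    intro y k; rw [map_add, map_nsmul, hκ, smul_zero, add_zero]
  constructor
  · intro h v y
    obtain ⟨⟨u, η, s⟩, ⟨h1, h2⟩, huniq⟩ := h (v, y, 0)
    obtain ⟨k, hk, rfl, rfl⟩ := (mem _ _ _).1 h1
    simp only [Prod.mk_sub_mk, sub_neg_eq_add, zero_sub] at h2
    rw [mem_gr rol hY, hr] at h2
    refine ⟨k, ⟨hk, h2.1.symm⟩, ?_⟩
    rintro k' ⟨hk', h3⟩
    have := huniq (k' • w, -(k' • κ), - z (v - k' • w) (rol y)) ⟨(mem _ _ _).2 ⟨k', hk', rfl, rfl⟩, by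
      simp only [Prod.mk_sub_mk, sub_neg_eq_add, zero_add]
      rw [mem_gr rol hY, hr]
      exact ⟨h3.symm, rfl⟩⟩
    simp only [Prod.mk.injEq] at this
    exact hw _ hk' _ hk this.1
  · rintro h ⟨v, y, l⟩
    obtain ⟨k, ⟨hk, h1⟩, huniq⟩ := h v y
    refine ⟨(k • w, -(k • κ), l - z (v - k • w) (rol y)), ⟨(mem _ _ _).2 ⟨k, hk, rfl, rfl⟩, ?_⟩, ?_⟩
    · simp only [Prod.mk_sub_mk, sub_neg_eq_add, sub_sub_cancel]
      rw [mem_gr rol hY, hr]
      exact ⟨h1.symm, rfl⟩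
    · rintro ⟨u, η, s⟩ ⟨h2, h3⟩
      obtain ⟨k', hk', rfl, rfl⟩ := (mem _ _ _).1 h2
      simp only [Prod.mk_sub_mk, sub_neg_eq_add] at h3
      rw [mem_gr rol hY, hr] at h3
      have := huniq k' ⟨hk', h3.1.symm⟩
      subst this
      simp only [Prod.mk.injEq, true_and]
      rw [← h3.2]; abel

end C4


section C5

variable {Γ : Type} [Fintype Γ] [DecidableEq Γ] {M : Γ → Type} [∀ g, AddCommGroup (M g)]
  [∀ g, Fintype (M g)] [∀ g, DecidableEq (M g)]

/-- label vectors with prescribed `g`-coordinate -/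
def labZ (g : Γ) (c : M g) : Finset (∀ g, M g) := Finset.univ.filter fun l => l g = c

theorem mem_labZ {g : Γ} {c : M g} {l : ∀ g, M g} : l ∈ labZ g c ↔ l g = c := by
  unfold labZ; simp

/-- (C5) -/
theorem C5_iff_gen {Y : V → R → K} {z : V → R → ∀ g, M g} (hY : ∀ v ρ, rol (Y v ρ) = ρ) {u : V}
    (hu : u ≠ 0) (hYu : ∀ v ρ, Y (v + u) ρ = Y v ρ) (g : Γ) :
    IsTilingBy (shiftTile (Tt rol) (bx {0} {0} (labZ g 0)) ((u, 0, 0) : V × K × ∀ g, M g))
      (gr Y z) ↔ ∀ v ρ, z (v + u) ρ g = z v ρ g := by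
  have hs : Function.Surjective rol := fun ρ => ⟨Y 0 ρ, hY 0 ρ⟩
  rw [shift_iff ((Tt_iff rol hs).2 ⟨Y, z, hY, rfl⟩) _ (bx_zero_subset rol _)
    (disj_T rol hu (bx_zero_subset rol _))]
  constructor
  · intro h v ρ
    have := h (v + u, Y v ρ, z v ρ)
    simp only [Prod.mk_sub_mk, sub_zero, add_sub_cancel_right] at this
    rw [cov_single rol hY, cov_single rol hY] at this
    simp only [hY, mem_labZ, Pi.sub_apply, sub_self, true_and, hYu] at this
    by_contra hne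
    rw [if_neg (fun h => hne (sub_eq_zero.1 h).symm)] at this
    exact absurd this (by norm_num)
  · rintro h ⟨v, y, l⟩
    simp only [Prod.mk_sub_mk, sub_zero]
    rw [cov_single rol hY, cov_single rol hY]
    have h1 := hYu (v - u) (rol y)
    have h2 := h (v - u) (rol y)
    rw [sub_add_cancel] at h1 h2
    simp only [mem_labZ, Pi.sub_apply, h1, h2]

/-- (C6) -/
theorem C6_iff_gen {Y : V → R → K} {z : V → R → ∀ g, M g} (hY : ∀ v ρ, rol (Y v ρ) = ρ) {u : V}
    (hu : u ≠ 0) (hYu : ∀ v ρ, Y (v + u) ρ = Y v ρ) (g : Γ) (d : M g)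
    (hd : d ≠ 0) :
    IsTilingBy (swapTile (Tt rol) (bx {0} {0} (labZ g 0)) (0, 0, Pi.single g d)
      ((u, 0, 0) : V × K × ∀ g, M g)) (gr Y z) ↔
      ∀ v ρ, (z (v + u) ρ g = z v ρ g ∧ z (v - u) ρ g = z v ρ g) ∨
        (z (v + u) ρ g = z v ρ g + d ∧ z (v - u) ρ g = z v ρ g - d) := by
  have hs : Function.Surjective rol := fun ρ => ⟨Y 0 ρ, hY 0 ρ⟩
  have hmu : -u ≠ 0 := neg_ne_zero.2 hu
  have htr : tr (0, 0, Pi.single g d) (bx ({0} : Finset V) ({0} : Finset K) (labZ g (0 : M g))) =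
      bx {0} {0} (labZ g d) := by
    ext ⟨v, y, l⟩
    rw [mem_tr_bx, mem_bx]
    simp only [sub_zero, Finset.mem_singleton, mem_labZ, Pi.sub_apply, Pi.single_eq_same,
      sub_eq_zero]
  rw [swap_iff ((Tt_iff rol hs).2 ⟨Y, z, hY, rfl⟩) _ _ (bx_zero_subset rol _)]
  rotate_left
  · rw [htr]; exact bx_zero_subset rol _
  · rw [htr, Finset.disjoint_left]
    rintro ⟨v, y, l⟩ h1 h2
    rw [mem_bx, mem_labZ] at h1 h2
    exact hd (h2.2.2.symm.trans h1.2.2)
  · apply disjoint_of_fst (U := {0}) (U' := {u, -u})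
    · rintro ⟨v, y, l⟩ hx
      have := (Finset.mem_sdiff.1 hx).1
      rw [mem_Tt] at this
      simp [this.1]
    · rintro ⟨v, y, l⟩ hx
      rw [Finset.mem_union, Prod.neg_mk, mem_tr_bx, Prod.mk_add_mk, mem_tr_bx] at hx
      simp only [Finset.mem_singleton, sub_eq_zero, zero_add, sub_neg_eq_add] at hx
      simp only [Finset.mem_insert, Finset.mem_singleton]
      rcases hx with hx | hx
      · right; exact eq_neg_of_add_eq_zero_left hx.1
      · left; exact hx.1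
    · rw [Finset.disjoint_left]
      intro x h1 h2
      simp only [Finset.mem_singleton, Finset.mem_insert] at h1 h2
      subst h1
      rcases h2 with h2 | h2
      · exact hu h2.symm
      · exact hmu h2.symm
  · rw [Finset.disjoint_left]
    rintro ⟨v, y, l⟩ h1 h2
    rw [Prod.neg_mk, mem_tr_bx] at h1
    rw [Prod.mk_add_mk, mem_tr_bx] at h2
    simp only [mem_labZ, Prod.neg_mk, neg_zero, sub_zero, Pi.sub_apply, Prod.mk_add_mk, add_zero,
      Pi.single_eq_same] at h1 h2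
    rw [h1.2.2, zero_sub, neg_eq_zero] at h2
    exact hd h2.2.2
  · have key : ∀ (v : V) (y : K) (l : ∀ g, M g), y = Y v (rol y) →
        ((cov (bx {0} {0} (labZ g 0)) (gr Y z) ((v, y, l) + (u, 0, 0)) +
          cov (bx {0} {0} (labZ g 0)) (gr Y z) ((v, y, l) - ((0, 0, Pi.single g d) + (u, 0, 0))) =
          cov (bx {0} {0} (labZ g 0)) (gr Y z) (v, y, l) +
          cov (bx {0} {0} (labZ g 0)) (gr Y z) ((v, y, l) - (0, 0, Pi.single g d))) ↔
          ((if l g = z (v + u) (rol y) g then 1 else 0) +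
            (if l g - d = z (v - u) (rol y) g then 1 else 0) : ℕ) =
          (if l g = z v (rol y) g then 1 else 0) + (if l g - d = z v (rol y) g then 1 else 0)) := by
      intro v y l hy
      simp only [Prod.mk_sub_mk, Prod.mk_add_mk, add_zero, sub_zero, zero_add]
      rw [cov_single rol hY, cov_single rol hY, cov_single rol hY, cov_single rol hY]
      have h1 := hYu v (rol y)
      have h2 := hYu (v - u) (rol y)
      rw [sub_add_cancel] at h2
      simp only [mem_labZ, Pi.sub_apply, Pi.single_eq_same, sub_eq_zero, h1, ← h2, ← hy, true_and]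
    constructor
    · intro h v ρ
      refine (two_point_iff hd).1 fun m => ?_
      have h1 := h (v, Y v ρ, Function.update (z v ρ) g m)
      have h2 := (key v (Y v ρ) (Function.update (z v ρ) g m) (by rw [hY])).1 h1
      simpa only [hY, Function.update_self] using h2
    · rintro h ⟨v, y, l⟩
      by_cases hy : y = Y v (rol y)
      · rw [key v y l hy]
        exact (two_point_iff hd).2 (h v (rol y)) (l g)
      · simp only [Prod.mk_sub_mk, Prod.mk_add_mk, add_zero, sub_zero, zero_add]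
        rw [cov_single rol hY, cov_single rol hY, cov_single rol hY, cov_single rol hY]
        have h1 := hYu v (rol y)
        have h2 := hYu (v - u) (rol y)
        rw [sub_add_cancel] at h2
        simp only [h1, ← h2, hy, false_and, if_false]

end C5

section X

variable (cls : K →+ Q) (rc : Q →+ R)

/-- the class tile `{0, P, …, (n-1) P} × ker cls × L` -/
def Xt (n : ℕ) (P : V) : Finset (V × K × L) :=
  bx ((Finset.range n).image fun k => k • P) (Finset.univ.filter fun η : K => cls η = 0)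
    Finset.univ

theorem mem_Xt {n : ℕ} {P : V} {v : V} {y : K} {l : L} :
    (v, y, l) ∈ (Xt cls n P : Finset (V × K × L)) ↔ (∃ k < n, v = k • P) ∧ cls y = 0 := by
  unfold Xt
  rw [mem_bx]
  simp only [Finset.mem_image, Finset.mem_range, Finset.mem_filter, Finset.mem_univ, true_and,
    and_true, eq_comm]

/-- (X) -/
theorem Xt_iff_gen (hrc : ∀ y, rc (cls y) = rol y) (hcs : Function.Surjective cls)
    {Y : V → R → K} {z : V → R → L}
    (hY : ∀ v ρ, rol (Y v ρ) = ρ) {P : V} {n : ℕ} (hP : ∀ i < n, ∀ j < n, i • P = j • P → i = j) :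
    IsTilingBy (Xt cls n P : Finset (V × K × L)) (gr Y z) ↔
      ∀ v c, ∃! k : ℕ, k < n ∧ cls (Y (v - k • P) (rc c)) = c := by
  rw [isTilingBy_iff_unique]
  have hr : ∀ y η : K, cls η = 0 → rol (y - η) = rol y := by
    intro y η h; rw [map_sub, ← hrc η, h, map_zero, sub_zero]
  constructor
  · intro h v c
    obtain ⟨y, rfl⟩ := hcs c
    obtain ⟨⟨u, η, s⟩, ⟨h1, h2⟩, huniq⟩ := h (v, y, 0)
    obtain ⟨⟨k, hk, rfl⟩, hη⟩ := (mem_Xt cls).1 h1
    simp only [Prod.mk_sub_mk, zero_sub] at h2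
    rw [mem_gr rol hY, hr _ _ hη] at h2
    refine ⟨k, ⟨hk, ?_⟩, ?_⟩
    · rw [hrc, ← h2.1, map_sub, hη, sub_zero]
    · rintro k' ⟨hk', h3⟩
      rw [hrc] at h3
      have := huniq (k' • P, y - Y (v - k' • P) (rol y), - z (v - k' • P) (rol y))
        ⟨(mem_Xt cls).2 ⟨⟨k', hk', rfl⟩, by rw [map_sub, h3, sub_self]⟩, by
          simp only [Prod.mk_sub_mk, sub_sub_cancel, zero_sub, neg_neg]
          exact ⟨rol y, rfl, rfl⟩⟩
      simp only [Prod.mk.injEq] at this
      exact hP _ hk' _ hk this.1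
  · rintro h ⟨v, y, l⟩
    obtain ⟨k, ⟨hk, h1⟩, huniq⟩ := h v (cls y)
    rw [hrc] at h1
    refine ⟨(k • P, y - Y (v - k • P) (rol y), l - z (v - k • P) (rol y)),
      ⟨(mem_Xt cls).2 ⟨⟨k, hk, rfl⟩, by rw [map_sub, h1, sub_self]⟩, ?_⟩, ?_⟩
    · simp only [Prod.mk_sub_mk, sub_sub_cancel]
      exact ⟨rol y, rfl, rfl⟩
    · rintro ⟨u, η, s⟩ ⟨h2, h3⟩
      obtain ⟨⟨k', hk', rfl⟩, hη⟩ := (mem_Xt cls).1 h2
      simp only [Prod.mk_sub_mk] at h3
      rw [mem_gr rol hY, hr _ _ hη] at h3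
      have := huniq k' ⟨hk', by rw [hrc, ← h3.1, map_sub, hη, sub_zero]⟩
      subst this
      simp only [Prod.mk.injEq, true_and]
      refine ⟨?_, ?_⟩
      · rw [← h3.1]; abel
      · rw [← h3.2]; abel

end X


section D

variable {Γ : Type} [Fintype Γ] [DecidableEq Γ] {M : Γ → Type} [∀ g, AddCommGroup (M g)]
  [∀ g, Fintype (M g)] [∀ g, DecidableEq (M g)]

variable (cls : K →+ Q) (rc : Q →+ R)

/-- `v'` is the base point of the visit of class `c` used by the class tile at `v` -/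
def Vis (Y : V → R → K) (n : ℕ) (P : V) (c : Q) (v v' : V) : Prop :=
  ∃ k < n, v' = v - k • P ∧ cls (Y v' (rc c)) = c

/-- the block of the class tile with digit `0` and `g`-label `0` -/
def X0 (n : ℕ) (P : V) (g : Γ) : Finset (V × K × ∀ g, M g) :=
  bx ((Finset.range n).image fun k => k • P) {0} (labZ g 0)

theorem mem_X0 {n : ℕ} {P : V} {g : Γ} {v : V} {y : K} {l : ∀ g, M g} :
    (v, y, l) ∈ (X0 n P g : Finset (V × K × ∀ g, M g)) ↔ (∃ k < n, v = k • P) ∧ y = 0 ∧ l g = 0 := by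
  unfold X0
  rw [mem_bx, mem_labZ]
  simp only [Finset.mem_image, Finset.mem_range, Finset.mem_singleton, eq_comm]

theorem cov_X0 (hrc : ∀ y, rc (cls y) = rol y) {Y : V → R → K} {z : V → R → ∀ g, M g}
    (hY : ∀ v ρ, rol (Y v ρ) = ρ) {P : V} {n : ℕ} (hP : ∀ i < n, ∀ j < n, i • P = j • P → i = j)
    (hX : ∀ v c, ∃! k : ℕ, k < n ∧ cls (Y (v - k • P) (rc c)) = c) (g : Γ)
    (v : V) (y : K) (l : ∀ g, M g) {v' : V} (hv : Vis cls rc Y n P (cls y) v v') :
    cov (X0 n P g) (gr Y z) (v, y, l) =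
      if (y, l g) = (Y v' (rc (cls y)), z v' (rc (cls y)) g) then 1 else 0 := by
  unfold X0
  rw [cov_bx rol hY, Finset.sum_image (fun i hi j hj h => hP i (Finset.mem_range.1 hi) j
    (Finset.mem_range.1 hj) h)]
  simp only [Finset.sum_singleton, sub_zero]
  obtain ⟨k, hk, rfl, hc⟩ := hv
  rw [Finset.sum_eq_single_of_mem k (Finset.mem_range.2 hk)]
  · simp only [mem_labZ, Pi.sub_apply, sub_eq_zero, hrc, Prod.mk.injEq]
  · intro j hj hjk
    rw [if_neg]
    rintro ⟨h1, -⟩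
    apply hjk
    obtain ⟨k0, -, huniq⟩ := hX v (cls y)
    rw [huniq k ⟨hk, hc⟩]
    refine huniq j ⟨Finset.mem_range.1 hj, ?_⟩
    rw [hrc, ← h1]

/-- (D) the swap tiles on the class tile -/
theorem D_iff_gen (hrc : ∀ y, rc (cls y) = rol y) (hcs : Function.Surjective cls)
    {Y : V → R → K} {z : V → R → ∀ g, M g}
    (hY : ∀ v ρ, rol (Y v ρ) = ρ) {P : V} {n : ℕ} (hP : ∀ i < n, ∀ j < n, i • P = j • P → i = j)
    (hX : ∀ v c, ∃! k : ℕ, k < n ∧ cls (Y (v - k • P) (rc c)) = c) (g : Γ)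
    {ε : K} (hε : ε ≠ 0) (hcε : cls ε = 0) (d : ∀ g, M g) {u : V}
    (hu : ∀ i < n, ∀ j < n, i • P + u ≠ j • P) :
    IsTilingBy (swapTile (Xt cls n P) (X0 n P g) (0, ε, d) ((u, 0, 0) : V × K × ∀ g, M g))
      (gr Y z) ↔
      ∀ c v v0 v1 v2, Vis cls rc Y n P c v v0 → Vis cls rc Y n P c (v + u) v1 →
        Vis cls rc Y n P c (v - u) v2 →
        ((Y v1 (rc c) = Y v0 (rc c) ∧ z v1 (rc c) g = z v0 (rc c) g) ∧
          (Y v2 (rc c) = Y v0 (rc c) ∧ z v2 (rc c) g = z v0 (rc c) g)) ∨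
        ((Y v1 (rc c) = Y v0 (rc c) + ε ∧ z v1 (rc c) g = z v0 (rc c) g + d g) ∧
          (Y v2 (rc c) = Y v0 (rc c) - ε ∧ z v2 (rc c) g = z v0 (rc c) g - d g)) := by
  have hE : IsTilingBy (Xt cls n P : Finset (V × K × ∀ g, M g)) (gr Y z) :=
    (Xt_iff_gen rol cls rc hrc hcs hY hP).2 hX
  have h0 : (X0 n P g : Finset (V × K × ∀ g, M g)) ⊆ Xt cls n P := by
    rintro ⟨v, y, l⟩ h
    rw [mem_X0] at h
    rw [mem_Xt]
    exact ⟨h.1, by rw [h.2.1, map_zero]⟩
  have hm : ∀ {v y l}, (v, y, l) ∈ tr (0, ε, d) (X0 n P g : Finset (V × K × ∀ g, M g)) ↔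
      (∃ k < n, v = k • P) ∧ y = ε ∧ l g = d g := by
    intro v y l
    rw [mem_tr]
    simp only [Prod.mk_sub_mk, sub_zero]
    rw [mem_X0]
    simp only [sub_eq_zero, Pi.sub_apply]
  have h1 : tr (0, ε, d) (X0 n P g : Finset (V × K × ∀ g, M g)) ⊆ Xt cls n P := by
    rintro ⟨v, y, l⟩ h
    rw [hm] at h
    rw [mem_Xt]
    exact ⟨h.1, by rw [h.2.1, hcε]⟩
  have h01 : Disjoint (X0 n P g : Finset (V × K × ∀ g, M g)) (tr (0, ε, d) (X0 n P g)) := by
    rw [Finset.disjoint_left]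
    rintro ⟨v, y, l⟩ h2 h3
    rw [mem_X0] at h2
    rw [hm] at h3
    exact hε (h3.2.1.symm.trans h2.2.1)
  have hd : Disjoint ((Xt cls n P : Finset (V × K × ∀ g, M g)) \
      (X0 n P g ∪ tr (0, ε, d) (X0 n P g)))
      (tr (-(u, 0, 0)) (X0 n P g) ∪ tr ((0, ε, d) + (u, 0, 0)) (X0 n P g)) := by
    rw [Finset.disjoint_left]
    rintro ⟨v, y, l⟩ h2 h3
    have h4 := (Finset.mem_sdiff.1 h2).1
    rw [mem_Xt] at h4
    obtain ⟨⟨j, hj, rfl⟩, -⟩ := h4
    rw [Finset.mem_union, mem_tr, mem_tr] at h3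
    simp only [Prod.neg_mk, Prod.mk_sub_mk, Prod.mk_add_mk, sub_neg_eq_add, zero_add] at h3
    rcases h3 with h3 | h3
    · rw [mem_X0] at h3
      obtain ⟨⟨k, hk, hk'⟩, -⟩ := h3
      exact hu j hj k hk hk'
    · rw [mem_X0] at h3
      obtain ⟨⟨k, hk, hk'⟩, -⟩ := h3
      exact hu k hk j hj (by rw [← hk']; abel)
  have hd' : Disjoint (tr (-(u, 0, 0)) (X0 n P g : Finset (V × K × ∀ g, M g)))
      (tr ((0, ε, d) + (u, 0, 0)) (X0 n P g)) := by
    rw [Finset.disjoint_left]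
    rintro ⟨v, y, l⟩ h2 h3
    rw [mem_tr] at h2 h3
    simp only [Prod.neg_mk, Prod.mk_sub_mk, Prod.mk_add_mk, add_zero, neg_zero, sub_zero] at h2 h3
    rw [mem_X0] at h2 h3
    rw [h2.2.1, zero_sub, neg_eq_zero] at h3
    exact hε h3.2.1
  rw [swap_iff hE _ _ h0 h1 h01 hd hd']
  -- existence of visits
  have hex : ∀ c v, ∃ v', Vis cls rc Y n P c v v' := by
    intro c v
    obtain ⟨k, ⟨hk, h⟩, -⟩ := hX v c
    exact ⟨v - k • P, k, hk, rfl, h⟩
  have hcl : ∀ {c v v'}, Vis cls rc Y n P c v v' → cls (Y v' (rc c)) = c := by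
    rintro c v v' ⟨k, -, -, h⟩; exact h
  have key : ∀ (v : V) (y : K) (l : ∀ g, M g) (v0 v1 v2 : V), Vis cls rc Y n P (cls y) v v0 →
      Vis cls rc Y n P (cls y) (v + u) v1 → Vis cls rc Y n P (cls y) (v - u) v2 →
        ((cov (X0 n P g) (gr Y z) ((v, y, l) + (u, 0, 0)) +
          cov (X0 n P g) (gr Y z) ((v, y, l) - ((0, ε, d) + (u, 0, 0))) =
          cov (X0 n P g) (gr Y z) (v, y, l) +
          cov (X0 n P g) (gr Y z) ((v, y, l) - (0, ε, d))) ↔
          ((if (y, l g) = (Y v1 (rc (cls y)), z v1 (rc (cls y)) g) then 1 else 0) +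
            (if (y, l g) - (ε, d g) = (Y v2 (rc (cls y)), z v2 (rc (cls y)) g) then 1 else 0) : ℕ) =
          (if (y, l g) = (Y v0 (rc (cls y)), z v0 (rc (cls y)) g) then 1 else 0) +
            (if (y, l g) - (ε, d g) = (Y v0 (rc (cls y)), z v0 (rc (cls y)) g) then 1 else 0)) := by
    intro v y l v0 v1 v2 hv0 hv1 hv2
    have hce : cls (y - ε) = cls y := by rw [map_sub, hcε, sub_zero]
    simp only [Prod.mk_sub_mk, Prod.mk_add_mk, add_zero, sub_zero, zero_add]
    rw [cov_X0 rol cls rc hrc hY hP hX g (v + u) y l hv1,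
      cov_X0 rol cls rc hrc hY hP hX g (v - u) (y - ε) (l - d) (by rw [hce]; exact hv2),
      cov_X0 rol cls rc hrc hY hP hX g v y l hv0,
      cov_X0 rol cls rc hrc hY hP hX g v (y - ε) (l - d) (by rw [hce]; exact hv0)]
    simp only [hce, Pi.sub_apply]
  have hne : ((ε, d g) : K × M g) ≠ 0 := by
    intro h; exact hε (congrArg Prod.fst h)
  constructor
  · intro h c v v0 v1 v2 hv0 hv1 hv2
    have h2 := (two_point_iff (a := (Y v0 (rc c), z v0 (rc c) g))
      (a1 := (Y v1 (rc c), z v1 (rc c) g)) (a2 := (Y v2 (rc c), z v2 (rc c) g)) hne).1 ?_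
    · simpa only [Prod.mk.injEq, Prod.mk_add_mk, Prod.mk_sub_mk] using h2
    · rintro ⟨y, m⟩
      by_cases hy : cls y = c
      · subst hy
        have h3 := (key v y (Function.update 0 g m) v0 v1 v2 hv0 hv1 hv2).1 (h _)
        simpa only [Function.update_self] using h3
      · have e0 : ∀ {v v' : V} {q}, Vis cls rc Y n P c v v' → ¬ (y, m) = (Y v' (rc c), q) := by
          intro v v' q hv h3
          apply hy
          rw [(Prod.mk.inj h3).1]
          exact hcl hv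
        have e1 : ∀ {v v' : V} {q}, Vis cls rc Y n P c v v' →
            ¬ (y, m) - (ε, d g) = (Y v' (rc c), q) := by
          intro v v' q hv h3
          apply hy
          rw [Prod.mk_sub_mk] at h3
          have := congrArg cls (Prod.mk.inj h3).1
          rw [map_sub, hcε, sub_zero] at this
          rw [this]
          exact hcl hv
        rw [if_neg (e0 hv1), if_neg (e1 hv2), if_neg (e0 hv0), if_neg (e1 hv0)]
  · rintro h ⟨v, y, l⟩
    obtain ⟨v0, hv0⟩ := hex (cls y) v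
    obtain ⟨v1, hv1⟩ := hex (cls y) (v + u)
    obtain ⟨v2, hv2⟩ := hex (cls y) (v - u)
    rw [key v y l v0 v1 v2 hv0 hv1 hv2]
    have h2 := h (cls y) v v0 v1 v2 hv0 hv1 hv2
    exact (two_point_iff (a := (Y v0 (rc (cls y)), z v0 (rc (cls y)) g))
      (a1 := (Y v1 (rc (cls y)), z v1 (rc (cls y)) g))
      (a2 := (Y v2 (rc (cls y)), z v2 (rc (cls y)) g)) hne).2
      (by simpa only [Prod.mk.injEq, Prod.mk_add_mk, Prod.mk_sub_mk] using h2) (y, l g)

end D

end comp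


section concrete

open Crest.Agent.R046.Comp

variable {p : ℕ} [NeZero p] {Γ : Type} [Fintype Γ] [DecidableEq Γ] {r : Γ → ℕ}
  [∀ g, NeZero (r g)]

variable (p r)

/-- the tile `T` -/
def tT : Finset ((ℤ × ℤ) × (ZMod (p ^ 3) × ∀ g, ZMod (r g))) :=
  Tt (r31 p : ZMod (p ^ 3) →+ ZMod p)

/-- (C2) positions are `u`-periodic -/
def tC2 (u : ℤ × ℤ) : Finset ((ℤ × ℤ) × (ZMod (p ^ 3) × ∀ g, ZMod (r g))) :=
  shiftTile (tT p r) (bx {0} {0} Finset.univ) (u, 0, 0)

/-- (C3) window -/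
def tC3 (w : ℤ × ℤ) : Finset ((ℤ × ℤ) × (ZMod (p ^ 3) × ∀ g, ZMod (r g))) :=
  shiftTile (tT p r) (bx {0} (Finset.univ.filter fun η : ZMod (p ^ 3) =>
    (r32 p : ZMod (p ^ 3) →+ ZMod (p ^ 2)) η = 0) Finset.univ) (w, 1, 0)

/-- (C4) line tile -/
def tC4 (w : ℤ × ℤ) : Finset ((ℤ × ℤ) × (ZMod (p ^ 3) × ∀ g, ZMod (r g))) :=
  lineTile (p ^ 2) w (p : ZMod (p ^ 3))

/-- (C5) label `g` is `u`-periodic -/
def tC5 (g : Γ) (u : ℤ × ℤ) : Finset ((ℤ × ℤ) × (ZMod (p ^ 3) × ∀ g, ZMod (r g))) :=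
  shiftTile (tT p r) (bx {0} {0} (labZ g 0)) (u, 0, 0)

/-- (C6) label `g` is affine with slope `0` or `1` along `u` -/
def tC6 (g : Γ) (u : ℤ × ℤ) : Finset ((ℤ × ℤ) × (ZMod (p ^ 3) × ∀ g, ZMod (r g))) :=
  swapTile (tT p r) (bx {0} {0} (labZ g 0)) (0, 0, Pi.single g 1) (u, 0, 0)

/-- class tile -/
def tX (P : ℤ × ℤ) : Finset ((ℤ × ℤ) × (ZMod (p ^ 3) × ∀ g, ZMod (r g))) :=
  Xt (r32 p : ZMod (p ^ 3) →+ ZMod (p ^ 2)) p P

/-- (D2), (D3) swap tiles in the class tile -/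
def tD (g : Γ) (δ : ZMod (r g)) (P u : ℤ × ℤ) :
    Finset ((ℤ × ℤ) × (ZMod (p ^ 3) × ∀ g, ZMod (r g))) :=
  swapTile (tX p r P) (X0 p P g) (0, (p : ZMod (p ^ 3)) ^ 2, Pi.single g δ) (u, 0, 0)

/-- visit of the class `c` near `v` -/
def Visit {p : ℕ} (Y : ℤ × ℤ → ZMod p → ZMod (p ^ 3)) (P : ℤ × ℤ) (c : ZMod (p ^ 2))
    (v v' : ℤ × ℤ) : Prop :=
  ∃ k : ℕ, k < p ∧ v' = v - k • P ∧ r32 p (Y v' (r21 p c)) = c

variable {p r}

theorem hrc_aux (y : ZMod (p ^ 3)) : (r21 p : ZMod (p ^ 2) →+ ZMod p)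
    ((r32 p : ZMod (p ^ 3) →+ ZMod (p ^ 2)) y) = (r31 p : ZMod (p ^ 3) →+ ZMod p) y :=
  r21_r32 p y

theorem r32_surj : Function.Surjective (r32 p : ZMod (p ^ 3) →+ ZMod (p ^ 2)) := by
  intro x
  obtain ⟨n, rfl⟩ := ZMod.intCast_surjective x
  exact ⟨n, map_intCast (r32 p) n⟩

theorem r31_surj : Function.Surjective (r31 p : ZMod (p ^ 3) →+ ZMod p) := by
  intro x
  obtain ⟨n, rfl⟩ := ZMod.intCast_surjective x
  exact ⟨n, map_intCast (r31 p) n⟩

theorem nsmul_inj' {w : ℤ × ℤ} (hw : w ≠ 0) {i j : ℕ} (h : i • w = j • w) : i = j := by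
  have h1 : (((i : ℤ) - j) : ℤ) • w = 0 := by
    rw [sub_smul, natCast_zsmul, natCast_zsmul, h, sub_self]
  rcases smul_eq_zero.1 h1 with h2 | h2
  · exact_mod_cast sub_eq_zero.1 h2
  · exact absurd h2 hw

/-- (C1) -/
theorem tT_iff {A : Set ((ℤ × ℤ) × (ZMod (p ^ 3) × ∀ g, ZMod (r g)))} :
    IsTilingBy (tT p r) A ↔ ∃ (Y : ℤ × ℤ → ZMod p → ZMod (p ^ 3))
      (z : ℤ × ℤ → ZMod p → ∀ g, ZMod (r g)), (∀ v ρ, r31 p (Y v ρ) = ρ) ∧ A = gr Y z :=
  Tt_iff _ r31_surj

section graph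

variable {Y : ℤ × ℤ → ZMod p → ZMod (p ^ 3)} {z : ℤ × ℤ → ZMod p → ∀ g, ZMod (r g)}
  (hY : ∀ v ρ, r31 p (Y v ρ) = ρ)

include hY

theorem mem_gr' {v : ℤ × ℤ} {y : ZMod (p ^ 3)} {l : ∀ g, ZMod (r g)} :
    (v, y, l) ∈ gr Y z ↔ y = Y v (r31 p y) ∧ l = z v (r31 p y) :=
  mem_gr (r31 p : ZMod (p ^ 3) →+ ZMod p) hY

theorem tC2_iff {u : ℤ × ℤ} (hu : u ≠ 0) :
    IsTilingBy (tC2 p r u) (gr Y z) ↔ ∀ v ρ, Y (v + u) ρ = Y v ρ :=
  C2_iff_gen (r31 p : ZMod (p ^ 3) →+ ZMod p) hY hu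

theorem tC3_iff {w : ℤ × ℤ} (hw : w ≠ 0) :
    IsTilingBy (tC3 p r w) (gr Y z) ↔ ∀ v ρ, r32 p (Y (v + w) (ρ + 1)) = r32 p (Y v ρ) + 1 := by
  have h := C3_iff_gen (z := z) (r31 p : ZMod (p ^ 3) →+ ZMod p)
    (r32 p : ZMod (p ^ 3) →+ ZMod (p ^ 2)) (r21 p : ZMod (p ^ 2) →+ ZMod p) hrc_aux hY hw 1
  have e1 : (r31 p : ZMod (p ^ 3) →+ ZMod p) 1 = 1 := map_one (r31 p)
  have e2 : (r32 p : ZMod (p ^ 3) →+ ZMod (p ^ 2)) 1 = 1 := map_one (r32 p)
  rw [e1, e2] at h
  exact h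

theorem tC4_iff {w : ℤ × ℤ} (hw : w ≠ 0) :
    IsTilingBy (tC4 p r w) (gr Y z) ↔
      ∀ v y, ∃! k : ℕ, k < p ^ 2 ∧ Y (v - k • w) (r31 p y) = y + (p : ZMod (p ^ 3)) * k := by
  have h := C4_iff_gen (L := ∀ g, ZMod (r g)) (z := z) (r31 p : ZMod (p ^ 3) →+ ZMod p) hY
    (w := w) (n := p ^ 2) (fun i _ j _ h => nsmul_inj' hw h) (p : ZMod (p ^ 3))
    ((map_natCast (r31 p) p).trans (ZMod.natCast_self p))
  simp only [nsmul_eq_mul, mul_comm] at h ⊢
  exact h

theorem tC5_iff {u : ℤ × ℤ} (hu : u ≠ 0) (hYu : ∀ v ρ, Y (v + u) ρ = Y v ρ) (g : Γ) :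
    IsTilingBy (tC5 p r g u) (gr Y z) ↔ ∀ v ρ, z (v + u) ρ g = z v ρ g :=
  C5_iff_gen (r31 p : ZMod (p ^ 3) →+ ZMod p) hY hu hYu g

theorem tC6_iff {u : ℤ × ℤ} (hu : u ≠ 0) (hYu : ∀ v ρ, Y (v + u) ρ = Y v ρ) (g : Γ)
    (hg : 2 ≤ r g) :
    IsTilingBy (tC6 p r g u) (gr Y z) ↔
      ∀ v ρ, (z (v + u) ρ g = z v ρ g ∧ z (v - u) ρ g = z v ρ g) ∨
        (z (v + u) ρ g = z v ρ g + 1 ∧ z (v - u) ρ g = z v ρ g - 1) := by
  have h1 : (1 : ZMod (r g)) ≠ 0 := by
    have : Fact (1 < r g) := ⟨hg⟩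
    exact one_ne_zero
  exact C6_iff_gen (r31 p : ZMod (p ^ 3) →+ ZMod p) hY hu hYu g 1 h1

theorem tX_iff {P : ℤ × ℤ} (hP : P ≠ 0) :
    IsTilingBy (tX p r P) (gr Y z) ↔
      ∀ v c, ∃! k : ℕ, k < p ∧ r32 p (Y (v - k • P) (r21 p c)) = c :=
  Xt_iff_gen (r31 p : ZMod (p ^ 3) →+ ZMod p) (r32 p : ZMod (p ^ 3) →+ ZMod (p ^ 2))
    (r21 p : ZMod (p ^ 2) →+ ZMod p) hrc_aux r32_surj hY (fun _ _ _ _ h => nsmul_inj' hP h)

theorem tD_iff (hp : 2 ≤ p) {P u : ℤ × ℤ} (hP : P ≠ 0)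
    (hu : ∀ i j : ℕ, i < p → j < p → i • P + u ≠ j • P)
    (hX : ∀ v c, ∃! k : ℕ, k < p ∧ r32 p (Y (v - k • P) (r21 p c)) = c) (g : Γ) (δ : ZMod (r g)) :
    IsTilingBy (tD p r g δ P u) (gr Y z) ↔
      ∀ c v v0 v1 v2, Visit Y P c v v0 → Visit Y P c (v + u) v1 → Visit Y P c (v - u) v2 →
        ((Y v1 (r21 p c), z v1 (r21 p c) g) = (Y v0 (r21 p c), z v0 (r21 p c) g) ∧
          (Y v2 (r21 p c), z v2 (r21 p c) g) = (Y v0 (r21 p c), z v0 (r21 p c) g)) ∨
        ((Y v1 (r21 p c), z v1 (r21 p c) g) =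
            (Y v0 (r21 p c), z v0 (r21 p c) g) + ((p : ZMod (p ^ 3)) ^ 2, δ) ∧
          (Y v2 (r21 p c), z v2 (r21 p c) g) =
            (Y v0 (r21 p c), z v0 (r21 p c) g) - ((p : ZMod (p ^ 3)) ^ 2, δ)) := by
  have hε : (p : ZMod (p ^ 3)) ^ 2 ≠ 0 := by
    have : ((p ^ 2 : ℕ) : ZMod (p ^ 3)) ≠ 0 := by
      rw [Ne, ZMod.natCast_eq_zero_iff]
      intro h
      have h1 := Nat.le_of_dvd (by positivity) h
      have h2 : p ^ 2 < p ^ 3 := Nat.pow_lt_pow_right (by omega) (by norm_num)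
      omega
    simpa using this
  have hcε : (r32 p : ZMod (p ^ 3) →+ ZMod (p ^ 2)) ((p : ZMod (p ^ 3)) ^ 2) = 0 := by
    show r32 p ((p : ZMod (p ^ 3)) ^ 2) = 0
    rw [map_pow, map_natCast]
    have := ZMod.natCast_self (p ^ 2)
    rw [Nat.cast_pow] at this
    exact this
  have h := D_iff_gen (z := z) (r31 p : ZMod (p ^ 3) →+ ZMod p)
    (r32 p : ZMod (p ^ 3) →+ ZMod (p ^ 2))
    (r21 p : ZMod (p ^ 2) →+ ZMod p) hrc_aux r32_surj hY (P := P) (n := p)
    (fun _ _ _ _ h => nsmul_inj' hP h) hX g hε hcε (Pi.single g δ) (u := u)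
    (fun i hi j hj => hu i j hi hj)
  unfold tD tX
  rw [h]
  simp only [Prod.mk.injEq, Prod.mk_add_mk, Prod.mk_sub_mk, Pi.single_eq_same]
  rfl

end graph

end concrete

end Crest.Agent.R046.Tiles
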