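import Crest.Agent.R046.ForcedSlice
import Crest.Agent.R046.Tiles
import Crest.Agent.R046.Data
import Crest.Agent.R046.SliceSol

/-!
Row 46: forced side of a component, in general geometry: `w` is the direction of the lines, `e` a
transversal direction, `l v` the line of the point `v`, `t v` its position on the line.
-/

set_option autoImplicit false

namespace Crest.Agent.R046.Comp

open Finset

variable {p : ℕ} {S : Type} [Fintype S] [DecidableEq S]

/-- forced side on a family of lines with common positions. -/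
theorem forced_lines {L : Type} [Nonempty L] (hp : 2 ≤ p) {r : Option S → ℕ}
    (hr : ∀ a, 2 ≤ r a) (hpr : ∀ a, Nat.Coprime p (r a)) {w : ℤ × ℤ} {N1 Np : ℤ}
    {N : Option S → ℤ}
    (hNp : (Np : ZMod (p ^ 2)) = p) (hNp0 : (Np : ZMod (r none)) = 0)
    (hN1 : (N1 : ZMod (p ^ 2)) = 1) (hN10 : (N1 : ZMod (r none)) = 0)
    (hN : ∀ a, (N a : ZMod (p ^ 2)) = 0) (hNa : ∀ a, (N a : ZMod (r a)) = 1)
    {Y : ℤ × ℤ → ZMod p → ZMod (p ^ 3)} {z : ℤ × ℤ → ZMod p → ∀ a, ZMod (r a)}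
    (base : Base2 p (r none) w N1 Np (N none) Y (fun v ρ => z v ρ none))
    (h5 : ∀ a v ρ, z (v + ((p : ℤ) ^ 2 * r a) • w) ρ a = z v ρ a)
    (h6 : ∀ s v ρ, (z (v + N (some s) • w) ρ (some s) = z v ρ (some s) ∧
        z (v - N (some s) • w) ρ (some s) = z v ρ (some s)) ∨
      (z (v + N (some s) • w) ρ (some s) = z v ρ (some s) + 1 ∧
        z (v - N (some s) • w) ρ (some s) = z v ρ (some s) - 1))
    (c9a : ∀ s v ρ, z (v - N none • w) ρ none + 1 = z v ρ none ∨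
      z (v - N (some s) • w) ρ (some s) = z v ρ (some s))
    (c9b : ∀ v ρ, z (v - N none • w) ρ none = z v ρ none ∨
      ∃ s, z (v - N (some s) • w) ρ (some s) + 1 = z v ρ (some s))
    (f : L → ℤ × ℤ) (Yc : ℤ → ZMod p → ZMod (p ^ 3))
    (hf : ∀ l t ρ, Y (f l + t • w) ρ = Yc t ρ) :
    ∃ T : ZMod (p ^ 2), ∀ l : L, ∃ (s : S) (h : ZMod (r (some s))), ∀ t : ℤ,
      (t : ZMod (p ^ 2)) = T → (t : ZMod (r (some s))) ≠ h →
        ∃ ρ ρ', z (f l + t • w) ρ (some s) ≠ z (f l + t • w) ρ' (some s) := by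
  have hne : NeZero p := ⟨by omega⟩
  have hf0 : Fact (1 < r none) := ⟨hr none⟩
  have hb := base.baseSol f Yc hf (hpr none) hNp hNp0 hN1 hN10 (hN none) (hNa none)
  obtain ⟨l0⟩ := ‹Nonempty L›
  -- backward and forward slopes of the base label agree
  have hsl : ∀ (l : L) (t : ℤ) (ρ : ZMod p),
      (z (f l + (t - N none) • w) ρ none + 1 = z (f l + t • w) ρ none →
        z (f l + (t + N none) • w) ρ none = z (f l + t • w) ρ none + 1) ∧
      (z (f l + (t - N none) • w) ρ none = z (f l + t • w) ρ none →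
        z (f l + (t + N none) • w) ρ none = z (f l + t • w) ρ none) := by
    intro l t ρ
    have e1 : ((t - N none : ℤ) : ZMod (p ^ 2)) = (t : ZMod (p ^ 2)) := by
      push_cast; rw [hN, sub_zero]
    have s1 := hb.slope hp (hpr none) l (t - N none) ρ
    have s2 := hb.slope hp (hpr none) l t ρ
    rw [e1, sub_add_cancel] at s1
    constructor
    · intro h
      rcases s2 with ⟨_, b⟩ | ⟨a, _⟩
      · exact b
      · exfalso
        rcases s1 with ⟨a', _⟩ | ⟨_, b'⟩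
        · omega
        · rw [b'] at h
          exact one_ne_zero (α := ZMod (r none)) (by simpa using h)
    · intro h
      rcases s2 with ⟨a, _⟩ | ⟨_, b⟩
      · exfalso
        rcases s1 with ⟨_, b'⟩ | ⟨a', _⟩
        · rw [b'] at h
          exact one_ne_zero (α := ZMod (r none)) (by simpa using h)
        · omega
      · exact b
  have hsh : ∀ (l : L) (t n : ℤ), f l + t • w + n • w = f l + (t + n) • w := by
    intro l t n; rw [add_smul, add_assoc]
  have hsh' : ∀ (l : L) (t n : ℤ), f l + t • w - n • w = f l + (t - n) • w := by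
    intro l t n; rw [sub_smul, add_sub_assoc]
  obtain ⟨T, hT⟩ := forced_digit (L := L) (ι := Option S) (r := r) (N := N) none
    (Finset.univ.image some) hp (hr none) (fun a _ => hr a) (hpr none) (fun a _ => hpr a)
    (hN none) (fun a _ => hN a) (fun a _ => hNa a) (Y := Yc)
    (z := fun l t ρ a => z (f l + t • w) ρ a) hb
    (by
      intro a _ l t ρ
      rw [← hsh, h5])
    (by
      intro a ha l t ρ
      obtain ⟨s, -, rfl⟩ := Finset.mem_image.1 ha
      have := h6 s (f l + t • w) ρ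
      rw [hsh, hsh'] at this
      exact this)
    (by
      intro a ha l t ρ
      obtain ⟨s, -, rfl⟩ := Finset.mem_image.1 ha
      have hfs : Fact (1 < r (some s)) := ⟨hr (some s)⟩
      rcases c9a s (f l + t • w) ρ with h | h
      · left
        rw [hsh'] at h
        exact (hsl l t ρ).1 h
      · right
        rcases h6 s (f l + t • w) ρ with ⟨a1, _⟩ | ⟨_, b1⟩
        · rw [hsh] at a1; exact a1
        · exfalso
          rw [b1] at h
          exact one_ne_zero (α := ZMod (r (some s))) (by simpa using h))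
    (by
      intro l t ρ
      rcases c9b (f l + t • w) ρ with h | ⟨s, h⟩
      · left
        rw [hsh'] at h
        exact (hsl l t ρ).2 h
      · right
        have hfs : Fact (1 < r (some s)) := ⟨hr (some s)⟩
        refine ⟨some s, Finset.mem_image_of_mem _ (Finset.mem_univ _), ?_⟩
        rcases h6 s (f l + t • w) ρ with ⟨_, b1⟩ | ⟨a1, _⟩
        · exfalso
          rw [b1] at h
          exact one_ne_zero (α := ZMod (r (some s))) (by simpa using h)
        · rw [hsh] at a1; exact a1)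
  refine ⟨T, fun l => ?_⟩
  obtain ⟨a, ha, h, hh⟩ := hT l
  obtain ⟨s, -, rfl⟩ := Finset.mem_image.1 ha
  exact ⟨s, h, hh⟩

/-- forced side from the slice statements. -/
theorem forced_slices (hp : 2 ≤ p) {r : Option S → ℕ}
    (hr : ∀ a, 2 ≤ r a) (hpr : ∀ a, Nat.Coprime p (r a)) {w e : ℤ × ℤ} {N1 Np : ℤ}
    {N : Option S → ℤ}
    (hNp : (Np : ZMod (p ^ 2)) = p) (hNp0 : (Np : ZMod (r none)) = 0)
    (hN1 : (N1 : ZMod (p ^ 2)) = 1) (hN10 : (N1 : ZMod (r none)) = 0)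
    (hN : ∀ a, (N a : ZMod (p ^ 2)) = 0) (hNa : ∀ a, (N a : ZMod (r a)) = 1)
    {rigid : Prop}
    {Y : ℤ × ℤ → ZMod p → ZMod (p ^ 3)} {z : ℤ × ℤ → ZMod p → ∀ a, ZMod (r a)}
    (base : Base2 p (r none) w N1 Np (N none) Y (fun v ρ => z v ρ none))
    (h5 : ∀ a v ρ, z (v + ((p : ℤ) ^ 2 * r a) • w) ρ a = z v ρ a)
    (h6 : ∀ s v ρ, (z (v + N (some s) • w) ρ (some s) = z v ρ (some s) ∧
        z (v - N (some s) • w) ρ (some s) = z v ρ (some s)) ∨
      (z (v + N (some s) • w) ρ (some s) = z v ρ (some s) + 1 ∧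
        z (v - N (some s) • w) ρ (some s) = z v ρ (some s) - 1))
    (c9a : ∀ s v ρ, z (v - N none • w) ρ none + 1 = z v ρ none ∨
      z (v - N (some s) • w) ρ (some s) = z v ρ (some s))
    (c9b : ∀ v ρ, z (v - N none • w) ρ none = z v ρ none ∨
      ∃ s, z (v - N (some s) • w) ρ (some s) + 1 = z v ρ (some s))
    (hrig : rigid → ∀ v ρ, Y (v + e) ρ = Y v ρ)
    (l t : ℤ × ℤ → ℤ) (hv : ∀ v, v = l v • e + t v • w) :
    ∃ τ : ℤ → ℤ, (rigid → ∀ n, τ n = τ 0) ∧ ∀ n, ∃ (s : S) (h : ℤ), ∀ v, l v = n →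
      (t v : ZMod (p ^ 2)) = τ n → (t v : ZMod (r (some s))) ≠ h →
        ∃ ρ ρ', z v ρ (some s) ≠ z v ρ' (some s) := by
  by_cases hR : rigid
  · have hper : ∀ (n : ℤ) (v : ℤ × ℤ) (ρ : ZMod p), Y (v + n • e) ρ = Y v ρ := by
      intro n v ρ
      induction n with
      | zero => simp
      | succ n ih => rw [add_smul, one_smul, ← add_assoc, hrig hR, ih]
      | pred n ih =>
        have := hrig hR (v + (-(n : ℤ) - 1) • e) ρ
        rw [← this, ← ih, add_assoc]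
        congr 2
        rw [sub_smul, one_smul, sub_add_cancel]
    obtain ⟨T, hT⟩ := forced_lines (L := ℤ) hp hr hpr hNp hNp0 hN1 hN10 hN hNa base h5 h6 c9a c9b
      (fun n => n • e) (fun t ρ => Y (t • w) ρ)
      (by intro n t ρ; rw [add_comm, hper])
    obtain ⟨t0, ht0⟩ := exists_int T
    refine ⟨fun _ => t0, fun _ _ => rfl, fun n => ?_⟩
    obtain ⟨s, h, hh⟩ := hT n
    obtain ⟨h0, hh0⟩ := exists_int h
    refine ⟨s, h0, fun v hl ht hth => ?_⟩
    have := hh (t v) (by rw [ht, ht0]) (by rw [← hh0]; exact hth)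
    have e1 : n • e + t v • w = v := by rw [← hl]; exact (hv v).symm
    simp only [e1] at this
    exact this
  · have key : ∀ n : ℤ, ∃ T : ZMod (p ^ 2), ∃ (s : S) (h : ZMod (r (some s))), ∀ t : ℤ,
        (t : ZMod (p ^ 2)) = T → (t : ZMod (r (some s))) ≠ h →
          ∃ ρ ρ', z (n • e + t • w) ρ (some s) ≠ z (n • e + t • w) ρ' (some s) := by
      intro n
      obtain ⟨T, hT⟩ := forced_lines (L := Unit) hp hr hpr hNp hNp0 hN1 hN10 hN hNa base h5 h6
        c9a c9b (fun _ => n • e) (fun t ρ => Y (n • e + t • w) ρ) (by intro _ t ρ; rfl)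
      exact ⟨T, hT ()⟩
    choose T s h hT using key
    choose t0 ht0 using fun n => exists_int (T n)
    choose h0 hh0 using fun n => exists_int (h n)
    refine ⟨t0, fun h => absurd h hR, fun n => ⟨s n, h0 n, fun v hl ht hth => ?_⟩⟩
    have := hT n (t v) (by rw [ht, ht0]) (by rw [← hh0]; exact hth)
    have e1 : n • e + t v • w = v := by rw [← hl]; exact (hv v).symm
    simp only [e1] at this
    exact this

/-- badness of a graph -/
theorem bad_gr [NeZero p] {Γ : Type} [Fintype Γ] [DecidableEq Γ] {r : Γ → ℕ}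
    [∀ g, NeZero (r g)] {Y : ℤ × ℤ → ZMod p → ZMod (p ^ 3)}
    {z : ℤ × ℤ → ZMod p → ∀ a, ZMod (r a)} (a : Γ) (v : ℤ × ℤ) :
    Bad (Tiles.gr Y z) a v ↔ ∃ ρ ρ', z v ρ a ≠ z v ρ' a := by
  constructor
  · rintro ⟨g, g', ⟨ρ, h1, h2⟩, ⟨ρ', h3, h4⟩, h5⟩
    simp only at h1 h2 h3 h4
    exact ⟨ρ, ρ', by rw [← h2, ← h4]; exact h5⟩
  · rintro ⟨ρ, ρ', h⟩
    exact ⟨(Y v ρ, z v ρ), (Y v ρ', z v ρ'), ⟨ρ, rfl, rfl⟩, ⟨ρ', rfl, rfl⟩, h⟩

/-- the fibre tile of `Data` tiles the graph -/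
theorem transv_gr [NeZero p] {Γ : Type} [Fintype Γ] [DecidableEq Γ] {r : Γ → ℕ}
    [∀ g, NeZero (r g)] {Y : ℤ × ℤ → ZMod p → ZMod (p ^ 3)}
    {z : ℤ × ℤ → ZMod p → ∀ a, ZMod (r a)} (hY : ∀ v ρ, r31 p (Y v ρ) = ρ) :
    Transv (fT p r) (Tiles.gr Y z) := by
  rw [transv_iff]
  intro v ρ
  refine ⟨(Y v ρ, z v ρ), ⟨⟨ρ, rfl, rfl⟩, hY v ρ⟩, ?_⟩
  rintro ⟨y, l⟩ ⟨⟨ρ', h1, h2⟩, h3⟩
  simp only at h1 h2 h3
  have : ρ' = ρ := by rw [← h3, h1, hY]
  subst this
  rw [h1, h2]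

/-- FORCED, for a solution in slice form. -/
theorem sliceSol_forced [NeZero p] (hp : 2 ≤ p) {r : Option S → ℕ} [∀ a, NeZero (r a)]
    (hr : ∀ a, 2 ≤ r a) (hpr : ∀ a, Nat.Coprime p (r a)) {w e : ℤ × ℤ} {rigid : Prop}
    (n : CompSys.Nums p r) {Y : ℤ × ℤ → ZMod p → ZMod (p ^ 3)}
    {z : ℤ × ℤ → ZMod p → ∀ a, ZMod (r a)} (h : CompSys.SliceSol n w e rigid Y z)
    (l t : ℤ × ℤ → ℤ) (hv : ∀ v, v = l v • e + t v • w) :
    Transv (fT p r) (Tiles.gr Y z) ∧
    ∃ τ : ℤ → ℤ, (rigid → ∀ n, τ n = τ 0) ∧ ∀ n, ∃ (s : S) (h : ℤ), ∀ v, l v = n →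
      (t v : ZMod (p ^ 2)) = τ n → (t v : ZMod (r (some s))) ≠ h →
        Bad (Tiles.gr Y z) (some s) v := by
  refine ⟨transv_gr h.base.role, ?_⟩
  obtain ⟨τ, h1, h2⟩ := forced_slices hp hr hpr n.hp (n.hpr none) n.h1 (n.h1r none) n.hN n.hNa
    h.base h.c5 h.c6 h.c9a h.c9b h.rig l t hv
  refine ⟨τ, h1, fun m => ?_⟩
  obtain ⟨s, h0, hh⟩ := h2 m
  exact ⟨s, h0, fun v hl ht hth => (bad_gr (some s) v).2 (hh v hl ht hth)⟩

end Crest.Agent.R046.Comp
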