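import Crest.Agent.R046.CompForced

/-!
Row 46: the component theorem from the tile equivalence and the truth side.
-/

set_option autoImplicit false

namespace Crest.Agent.R046.Comp

open Crest.CombinatoricsR.Tiling

/-- the two external statements of a component system `C`. -/
def IsComp (p : ℕ) [NeZero p] {S : Type} [Fintype S] [DecidableEq S] (r : Option S → ℕ)
    [∀ a, NeZero (r a)] (l t : ℤ × ℤ → ℤ) (rigid : Prop)
    (C : Set (Finset ((ℤ × ℤ) × Fib p r))) : Prop :=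
  C.Finite ∧
  (∀ A : Set ((ℤ × ℤ) × Fib p r), (∀ F ∈ C, IsTilingBy F A) → Transv (fT p r) A ∧
    ∃ τ : ℤ → ℤ, (rigid → ∀ n, τ n = τ 0) ∧ ∀ n, ∃ (s : S) (h : ℤ), ∀ v, l v = n →
      (t v : ZMod (p ^ 2)) = τ n → (t v : ZMod (r (some s))) ≠ h → Bad A (some s) v) ∧
  ∀ (lam : ℤ → S) (h o : ℤ → ℤ), (rigid → ∀ n, o n = 0) →
    ∃ A : Set ((ℤ × ℤ) × Fib p r), Transv (fT p r) A ∧ (∀ F ∈ C, IsTilingBy F A) ∧
      ∀ v s, Bad A (some s) v → lam (l v) = s ∧ (t v : ZMod (r (some s))) ≠ h (l v) ∧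
        ∃ j : ℤ, j ≠ 0 ∧ |j| < p ∧ (t v : ZMod (p ^ 2)) = o (l v) + j

theorem comp_of {p : ℕ} [NeZero p] (hp : 2 ≤ p) {S : Type} [Fintype S] [DecidableEq S]
    {r : Option S → ℕ} [∀ a, NeZero (r a)] (hr : ∀ a, 2 ≤ r a)
    (hpr : ∀ a, Nat.Coprime p (r a)) (n : CompSys.Nums p r) (w e : ℤ × ℤ) (l t : ℤ × ℤ → ℤ)
    (hv : ∀ v, v = l v • e + t v • w) (rigid : Prop)
    (C : Set (Finset ((ℤ × ℤ) × Fib p r))) (hC : C.Finite)
    (Hiff : ∀ A : Set ((ℤ × ℤ) × Fib p r), (∀ F ∈ C, IsTilingBy F A) ↔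
      ∃ Y z, CompSys.SliceSol n w e rigid Y z ∧ A = Tiles.gr Y z)
    (Htruth : ∀ (lam : ℤ → S) (h o : ℤ → ℤ), (rigid → ∀ n, o n = 0) →
      ∃ Y z, CompSys.SliceSol n w e rigid Y z ∧ ∀ v s, Bad (Tiles.gr Y z) (some s) v →
        lam (l v) = s ∧ (t v : ZMod (r (some s))) ≠ h (l v) ∧
        ∃ j : ℤ, j ≠ 0 ∧ |j| < p ∧ (t v : ZMod (p ^ 2)) = o (l v) + j) :
    IsComp p r l t rigid C := by
  refine ⟨hC, ?_, ?_⟩
  · intro A hA
    obtain ⟨Y, z, hs, rfl⟩ := (Hiff A).1 hA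
    exact sliceSol_forced hp hr hpr n hs l t hv
  · intro lam h o ho
    obtain ⟨Y, z, hs, hb⟩ := Htruth lam h o ho
    exact ⟨Tiles.gr Y z, transv_gr hs.base.role, (Hiff _).2 ⟨Y, z, hs, rfl⟩, hb⟩

end Crest.Agent.R046.Comp
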