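import Crest.Agent.R046.Forced

/-!
Row 46: from the slice statements of the component tiles (helper499's frozen form 8244) to the
hypotheses `BaseSol` and the two forcedness theorems on `ℤ × ℤ`.
-/

set_option autoImplicit false

namespace Crest.Agent.R046.Comp

open Finset

variable {p : ℕ}

/-- `Vis`: `v'` is the visit of the class `c` at the residue of `v`. -/
def Vis (P : ℤ × ℤ) (Y : ℤ × ℤ → ZMod p → ZMod (p ^ 3)) (c : ZMod (p ^ 2)) (v v' : ℤ × ℤ) : Prop :=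
  ∃ k : ℕ, k < p ∧ v' = v - k • P ∧ r32 p (Y v' (r21 p c)) = c

/-- the swap statement (slice form of the tile `D g d P u`). -/
def DStat (P : ℤ × ℤ) (Y : ℤ × ℤ → ZMod p → ZMod (p ^ 3)) {r0 : ℕ}
    (z : ℤ × ℤ → ZMod p → ZMod r0) (d : ZMod r0) (u : ℤ × ℤ) : Prop :=
  ∀ (c : ZMod (p ^ 2)) (v v0 v1 v2 : ℤ × ℤ), Vis P Y c v v0 → Vis P Y c (v + u) v1 →
    Vis P Y c (v - u) v2 →
    (((Y v1 (r21 p c), z v1 (r21 p c)) : ZMod (p ^ 3) × ZMod r0) = (Y v0 (r21 p c), z v0 (r21 p c)) ∧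
      ((Y v2 (r21 p c), z v2 (r21 p c)) : ZMod (p ^ 3) × ZMod r0)
        = (Y v0 (r21 p c), z v0 (r21 p c))) ∨
    (((Y v1 (r21 p c), z v1 (r21 p c)) : ZMod (p ^ 3) × ZMod r0)
        = (Y v0 (r21 p c), z v0 (r21 p c)) + ((p : ZMod (p ^ 3)) ^ 2, d) ∧
      ((Y v2 (r21 p c), z v2 (r21 p c)) : ZMod (p ^ 3) × ZMod r0)
        = (Y v0 (r21 p c), z v0 (r21 p c)) - ((p : ZMod (p ^ 3)) ^ 2, d))

/-- slice statements for positions and base label, along the direction `w`. -/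
structure Base2 (p r0 : ℕ) (w : ℤ × ℤ) (N1 Np N0 : ℤ) (Y : ℤ × ℤ → ZMod p → ZMod (p ^ 3))
    (z : ℤ × ℤ → ZMod p → ZMod r0) : Prop where
  role : ∀ v ρ, r31 p (Y v ρ) = ρ
  per : ∀ v ρ, Y (v + ((p : ℤ) ^ 2) • w) ρ = Y v ρ
  step : ∀ v ρ, r32 p (Y (v + w) (ρ + 1)) = r32 p (Y v ρ) + 1
  c4 : ∀ v y, ∃! k : ℕ, k < p ^ 2 ∧ Y (v - k • w) (r31 p y) = y + p * k
  c5 : ∀ v ρ, z (v + ((p : ℤ) ^ 2 * r0) • w) ρ = z v ρ
  d2 : DStat (Np • w) Y z 0 (N1 • w)
  d3 : DStat (Np • w) Y z 1 ((N1 + N0) • w)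

namespace Base2

variable {r0 : ℕ} {w : ℤ × ℤ} {N1 Np N0 : ℤ} {Y : ℤ × ℤ → ZMod p → ZMod (p ^ 3)}
  {z : ℤ × ℤ → ZMod p → ZMod r0}

theorem per_mul (h : Base2 p r0 w N1 Np N0 Y z) (v : ℤ × ℤ) (n : ℤ) (ρ : ZMod p) :
    Y (v + ((p : ℤ) ^ 2 * n) • w) ρ = Y v ρ := by
  induction n with
  | zero => simp
  | succ n ih =>
    rw [mul_add, mul_one, add_smul, ← add_assoc, h.per, ih]
  | pred n ih =>
    have := h.per (v + ((p : ℤ) ^ 2 * (-(n : ℤ) - 1)) • w) ρ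
    rw [← this, ← ih, add_assoc, ← add_smul]
    congr 3
    ring

theorem zper_mul (h : Base2 p r0 w N1 Np N0 Y z) (v : ℤ × ℤ) (n : ℤ) (ρ : ZMod p) :
    z (v + ((p : ℤ) ^ 2 * r0 * n) • w) ρ = z v ρ := by
  induction n with
  | zero => simp
  | succ n ih =>
    rw [mul_add, mul_one, add_smul, ← add_assoc, h.c5, ih]
  | pred n ih =>
    have := h.c5 (v + ((p : ℤ) ^ 2 * r0 * (-(n : ℤ) - 1)) • w) ρ
    rw [← this, ← ih, add_assoc, ← add_smul]
    congr 3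
    ring

/-- positions depend on the time only modulo `p^2`. -/
theorem Y_congr (h : Base2 p r0 w N1 Np N0 Y z) (v0 : ℤ × ℤ) {t t' : ℤ} (ρ : ZMod p)
    (htt : (t : ZMod (p ^ 2)) = (t' : ZMod (p ^ 2))) : Y (v0 + t • w) ρ = Y (v0 + t' • w) ρ := by
  rw [ZMod.intCast_eq_intCast_iff_dvd_sub] at htt
  obtain ⟨n, hn⟩ := htt
  have : t' = t + (p : ℤ) ^ 2 * n := by push_cast at hn; linarith
  rw [this, add_smul, ← add_assoc, h.per_mul]

/-- labels depend on the time only modulo `p^2` and `r0`. -/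
theorem z_congr (h : Base2 p r0 w N1 Np N0 Y z) (hcop : Nat.Coprime p r0) (v0 : ℤ × ℤ)
    {t t' : ℤ} (ρ : ZMod p) (htt : (t : ZMod (p ^ 2)) = (t' : ZMod (p ^ 2)))
    (htr : (t : ZMod r0) = (t' : ZMod r0)) : z (v0 + t • w) ρ = z (v0 + t' • w) ρ := by
  rw [ZMod.intCast_eq_intCast_iff_dvd_sub] at htt htr
  have hc : IsCoprime ((p ^ 2 : ℕ) : ℤ) (r0 : ℤ) :=
    Nat.isCoprime_iff_coprime.2 (Nat.Coprime.pow_left 2 hcop)
  obtain ⟨n, hn⟩ := hc.mul_dvd htt htr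
  have : t' = t + (p : ℤ) ^ 2 * r0 * n := by push_cast at hn; linarith
  rw [this, add_smul, ← add_assoc, h.zper_mul]

/-- the window structure of a line. -/
theorem win_line (h : Base2 p r0 w N1 Np N0 Y z) (v0 : ℤ × ℤ) :
    Win (fun (T : ZMod (p ^ 2)) ρ => Y (v0 + (T.cast : ℤ) • w) ρ) where
  role := fun T ρ => h.role _ ρ
  step := by
    intro T ρ
    obtain ⟨t, rfl⟩ := exists_int T
    have e1 : Y (v0 + ((((t : ZMod (p ^ 2)) + 1).cast : ℤ)) • w) (ρ + 1)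
        = Y (v0 + (t + 1) • w) (ρ + 1) := by
      apply h.Y_congr
      rw [ZMod.intCast_zmod_cast]; push_cast; rfl
    have e2 : Y (v0 + (((t : ZMod (p ^ 2)).cast : ℤ)) • w) ρ = Y (v0 + t • w) ρ := by
      apply h.Y_congr
      rw [ZMod.intCast_zmod_cast]
    show r32 p (Y (v0 + ((((t : ZMod (p ^ 2)) + 1).cast : ℤ)) • w) (ρ + 1)) =
      r32 p (Y (v0 + (((t : ZMod (p ^ 2)).cast : ℤ)) • w) ρ) + 1
    rw [e1, e2, add_smul, one_smul, ← add_assoc, h.step]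

/-- visits of a class with the same residue modulo `p` are congruent modulo `p^2`. -/
theorem visit_unique [NeZero p] (h : Base2 p r0 w N1 Np N0 Y z) (v0 : ℤ × ℤ) {t t' : ℤ}
    {ρ : ZMod p} (hc : r32 p (Y (v0 + t • w) ρ) = r32 p (Y (v0 + t' • w) ρ))
    (hres : (t : ZMod p) = (t' : ZMod p)) : (t : ZMod (p ^ 2)) = (t' : ZMod (p ^ 2)) := by
  have hw := h.win_line v0
  have e : ∀ t : ℤ, Y (v0 + (((t : ZMod (p ^ 2)).cast : ℤ)) • w) ρ = Y (v0 + t • w) ρ := by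
    intro t
    apply h.Y_congr
    rw [ZMod.intCast_zmod_cast]
  have h1 := hw.eq_tm (T := (t : ZMod (p ^ 2))) (ρ := ρ) rfl
  have h2 := hw.eq_tm (T := (t' : ZMod (p ^ 2))) (ρ := ρ) rfl
  rw [h1, h2]
  simp only [e, hc, r21_coe, hres]

/-- existence and uniqueness of the visit (the slice statement of the tile `X`). -/
theorem exists_vis [NeZero p] (h : Base2 p r0 w N1 Np N0 Y z)
    (hNp : (Np : ZMod (p ^ 2)) = p) (v : ℤ × ℤ) (c : ZMod (p ^ 2)) :
    ∃! k : ℕ, k < p ∧ r32 p (Y (v - k • (Np • w)) (r21 p c)) = c := by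
  have hw := h.win_line v
  have hNpp : (Np : ZMod p) = 0 := by
    have := congrArg (r21 p) hNp
    rwa [r21_coe, map_natCast, ZMod.natCast_self] at this
  have e : ∀ t : ℤ, Y (v + (((t : ZMod (p ^ 2)).cast : ℤ)) • w) (r21 p c)
      = Y (v + t • w) (r21 p c) := by
    intro t
    apply h.Y_congr
    rw [ZMod.intCast_zmod_cast]
  have hv : ∀ k : ℕ, v - k • (Np • w) = v + (-(k : ℤ) * Np) • w := by
    intro k
    rw [← natCast_zsmul, smul_smul, sub_eq_add_neg, ← neg_smul]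
    congr 2
    ring
  -- the visit at residue `0`
  obtain ⟨t, ht⟩ := exists_int (tm (fun (T : ZMod (p ^ 2)) ρ => Y (v + (T.cast : ℤ) • w) ρ)
    (r21 p c) c 0)
  have hcl : r32 p (Y (v + t • w) (r21 p c)) = c := by
    have h1 := hw.cl_tm (ρ := r21 p c) (c := c) rfl 0
    rw [← ht] at h1
    simp only [e] at h1
    exact h1
  have ht0 : (t : ZMod p) = 0 := by
    have h1 := hw.r21_tm (ρ := r21 p c) (c := c) rfl 0
    rw [← ht, r21_coe] at h1
    exact h1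
  obtain ⟨q, hq⟩ := (ZMod.intCast_zmod_eq_zero_iff_dvd t p).1 ht0
  -- `k = -q mod p`
  have hkq : ∀ k : ℕ, (k : ZMod p) = ((-q : ℤ) : ZMod p) →
      ((-(k : ℤ) * Np : ℤ) : ZMod (p ^ 2)) = (t : ZMod (p ^ 2)) := by
    intro k hk
    have h1 : m12 p (k : ZMod p) = m12 p ((-q : ℤ) : ZMod p) := by rw [hk]
    have h2 : m12 p ((k : ℤ) : ZMod p) = (p : ZMod (p ^ 2)) * ((k : ℤ) : ZMod (p ^ 2)) :=
      m12_intCast p _
    rw [m12_intCast] at h1
    rw [Int.cast_natCast] at h2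
    rw [h2] at h1
    rw [hq]
    push_cast at h1 ⊢
    rw [hNp]
    linear_combination (-1 : ZMod (p ^ 2)) * h1
  refine ⟨((-q : ℤ) : ZMod p).val, ⟨ZMod.val_lt _, ?_⟩, ?_⟩
  · rw [hv, h.Y_congr v (r21 p c) (hkq _ (by rw [ZMod.natCast_val, ZMod.cast_id]))]
    exact hcl
  · rintro k ⟨hk, hk2⟩
    rw [hv] at hk2
    have h1 := h.visit_unique v (t := -(k : ℤ) * Np) (t' := t) (ρ := r21 p c)
      (by rw [hk2, hcl]) (by push_cast; rw [hNpp, ht0]; ring)
    have h2 : ((((-(k : ℤ)) * p - t : ℤ)) : ZMod (p ^ 2)) = 0 := by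
      push_cast at h1 ⊢
      rw [hNp] at h1
      rw [h1]; ring
    rw [ZMod.intCast_zmod_eq_zero_iff_dvd, hq] at h2
    have h3 : (p : ℤ) * p ∣ (p : ℤ) * (-(k : ℤ) - q) := by
      have e1 : ((p ^ 2 : ℕ) : ℤ) = (p : ℤ) * p := by push_cast; ring
      have e2 : (p : ℤ) * (-(k : ℤ) - q) = -(k : ℤ) * p - p * q := by ring
      rw [← e1, e2]; exact h2
    have h4 : (p : ℤ) ∣ (-(k : ℤ) - q) :=
      (mul_dvd_mul_iff_left (by exact_mod_cast NeZero.ne p)).1 h3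
    have h5 : (k : ZMod p) = ((-q : ℤ) : ZMod p) := by
      have h6 : (((-(k : ℤ) - q : ℤ)) : ZMod p) = 0 :=
        (ZMod.intCast_zmod_eq_zero_iff_dvd _ _).2 h4
      push_cast at h6 ⊢
      linear_combination (-1 : ZMod p) * h6
    rw [← h5, ZMod.val_natCast, Nat.mod_eq_of_lt hk]

/-- the line functions satisfy `BaseSol`. -/
theorem baseSol [NeZero p] {L : Type*} (f : L → ℤ × ℤ) (Yc : ℤ → ZMod p → ZMod (p ^ 3))
    (h : Base2 p r0 w N1 Np N0 Y z) (hf : ∀ l t ρ, Y (f l + t • w) ρ = Yc t ρ) [Nonempty L]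
    (hcop : Nat.Coprime p r0) (hNp : (Np : ZMod (p ^ 2)) = p) (hNp0 : (Np : ZMod r0) = 0)
    (hN1 : (N1 : ZMod (p ^ 2)) = 1) (hN10 : (N1 : ZMod r0) = 0)
    (hN0 : (N0 : ZMod (p ^ 2)) = 0) (hN00 : (N0 : ZMod r0) = 1) :
    BaseSol p r0 N0 Yc (fun l t ρ => z (f l + t • w) ρ) := by
  obtain ⟨l0⟩ := ‹Nonempty L›
  have hN1p : (N1 : ZMod p) = 1 := by
    have := congrArg (r21 p) hN1
    rwa [r21_coe, map_one] at this
  have hN0p : (N0 : ZMod p) = 0 := by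
    have := congrArg (r21 p) hN0
    rwa [r21_coe, map_zero] at this
  have hNpp : (Np : ZMod p) = 0 := by
    have := congrArg (r21 p) hNp
    rwa [r21_coe, map_natCast, ZMod.natCast_self] at this
  -- general statement: visits reached by `D`-tiles
  have hvis : ∀ (l : L) (ρ : ZMod p) (t u : ℤ) (c : ZMod (p ^ 2)), r21 p c = ρ →
      ∃ t1 : ℤ, Vis (Np • w) Y c (f l + t • w + u • w) (f l + t1 • w) ∧
        (t1 : ZMod p) = (t : ZMod p) + u ∧ (t1 : ZMod r0) = (t : ZMod r0) + u := by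
    intro l ρ t u c _
    obtain ⟨k, ⟨hk, hk2⟩, _⟩ := h.exists_vis hNp (f l + t • w + u • w) c
    have e : f l + t • w + u • w - k • (Np • w) = f l + (t + u - k * Np) • w := by
      rw [sub_smul, add_smul, ← natCast_zsmul, smul_smul]
      abel
    refine ⟨t + u - k * Np, ⟨k, hk, e.symm, ?_⟩, ?_, ?_⟩
    · rw [← e]; exact hk2
    · push_cast; rw [hNpp]; ring
    · push_cast; rw [hNp0]; ring
  have hvis' : ∀ (l : L) (ρ : ZMod p) (t u : ℤ) (c : ZMod (p ^ 2)), r21 p c = ρ →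
      ∃ t1 : ℤ, Vis (Np • w) Y c (f l + t • w - u • w) (f l + t1 • w) := by
    intro l ρ t u c hc
    obtain ⟨t1, h1, _⟩ := hvis l ρ t (-u) c hc
    refine ⟨t1, ?_⟩
    rwa [neg_smul, ← sub_eq_add_neg] at h1
  have hself : ∀ (l : L) (ρ : ZMod p) (t : ℤ) (c : ZMod (p ^ 2)), r21 p c = ρ →
      r32 p (Yc t ρ) = c → Vis (Np • w) Y c (f l + t • w) (f l + t • w) := by
    intro l ρ t c hc hcl
    refine ⟨0, Nat.pos_of_ne_zero (NeZero.ne p), by simp, ?_⟩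
    rw [hc, hf]; exact hcl
  -- the basic comparison (all times)
  have key2 : ∀ (l : L) (ρ : ZMod p) (t t' : ℤ), r32 p (Yc t ρ) = r32 p (Yc t' ρ) →
      (t' : ZMod p) = (t : ZMod p) + 1 → (t : ZMod r0) = (t' : ZMod r0) →
      z (f l + t' • w) ρ = z (f l + t • w) ρ := by
    intro l ρ t t' hcc hp1 hr
    have hc : r21 p (r32 p (Yc t ρ)) = ρ := by
      rw [r21_r32, ← hf l0, h.role]
    obtain ⟨t1, hv1, hv1p, hv1r⟩ := hvis l ρ t N1 _ hc
    obtain ⟨t2, hv2⟩ := hvis' l ρ t N1 _ hc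
    have hd := h.d2 _ _ _ _ _ (hself l ρ t _ hc rfl) hv1 hv2
    rw [hc] at hd
    have hz : z (f l + t1 • w) ρ = z (f l + t • w) ρ := by
      rcases hd with ⟨a, _⟩ | ⟨a, _⟩
      · exact congrArg Prod.snd a
      · have := congrArg Prod.snd a
        simpa using this
    obtain ⟨k, _, _, hcl1⟩ := hv1
    rw [hc, hf] at hcl1
    have huni := h.visit_unique (f l) (t := t') (t' := t1) (ρ := ρ)
      (by rw [hf, hf, hcl1, hcc]) (by rw [hp1, hv1p, hN1p])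
    rw [h.z_congr hcop (f l) ρ huni (by rw [hv1r, hN10, add_zero, hr]), hz]
  refine ⟨fun t ρ => by rw [← hf l0, h.role], ?_, ?_, ?_, ?_, ?_⟩
  · intro t ρ
    rw [← hf l0, ← hf l0, add_smul, ← add_assoc, h.per]
  · intro t ρ
    rw [← hf l0, ← hf l0, add_smul, one_smul, ← add_assoc, h.step]
  · -- (C4)
    intro ρ t t' htt
    have hne2 : NeZero (p ^ 2) := ⟨pow_ne_zero _ (NeZero.ne p)⟩
    -- apply C4 at `v = f l0` and `y = Yc t ρ + p t`
    have hr : r31 p (Yc t ρ + (p : ZMod (p ^ 3)) * t) = ρ := by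
      rw [map_add, map_mul, map_natCast, ZMod.natCast_self, zero_mul, add_zero, ← hf l0, h.role]
    obtain ⟨k, _, huniq⟩ := h.c4 (f l0) (Yc t ρ + (p : ZMod (p ^ 3)) * t)
    have hx : ∀ s : ℤ, Yc s ρ + (p : ZMod (p ^ 3)) * s = Yc t ρ + (p : ZMod (p ^ 3)) * t →
        (((-s : ℤ) : ZMod (p ^ 2))).val = k := by
      intro s hs
      have hval : (((((-s : ℤ) : ZMod (p ^ 2))).val : ℕ) : ZMod (p ^ 2))
          = ((-s : ℤ) : ZMod (p ^ 2)) := by
        rw [ZMod.natCast_val, ZMod.cast_id]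
      apply huniq
      refine ⟨ZMod.val_lt _, ?_⟩
      rw [hr]
      set κ := (((-s : ℤ) : ZMod (p ^ 2))).val with hκ
      have e1 : f l0 - κ • w = f l0 + (-(κ : ℤ)) • w := by
        rw [neg_smul, natCast_zsmul, sub_eq_add_neg]
      have e2 : Y (f l0 + (-(κ : ℤ)) • w) ρ = Yc s ρ := by
        rw [← hf l0]
        apply h.Y_congr
        push_cast
        rw [hval]; push_cast; ring
      rw [e1, e2, ← hs]
      -- `p s + p κ = 0` in `ZMod (p^3)`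
      have e3 : m23 p ((κ : ℤ) : ZMod (p ^ 2)) = m23 p ((-s : ℤ) : ZMod (p ^ 2)) := by
        congr 1
        rw [Int.cast_natCast]; exact hval
      rw [m23_intCast, m23_intCast] at e3
      push_cast at e3
      linear_combination (-1 : ZMod (p ^ 3)) * e3
    have h1 := hx t rfl
    have h2 := hx t' htt.symm
    have h3 : ((-t : ℤ) : ZMod (p ^ 2)) = ((-t' : ℤ) : ZMod (p ^ 2)) :=
      ZMod.val_injective _ (h1.trans h2.symm)
    push_cast at h3
    exact neg_injective h3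
  · intro l ρ t t' hcc hp1 hr
    exact (key2 l ρ t t' hcc hp1 hr).symm
  · -- motion = slope
    intro l ρ t t' hcc hp1
    -- a time `s ≡ t mod p^2` with `s ≡ t' mod r0`
    obtain ⟨s, hs1, hs2⟩ := crt_int (Nat.Coprime.pow_left 2 hcop) t t'
    have hYs : Yc s ρ = Yc t ρ := by rw [← hf l0, ← hf l0]; exact h.Y_congr (f l0) ρ hs1
    have hsp : (s : ZMod p) = (t : ZMod p) := by rw [← r21_coe, hs1, r21_coe]
    have hc : r21 p (r32 p (Yc s ρ)) = ρ := by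
      rw [r21_r32, ← hf l0, h.role]
    obtain ⟨t1, hv1, hv1p, hv1r⟩ := hvis l ρ s (N1 + N0) _ hc
    obtain ⟨t2, hv2⟩ := hvis' l ρ s (N1 + N0) _ hc
    have hd := h.d3 _ _ _ _ _ (hself l ρ s _ hc rfl) hv1 hv2
    rw [hc] at hd
    obtain ⟨k, _, _, hcl1⟩ := hv1
    rw [hc, hf] at hcl1
    have huni := h.visit_unique (f l) (t := t') (t' := t1) (ρ := ρ)
      (by rw [hf, hf, hcl1, hYs, hcc])
      (by rw [hp1, hv1p]; push_cast; rw [hN1p, hN0p, hsp]; ring)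
    have hY1 : Y (f l + t1 • w) ρ = Yc t' ρ := by
      rw [← hf l]; exact (h.Y_congr (f l) ρ huni).symm
    have hz1 : z (f l + t1 • w) ρ = z (f l + (t' + N0) • w) ρ := by
      apply h.z_congr hcop
      · rw [← huni]; push_cast; rw [hN0, add_zero]
      · rw [hv1r]; push_cast; rw [hN10, hN00, hs2]; ring
    have hz0 := key2 l ρ s t' (by rw [hYs, hcc]) (by rw [hsp, hp1]) hs2
    rcases hd with ⟨a, _⟩ | ⟨a, _⟩
    · left
      have a1 := congrArg Prod.fst a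
      have a2 := congrArg Prod.snd a
      simp only at a1 a2
      refine ⟨?_, ?_⟩
      · rw [← hY1, a1, hf, hYs]
      · show z (f l + (t' + N0) • w) ρ = z (f l + t' • w) ρ
        rw [← hz1, a2, hz0]
    · right
      have a1 := congrArg Prod.fst a
      have a2 := congrArg Prod.snd a
      simp only [Prod.mk_add_mk] at a1 a2
      refine ⟨?_, ?_⟩
      · rw [← hY1, a1, hf, hYs]
      · show z (f l + (t' + N0) • w) ρ = z (f l + t' • w) ρ + 1
        rw [← hz1, a2, hz0]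

end Base2

end Crest.Agent.R046.Comp
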