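import Crest.Agent.R046.TruthSlice
import Crest.Agent.R046.Data
import Crest.Agent.R046.Nums
import Crest.Agent.R046.Tiles
import Crest.Agent.R046.ForcedSlice

/-!
Row 46, truth side: consequences of badness for the explicit graph, and the slice statements with
general geometry.
-/

set_option autoImplicit false

namespace Crest.Agent.R046.Truth

open Crest.Agent.R046.Comp Crest.Agent.R046.CompSys

variable {p : ℕ} {Γ : Type} (r : Γ → ℕ)

namespace Times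

variable {w : ℤ × ℤ} (D : Times p Γ w)

theorem bad_imp (hp : 2 ≤ p) {v : ℤ × ℤ} {g : Γ} {ρ ρ' : ZMod p}
    (h : D.z r v ρ g ≠ D.z r v ρ' g) :
    D.act v g = 1 ∧ (D.θ v : ZMod (r g)) ≠ 0 ∧
      ∃ j : ℕ, 1 ≤ j ∧ j < p ∧ (D.Tm v = (j : ZMod (p ^ 2)) ∨ D.Tm v = -(j : ZMod (p ^ 2))) := by
  have ha : D.act v g = 1 := by
    by_contra hcon
    have h0 : D.act v g = 0 := by have := D.hact1 v g; omega
    apply h; unfold z sl; rw [h0]; simp
  refine ⟨ha, ?_, ?_⟩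
  · intro h0; apply h; unfold z; rw [h0]; simp
  · apply mixed_times hp (ρ := ρ) (ρ' := ρ')
    intro hσ; apply h; unfold z sl; rw [hσ]

end Times

/-- times read off coordinates `(l, t)` of `ℤ × ℤ` -/
def mkTimes (p : ℕ) {Γ : Type} (l t : ℤ × ℤ → ℤ) (w : ℤ × ℤ) (hl : ∀ (v : ℤ × ℤ) (n : ℤ), l (v + n • w) = l v)
    (ht : ∀ (v : ℤ × ℤ) (n : ℤ), t (v + n • w) = t v + n)
    (o h : ℤ → ℤ) (act : ℤ → Γ → ℕ) (hact : ∀ n g, act n g ≤ 1) : Times p Γ w where
  Tm v := ((t v - o (l v) : ℤ) : ZMod (p ^ 2))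
  θ v := t v - h (l v)
  act v g := act (l v) g
  hT v n := by rw [hl, ht]; push_cast; ring
  hθ v n := by rw [hl, ht]; ring
  hact v n g := by rw [hl]
  hact1 v g := hact _ _

/-- activity of the labels `Option S`: `none` is always active, `some s` iff `s` is the letter. -/
def actS {S : Type} [DecidableEq S] (lam : ℤ → S) (n : ℤ) : Option S → ℕ
  | none => 1
  | some s => if lam n = s then 1 else 0

theorem actS_le {S : Type} [DecidableEq S] (lam : ℤ → S) (n : ℤ) (g : Option S) :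
    actS lam n g ≤ 1 := by
  rcases g with _ | s
  · exact le_rfl
  · show (if lam n = s then 1 else 0) ≤ 1
    split_ifs <;> omega

section geo

variable {S : Type} [DecidableEq S] (w e : ℤ × ℤ) (l t : ℤ × ℤ → ℤ)
  (hv : ∀ v, v = l v • e + t v • w) (hl : ∀ a b : ℤ, l (a • e + b • w) = a)
  (ht : ∀ a b : ℤ, t (a • e + b • w) = b)

include hv hl in
theorem geo_l (v : ℤ × ℤ) (n : ℤ) : l (v + n • w) = l v := by
  conv_lhs => rw [hv v, add_assoc, ← add_smul, hl]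

include hv ht in
theorem geo_t (v : ℤ × ℤ) (n : ℤ) : t (v + n • w) = t v + n := by
  conv_lhs => rw [hv v, add_assoc, ← add_smul, ht]

include hv ht in
theorem geo_te (v : ℤ × ℤ) : t (v + e) = t v := by
  have : v + e = (l v + 1) • e + t v • w := by
    conv_lhs => rw [hv v]
    rw [add_smul, one_smul]; abel
  rw [this, ht]

/-- the truth of a component -/
def tD (lam : ℤ → S) (h o : ℤ → ℤ) : Times p (Option S) w :=
  mkTimes p l t w (geo_l w e l t hv hl) (geo_t w e l t hv ht) o h (actS lam) (actS_le lam)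


variable (p) (lam : ℤ → S) (h o : ℤ → ℤ) (rr : Option S → ℕ)

local notation "𝔇" => tD (p := p) w e l t hv hl ht lam h o

include hv hl ht

theorem t_trans (ho : ∀ n, o n = 0) (v : ℤ × ℤ) (ρ : ZMod p) :
    Times.Y 𝔇 (v + e) ρ = Times.Y 𝔇 v ρ := by
  have : (𝔇).Tm (v + e) = (𝔇).Tm v := by
    show ((t (v + e) - o (l (v + e)) : ℤ) : ZMod (p ^ 2)) = ((t v - o (l v) : ℤ) : ZMod (p ^ 2))
    rw [ho, ho, geo_te w e l t hv ht]
  unfold Times.Y; rw [this]

theorem t_c5 (a : Option S) (v : ℤ × ℤ) (ρ : ZMod p) :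
    Times.z rr 𝔇 (v + ((p : ℤ) ^ 2 * rr a) • w) ρ a = Times.z rr 𝔇 v ρ a := by
  apply Times.C5
  · have := ZMod.natCast_self (p ^ 2)
    push_cast at this ⊢
    rw [this, zero_mul]
  · push_cast; simp

theorem t_act_none (v : ℤ × ℤ) : (𝔇).act v none = 1 := rfl

theorem t_act_some (v : ℤ × ℤ) (s : S) : (𝔇).act v (some s) = if lam (l v) = s then 1 else 0 := rfl

theorem t_base2 (hp : 2 ≤ p) (N : Nums p rr) :
    Base2 p (rr none) w N.N1 N.Np (N.N none) (Times.Y 𝔇) (fun v ρ => Times.z rr 𝔇 v ρ none) := by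
  have hne : NeZero p := ⟨by omega⟩
  refine ⟨(𝔇).role, (𝔇).C2, (𝔇).C3, (𝔇).C4 hp, fun v ρ => t_c5 p w e l t hv hl ht lam h o rr none v ρ, ?_, ?_⟩
  · intro c v v0 v1 v2 h0 h1 h2
    exact (𝔇).D23 rr none (fun _ => rfl) N.Np N.N1 0 N.hp (N.hpr none) N.h1 (N.h1r none) c v v0 v1 v2
      h0 h1 h2
  · intro c v v0 v1 v2 h0 h1 h2
    exact (𝔇).D23 rr none (fun _ => rfl) N.Np (N.N1 + N.N none) 1 N.hp (N.hpr none)
      (by rw [Int.cast_add, N.h1, N.hN, add_zero])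
      (by rw [Int.cast_add, N.h1r, N.hNa, zero_add]) c v v0 v1 v2 h0 h1 h2

theorem t_X [NeZero p] (N : Nums p rr) (v : ℤ × ℤ) (c : ZMod (p ^ 2)) :
    ∃! k : ℕ, k < p ∧ r32 p (Times.Y 𝔇 (v - k • (N.Np • w)) (r21 p c)) = c :=
  (𝔇).X N.Np N.hp v c

theorem t_c6 (N : Nums p rr) (g : Option S) (v : ℤ × ℤ) (ρ : ZMod p) :
    (Times.z rr 𝔇 (v + N.N g • w) ρ g = Times.z rr 𝔇 v ρ g ∧
      Times.z rr 𝔇 (v - N.N g • w) ρ g = Times.z rr 𝔇 v ρ g) ∨
    (Times.z rr 𝔇 (v + N.N g • w) ρ g = Times.z rr 𝔇 v ρ g + 1 ∧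
      Times.z rr 𝔇 (v - N.N g • w) ρ g = Times.z rr 𝔇 v ρ g - 1) :=
  (𝔇).C6 rr g v ρ (N.N g) (N.hN g) (N.hNa g)

theorem t_slope (N : Nums p rr) (g : Option S) (v : ℤ × ℤ) (ρ : ZMod p) :
    Times.z rr 𝔇 (v - N.N g • w) ρ g + ((𝔇).sl v ρ g : ZMod (rr g)) = Times.z rr 𝔇 v ρ g :=
  (𝔇).slope_of rr g v ρ (N.N g) (N.hN g) (N.hNa g)

theorem t_c9a (N : Nums p rr) (s : S) (v : ℤ × ℤ) (ρ : ZMod p) :
    Times.z rr 𝔇 (v - N.N none • w) ρ none + 1 = Times.z rr 𝔇 v ρ none ∨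
      Times.z rr 𝔇 (v - N.N (some s) • w) ρ (some s) = Times.z rr 𝔇 v ρ (some s) := by
  have h0 := t_slope p w e l t hv hl ht lam h o rr N none v ρ
  have h1 := t_slope p w e l t hv hl ht lam h o rr N (some s) v ρ
  rcases (𝔇).sl_cases v ρ none with hc | hc
  · right
    have hσ : σt p ((𝔇).Tm v) ρ = 0 := by
      have : σt p ((𝔇).Tm v) ρ * 1 = 0 := hc
      omega
    have h2 : (𝔇).sl v ρ (some s) = 0 := by
      unfold Times.sl; rw [hσ, zero_mul]
    rw [h2, Nat.cast_zero, add_zero] at h1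
    exact h1
  · left
    rw [hc, Nat.cast_one] at h0
    exact h0

theorem t_c9b (N : Nums p rr) (v : ℤ × ℤ) (ρ : ZMod p) :
    Times.z rr 𝔇 (v - N.N none • w) ρ none = Times.z rr 𝔇 v ρ none ∨
      ∃ s, Times.z rr 𝔇 (v - N.N (some s) • w) ρ (some s) + 1 = Times.z rr 𝔇 v ρ (some s) := by
  have h0 := t_slope p w e l t hv hl ht lam h o rr N none v ρ
  rcases (𝔇).sl_cases v ρ none with hc | hc
  · left
    rw [hc, Nat.cast_zero, add_zero] at h0
    exact h0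
  · right
    refine ⟨lam (l v), ?_⟩
    have h1 := t_slope p w e l t hv hl ht lam h o rr N (some (lam (l v))) v ρ
    have hσ : σt p ((𝔇).Tm v) ρ = 1 := by
      have : σt p ((𝔇).Tm v) ρ * 1 = 1 := hc
      omega
    have h2 : (𝔇).sl v ρ (some (lam (l v))) = 1 := by
      unfold Times.sl; rw [hσ, t_act_some, if_pos rfl]
    rw [h2, Nat.cast_one] at h1
    exact h1

/-- badness in the truth -/
theorem t_bad (hp : 2 ≤ p) {v : ℤ × ℤ} {s : S} {ρ ρ' : ZMod p}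
    (hz : Times.z rr 𝔇 v ρ (some s) ≠ Times.z rr 𝔇 v ρ' (some s)) :
    lam (l v) = s ∧ (t v : ZMod (rr (some s))) ≠ h (l v) ∧
      ∃ j : ℤ, j ≠ 0 ∧ |j| < p ∧ (t v : ZMod (p ^ 2)) = o (l v) + j := by
  obtain ⟨h1, h2, j, hj1, hj2, hj3⟩ := (𝔇).bad_imp rr hp hz
  refine ⟨?_, ?_, ?_⟩
  · rw [t_act_some] at h1
    by_contra hcon
    rw [if_neg hcon] at h1
    omega
  · intro hh
    apply h2
    show ((t v - h (l v) : ℤ) : ZMod (rr (some s))) = 0
    push_cast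
    rw [hh, sub_self]
  · have hT : (𝔇).Tm v = (t v : ZMod (p ^ 2)) - (o (l v) : ZMod (p ^ 2)) := by
      show ((t v - o (l v) : ℤ) : ZMod (p ^ 2)) = _
      push_cast; rfl
    rw [hT] at hj3
    rcases hj3 with hj3 | hj3
    · refine ⟨j, by omega, by rw [Nat.abs_cast]; exact_mod_cast hj2, ?_⟩
      push_cast
      linear_combination hj3
    · refine ⟨-j, by omega, by rw [abs_neg, Nat.abs_cast]; exact_mod_cast hj2, ?_⟩
      push_cast
      linear_combination hj3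

end geo

end Crest.Agent.R046.Truth
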