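import Mathlib
import Crest.Prelude.Def_Tiling

set_option autoImplicit false

/-! Row 46: covering-number calculus for tile equations.
`cov F A x` = number of `f ∈ F` with `x - f ∈ A`; `F` tiles `A` iff `cov F A = 1`. -/

namespace Crest.Agent.R046

open Crest.CombinatoricsR.Tiling

section cov

variable {G : Type*} [AddCommGroup G]

open Classical in
/-- covering number of `x` by the translates `a + F`, `a ∈ A` -/
noncomputable def cov (F : Finset G) (A : Set G) (x : G) : ℕ :=
  (F.filter (fun f => x - f ∈ A)).card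

theorem cov_def [DecidableEq G] (F : Finset G) (A : Set G) (x : G)
    [DecidablePred (fun f => x - f ∈ A)] :
    cov F A x = (F.filter (fun f => x - f ∈ A)).card := by
  unfold cov
  congr!

theorem cov_eq_sum (F : Finset G) (A : Set G) (x : G) [∀ f, Decidable (x - f ∈ A)] :
    cov F A x = ∑ f ∈ F, if x - f ∈ A then 1 else 0 := by
  classical
  unfold cov
  rw [Finset.card_filter]
  refine Finset.sum_congr rfl fun f _ => ?_
  congr!

theorem isTilingBy_iff_unique {F : Finset G} {A : Set G} :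
    IsTilingBy F A ↔ ∀ x, ∃! f, f ∈ F ∧ x - f ∈ A := by
  unfold IsTilingBy
  refine forall_congr' fun x => ?_
  constructor
  · rintro ⟨⟨a, f⟩, ⟨ha, hf, haf⟩, huniq⟩
    simp only at ha hf haf
    refine ⟨f, ⟨hf, by rwa [← haf, add_sub_cancel_right]⟩, ?_⟩
    rintro f' ⟨hf', ha'⟩
    have := huniq (x - f', f') ⟨ha', hf', by simp⟩
    simp only [Prod.mk.injEq] at this
    exact this.2
  · rintro ⟨f, ⟨hf, ha⟩, huniq⟩
    refine ⟨(x - f, f), ⟨ha, hf, by simp⟩, ?_⟩
    rintro ⟨a', f'⟩ ⟨ha', hf', haf'⟩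
    simp only at ha' hf' haf'
    have h1 : f' = f := huniq f' ⟨hf', by rwa [← haf', add_sub_cancel_right]⟩
    subst h1
    rw [← haf']
    simp

theorem isTilingBy_iff_cov {F : Finset G} {A : Set G} :
    IsTilingBy F A ↔ ∀ x, cov F A x = 1 := by
  classical
  rw [isTilingBy_iff_unique]
  refine forall_congr' fun x => ?_
  unfold cov
  rw [Finset.card_eq_one]
  constructor
  · rintro ⟨f, ⟨hf, ha⟩, huniq⟩
    refine ⟨f, ?_⟩
    ext g
    simp only [Finset.mem_filter, Finset.mem_singleton]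
    constructor
    · rintro ⟨h1, h2⟩; exact huniq g ⟨h1, h2⟩
    · rintro rfl; exact ⟨hf, ha⟩
  · rintro ⟨f, hf⟩
    have h1 : ∀ g, (g ∈ F ∧ x - g ∈ A) ↔ g = f := by
      intro g
      have := Finset.ext_iff.1 hf g
      simpa only [Finset.mem_filter, Finset.mem_singleton] using this
    exact ⟨f, (h1 f).2 rfl, fun g hg => (h1 g).1 hg⟩

theorem cov_disjUnion {F F' : Finset G} [DecidableEq G] (h : Disjoint F F') (A : Set G) (x : G) :
    cov (F ∪ F') A x = cov F A x + cov F' A x := by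
  classical
  rw [cov_eq_sum, cov_eq_sum, cov_eq_sum, Finset.sum_union h]

theorem cov_sdiff_add {T B : Finset G} [DecidableEq G] (h : B ⊆ T) (A : Set G) (x : G) :
    cov (T \ B) A x + cov B A x = cov T A x := by
  classical
  rw [cov_eq_sum, cov_eq_sum, cov_eq_sum, Finset.sum_sdiff h]

theorem cov_biUnion {ι : Type*} [DecidableEq G] {s : Finset ι} {F : ι → Finset G}
    (h : ∀ i ∈ s, ∀ j ∈ s, i ≠ j → Disjoint (F i) (F j)) (A : Set G) (x : G) :
    cov (s.biUnion F) A x = ∑ i ∈ s, cov (F i) A x := by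
  classical
  simp only [cov_eq_sum]
  exact Finset.sum_biUnion h

theorem cov_empty (A : Set G) (x : G) : cov ∅ A x = 0 := by
  classical
  simp [cov]

/-- **Swap lemma**: replace a part `B` of a tile `T` of `A` by a set `B'`. -/
theorem isTilingBy_swap {T B B' : Finset G} [DecidableEq G] {A : Set G} (hT : IsTilingBy T A)
    (hB : B ⊆ T) (hB' : Disjoint (T \ B) B') :
    IsTilingBy (T \ B ∪ B') A ↔ ∀ x, cov B' A x = cov B A x := by
  rw [isTilingBy_iff_cov] at hT ⊢
  refine forall_congr' fun x => ?_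
  have h1 := cov_sdiff_add hB A x
  rw [cov_disjUnion hB', ← hT x, ← h1]
  omega

theorem cov_pos_iff {F : Finset G} {A : Set G} {x : G} :
    0 < cov F A x ↔ ∃ f ∈ F, x - f ∈ A := by
  classical
  unfold cov
  rw [Finset.card_pos]
  constructor
  · rintro ⟨f, hf⟩
    rw [Finset.mem_filter] at hf
    exact ⟨f, hf⟩
  · rintro ⟨f, hf⟩
    exact ⟨f, by rw [Finset.mem_filter]; exact hf⟩

/-- transport of a tiling along an additive equivalence -/
theorem isTilingBy_map {G' : Type*} [AddCommGroup G'] (e : G ≃+ G') {F : Finset G} {A : Set G} :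
    IsTilingBy (F.map e.toEquiv.toEmbedding) (e '' A) ↔ IsTilingBy F A := by
  rw [isTilingBy_iff_unique, isTilingBy_iff_unique]
  constructor
  · intro h x
    obtain ⟨f', ⟨hf', ha'⟩, huniq⟩ := h (e x)
    rw [Finset.mem_map] at hf'
    obtain ⟨f, hf, rfl⟩ := hf'
    refine ⟨f, ⟨hf, ?_⟩, ?_⟩
    · obtain ⟨a, ha, hae⟩ := ha'
      have : a = x - f := by
        apply e.injective
        rw [hae, map_sub]
        rfl
      rwa [← this]
    · rintro g ⟨hg, hga⟩
      have := huniq (e g) ⟨Finset.mem_map.2 ⟨g, hg, rfl⟩, ⟨x - g, hga, by rw [map_sub]⟩⟩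
      exact e.injective this
  · intro h x'
    obtain ⟨x, rfl⟩ := e.surjective x'
    obtain ⟨f, ⟨hf, ha⟩, huniq⟩ := h x
    refine ⟨e f, ⟨Finset.mem_map.2 ⟨f, hf, rfl⟩, ⟨x - f, ha, by rw [map_sub]⟩⟩, ?_⟩
    rintro g' ⟨hg', hga'⟩
    rw [Finset.mem_map] at hg'
    obtain ⟨g, hg, rfl⟩ := hg'
    obtain ⟨a, ha', hae⟩ := hga'
    have h2 : a = x - g := by
      apply e.injective
      rw [hae, map_sub]
      rfl
    have := huniq g ⟨hg, by rwa [← h2]⟩
    subst this
    rfl

end cov

end Crest.Agent.R046
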