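import Mathlib

/-! Row 46: the EXACT four-direction sudoku, digits modulo any `q ≥ 5` (helper229).

`exact_sudoku`: digit functions `F, E, K, G : ℤ → ZMod q` (nowhere zero) with the pointwise
relation `Rel (F x) (E y) (K (x + y)) (G (x + q * y))` for all `x y`, and `E (b + m) = u * m`,
`K (a + b + m) = u * m` for `q ∤ m` (`u` a unit), are not periodic.

`exact_parity`: letters `(χ, f)` modulo 8 with the Cauchy relation `χF x + χE y = χK (x + y)`,
`f = χ` where `χ ≠ 0`, and the two parity gates. -/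

set_option autoImplicit false

namespace Crest.Agent.R046.Exact

variable {q : ℕ}

/-- the pointwise relation (`s = F x`, `e = E y`, `k = K (x + y)`, `g = G (x + q y)`) -/
def Rel {q : ℕ} (s e k g : ZMod q) : Prop :=
  (k = e → g = s + e ∨ g = e ∨ s + e = 0) ∧ (g = s → k = s + e ∨ k = s ∨ s + e = 0)

theorem exists_avoid (hq : 5 ≤ q) (a b c d : ZMod q) :
    ∃ i : ℤ, (i : ZMod q) ≠ a ∧ (i : ZMod q) ≠ b ∧ (i : ZMod q) ≠ c ∧ (i : ZMod q) ≠ d := by
  have : NeZero q := ⟨by omega⟩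
  have hcard : ({a, b, c, d} : Finset (ZMod q)).card < (Finset.univ : Finset (ZMod q)).card := by
    rw [Finset.card_univ, ZMod.card]
    exact lt_of_le_of_lt Finset.card_le_four (by omega)
  obtain ⟨x, -, hx⟩ := Finset.exists_mem_notMem_of_card_lt_card hcard
  obtain ⟨i, rfl⟩ := ZMod.intCast_surjective x
  simp only [Finset.mem_insert, Finset.mem_singleton, not_or] at hx
  exact ⟨i, hx.1, hx.2.1, hx.2.2.1, hx.2.2.2⟩

/-- the star lemma -/
theorem star (hq : 5 ≤ q) (φ β : ℤ → ZMod q) (hφ : ∀ m : ℤ, φ m ≠ m)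
    (h : ∀ m m' : ℤ, (m : ZMod q) ≠ m' → β m' = φ m ∨ β m' = m ∨ φ m = m') :
    ∃ c : ZMod q, (∀ m : ℤ, (m : ZMod q) ≠ c → φ m = c) ∧
      (∀ m : ℤ, (m : ZMod q) ≠ c → β m = c) := by
  -- any two edges meet
  have hint : ∀ m n : ℤ, (m : ZMod q) = n ∨ (m : ZMod q) = φ n ∨ φ m = n ∨ φ m = φ n := by
    intro m n
    by_contra hcon
    push Not at hcon
    obtain ⟨h1, h2, h3, h4⟩ := hcon
    obtain ⟨w, w1, w2, w3, w4⟩ := exists_avoid hq (m : ZMod q) (φ m) (n : ZMod q) (φ n)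
    have e1 := h m w w1.symm
    have e2 := h n w w3.symm
    grind
  -- a common point
  have hstar : ∃ c : ZMod q, ∀ m : ℤ, (m : ZMod q) = c ∨ φ m = c := by
    by_contra hcon
    push Not at hcon
    obtain ⟨n, hn1, hn2⟩ := hcon ((0 : ℤ) : ZMod q)
    obtain ⟨k, hk1, hk2⟩ := hcon (φ 0)
    have h0n := hint 0 n
    have h0k := hint 0 k
    have hnk := hint n k
    have hφ0 := hφ 0
    have hφn := hφ n
    have hφk := hφ k
    -- the third point
    obtain ⟨x, hx1, hx2⟩ : ∃ x : ZMod q, (((n : ZMod q) = φ 0 ∧ φ n = x) ∨ ((n : ZMod q) = x ∧ φ n = φ 0)) ∧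
        (((k : ZMod q) = ((0 : ℤ) : ZMod q) ∧ φ k = x) ∨ ((k : ZMod q) = x ∧ φ k = ((0 : ℤ) : ZMod q))) := by
      clear h hcon hint hφ
      generalize ((0 : ℤ) : ZMod q) = a at *
      generalize (n : ZMod q) = n1 at *
      generalize (k : ZMod q) = k1 at *
      generalize φ n = n2 at *
      generalize φ k = k2 at *
      generalize φ 0 = b at *
      by_cases hc : n1 = b
      · exact ⟨n2, by grind, by grind⟩
      · exact ⟨n1, by grind, by grind⟩
    obtain ⟨w, w1, w2, w3, -⟩ := exists_avoid hq ((0 : ℤ) : ZMod q) (φ 0) x x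
    have a1 := hint w 0
    have a2 := hint w n
    have a3 := hint w k
    grind
  obtain ⟨c, hc⟩ := hstar
  have hA : ∀ m : ℤ, (m : ZMod q) ≠ c → φ m = c := fun m hm => (hc m).resolve_left hm
  refine ⟨c, hA, fun m' hm' => ?_⟩
  obtain ⟨w, w1, w2, -, -⟩ := exists_avoid hq (m' : ZMod q) c c c
  obtain ⟨w', v1, v2, v3, -⟩ := exists_avoid hq (m' : ZMod q) c (w : ZMod q) c
  have e1 := h w m' w1
  have e2 := h w' m' v1
  rw [hA w w2] at e1
  rw [hA w' v2] at e2
  grind

/-- the step lemma -/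
theorem core (hq : 5 ≤ q) (A B : ℤ → ZMod q) (hA : ∀ n, A n ≠ 0)
    (h : ∀ m m' : ℤ, ((m' - m : ℤ) : ZMod q) ≠ 0 →
      B m' = A m + ((m' - m : ℤ) : ZMod q) ∨ B m' = ((m' - m : ℤ) : ZMod q) ∨
        A m + ((m' - m : ℤ) : ZMod q) = 0) :
    ∃ c : ℤ, (∀ m : ℤ, ((m - c : ℤ) : ZMod q) ≠ 0 → A m = ((m - c : ℤ) : ZMod q)) ∧
      (∀ m : ℤ, ((m - c : ℤ) : ZMod q) ≠ 0 → B m = ((m - c : ℤ) : ZMod q)) := by
  obtain ⟨c, hc1, hc2⟩ := star hq (fun m => m - A m) (fun m => m - B m)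
    (fun m hm => hA m (by simpa using hm))
    (by
      intro m m' hm
      have hne : ((m' - m : ℤ) : ZMod q) ≠ 0 := by
        push_cast
        rw [sub_ne_zero]
        exact hm.symm
      have h1 := h m m' hne
      push_cast at h1
      rcases h1 with h1 | h1 | h1
      · left; rw [h1]; ring
      · right; left; rw [h1]; ring
      · right; right
        have : A m = -((m' : ZMod q) - m) := eq_neg_of_add_eq_zero_left h1
        rw [this]; ring)
  obtain ⟨c, rfl⟩ := ZMod.intCast_surjective c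
  refine ⟨c, fun m hm => ?_, fun m hm => ?_⟩
  · have h1 := hc1 m (by
      intro h2
      apply hm
      push_cast
      rw [h2, sub_self])
    push_cast
    rw [← h1]; ring
  · have h1 := hc2 m (by
      intro h2
      apply hm
      push_cast
      rw [h2, sub_self])
    push_cast
    rw [← h1]; ring

/-- the structure at level `k` -/
def Lev (q : ℕ) (E K : ℤ → ZMod q) (k : ℕ) (a b : ℤ) : Prop :=
  ∀ m : ℤ, (m : ZMod q) ≠ 0 → E (b + q ^ k * m) = m ∧ K (a + b + q ^ k * m) = m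

theorem lev_step (hq : 5 ≤ q) {F E K G : ℤ → ZMod q} (hF : ∀ n, F n ≠ 0) (hE : ∀ n, E n ≠ 0)
    (hrel : ∀ x y : ℤ, Rel (F x) (E y) (K (x + y)) (G (x + q * y)))
    {k : ℕ} {a b : ℤ} (h : Lev q E K k a b) : ∃ a' b' : ℤ, Lev q E K (k + 1) a' b' := by
  obtain ⟨c, hcA, hcB⟩ := core hq (fun m => F (a + q ^ (k + 1) * m))
    (fun m => G (a + q * b + q ^ (k + 1) * m)) (fun n => hF _) (by
      intro m m' hm
      have h1 := hrel (a + q ^ (k + 1) * m) (b + q ^ k * (m' - m))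
      have h2 := h (m' - m) hm
      have h3 := h (q * m + (m' - m)) (by
        push_cast
        rw [ZMod.natCast_self, zero_mul, zero_add]
        push_cast at hm
        exact hm)
      have e1 : a + (q : ℤ) ^ (k + 1) * m + (b + q ^ k * (m' - m))
          = a + b + q ^ k * (q * m + (m' - m)) := by ring
      have e2 : a + (q : ℤ) ^ (k + 1) * m + q * (b + q ^ k * (m' - m))
          = a + q * b + q ^ (k + 1) * m' := by ring
      rw [e1, e2, h3.2, h2.1] at h1
      have e3 : ((q * m + (m' - m) : ℤ) : ZMod q) = ((m' - m : ℤ) : ZMod q) := by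
        push_cast
        rw [ZMod.natCast_self, zero_mul, zero_add]
      have h4 := h1.1 e3
      exact h4)
  obtain ⟨c', hcA', hcB'⟩ := core hq (fun n => E (b + q ^ (k + 1) * n))
    (fun n => K (a + b + q ^ (k + 1) * (n + c))) (fun n => hE _) (by
      intro n n' hn
      have h1 := hrel (a + q ^ (k + 1) * (n' - n + c)) (b + q ^ (k + 1) * n)
      have h2 := hcA (n' - n + c) (by
        rw [add_sub_cancel_right]
        exact hn)
      have h3 := hcB (n' - n + c + q * n) (by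
        push_cast
        rw [ZMod.natCast_self, zero_mul, add_zero]
        push_cast at hn
        rw [add_sub_cancel_right]
        exact hn)
      have e1 : a + (q : ℤ) ^ (k + 1) * (n' - n + c) + (b + q ^ (k + 1) * n)
          = a + b + q ^ (k + 1) * (n' + c) := by ring
      have e2 : a + (q : ℤ) ^ (k + 1) * (n' - n + c) + q * (b + q ^ (k + 1) * n)
          = a + q * b + q ^ (k + 1) * (n' - n + c + q * n) := by ring
      rw [e1, e2, h3, h2] at h1
      have e3 : ((n' - n + c + q * n - c : ℤ) : ZMod q) = ((n' - n : ℤ) : ZMod q) := by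
        push_cast
        rw [ZMod.natCast_self, zero_mul]
        ring
      have e4 : ((n' - n + c - c : ℤ) : ZMod q) = ((n' - n : ℤ) : ZMod q) := by
        rw [add_sub_cancel_right]
      rw [e3, e4] at h1
      have h4 := h1.2 rfl
      rcases h4 with h4 | h4 | h4
      · left; rw [h4]; ring
      · right; left; exact h4
      · right; right; rw [add_comm]; exact h4)
  refine ⟨a + q ^ (k + 1) * c, b + q ^ (k + 1) * c', fun m hm => ⟨?_, ?_⟩⟩
  · have h1 := hcA' (c' + m) (by rw [add_sub_cancel_left]; exact hm)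
    rw [add_sub_cancel_left] at h1
    rw [← h1]
    congr 1
    ring
  · have h1 := hcB' (c' + m) (by rw [add_sub_cancel_left]; exact hm)
    rw [add_sub_cancel_left] at h1
    rw [← h1]
    congr 1
    ring

theorem lev_all (hq : 5 ≤ q) {F E K G : ℤ → ZMod q} (hF : ∀ n, F n ≠ 0) (hE : ∀ n, E n ≠ 0)
    (hrel : ∀ x y : ℤ, Rel (F x) (E y) (K (x + y)) (G (x + q * y)))
    {a b : ℤ} (h : Lev q E K 0 a b) (k : ℕ) : ∃ a' b' : ℤ, Lev q E K k a' b' := by
  induction k with
  | zero => exact ⟨a, b, h⟩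
  | succ k ih =>
    obtain ⟨a', b', h'⟩ := ih
    exact lev_step hq hF hE hrel h'

/-- normalised exact sudoku: `E` is not periodic -/
theorem exact_sudoku_one (hq : 5 ≤ q) {F E K G : ℤ → ZMod q} (hF : ∀ n, F n ≠ 0)
    (hE : ∀ n, E n ≠ 0)
    (hrel : ∀ x y : ℤ, Rel (F x) (E y) (K (x + y)) (G (x + q * y)))
    {a b : ℤ} (h : Lev q E K 0 a b) {N : ℤ} (hN : 0 < N) (hper : ∀ n, E (n + N) = E n) : False := by
  -- write `N = q ^ j * N'` with `q ∤ N'`
  have hq1 : 1 < q := by omega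
  obtain ⟨j, N', hj, hN'⟩ : ∃ (j : ℕ) (N' : ℤ), N = (q : ℤ) ^ j * N' ∧ ¬ (q : ℤ) ∣ N' := by
    have hfin : FiniteMultiplicity (q : ℤ) N := by
      rw [Int.finiteMultiplicity_iff]
      exact ⟨by simpa using hq1.ne', hN.ne'⟩
    obtain ⟨c, hc1, hc2⟩ := hfin.exists_eq_pow_mul_and_not_dvd
    exact ⟨_, c, hc1, hc2⟩
  obtain ⟨a', b', hl⟩ := lev_all hq hF hE hrel h j
  have hne : ((N' : ℤ) : ZMod q) ≠ 0 := by
    rw [Ne, ZMod.intCast_zmod_eq_zero_iff_dvd]
    exact hN'
  obtain ⟨m, hm1, hm2, -, -⟩ := exists_avoid hq (0 : ZMod q) (-(N' : ZMod q)) 0 0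
  have hm3 : ((m + N' : ℤ) : ZMod q) ≠ 0 := by
    intro h0
    apply hm2
    push_cast at h0
    exact eq_neg_of_add_eq_zero_left h0
  have e1 := (hl m hm1).1
  have e2 := (hl (m + N') hm3).1
  have e3 : b' + (q : ℤ) ^ j * (m + N') = b' + q ^ j * m + N := by rw [hj]; ring
  rw [e3, hper, e1] at e2
  apply hne
  push_cast at e2
  exact (left_eq_add.1 e2)

/-- **Exact sudoku**: with a unit `u` as scale. -/
theorem exact_sudoku (hq : 5 ≤ q) {F E K G : ℤ → ZMod q} (hF : ∀ n, F n ≠ 0)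
    (hE : ∀ n, E n ≠ 0)
    (hrel : ∀ x y : ℤ, Rel (F x) (E y) (K (x + y)) (G (x + q * y)))
    {u : ZMod q} (hu : IsUnit u) {a b : ℤ}
    (h : ∀ m : ℤ, (m : ZMod q) ≠ 0 → E (b + m) = u * m ∧ K (a + b + m) = u * m)
    {N : ℤ} (hN : 0 < N) (hper : ∀ n, E (n + N) = E n) : False := by
  obtain ⟨v, rfl⟩ := hu
  have hv : ∀ x : ZMod q, (v⁻¹ : (ZMod q)ˣ) * x = 0 ↔ x = 0 := fun x => Units.mul_right_eq_zero _
  have hinj : ∀ x y : ZMod q, ((v⁻¹ : (ZMod q)ˣ) : ZMod q) * x = (v⁻¹ : (ZMod q)ˣ) * y ↔ x = y :=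
    fun x y => Units.mul_right_inj _
  refine exact_sudoku_one hq (F := fun n => ((v⁻¹ : (ZMod q)ˣ) : ZMod q) * F n)
    (E := fun n => ((v⁻¹ : (ZMod q)ˣ) : ZMod q) * E n)
    (K := fun n => ((v⁻¹ : (ZMod q)ˣ) : ZMod q) * K n)
    (G := fun n => ((v⁻¹ : (ZMod q)ˣ) : ZMod q) * G n) (a := a) (b := b) (N := N)
    ?_ ?_ ?_ ?_ hN ?_
  · intro n hn; exact hF n ((hv _).1 hn)
  · intro n hn; exact hE n ((hv _).1 hn)
  · intro x y
    have h1 := hrel x y
    unfold Rel at h1 ⊢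
    simp only [← mul_add, hinj, hv]
    exact h1
  · intro m hm
    have h1 := h m hm
    simp only [pow_zero, one_mul]
    rw [h1.1, h1.2]
    simp
  · intro n
    simp only [hper]

/-! ### letters modulo 8 -/

/-- parity of a residue modulo 8 -/
def par : ZMod 8 →+* ZMod 2 := ZMod.castHom (by norm_num) (ZMod 2)

theorem isUnit_of_par : ∀ u : ZMod 8, par u ≠ 0 → IsUnit u := by decide

/-- a Cauchy relation modulo `q` makes the functions affine -/
theorem cauchy {χF χE χK : ℤ → ZMod q} (h : ∀ x y : ℤ, χF x + χE y = χK (x + y)) :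
    ∃ u : ZMod q, (∀ x : ℤ, χF x = u * x + χF 0) ∧ (∀ y : ℤ, χE y = u * y + χE 0) := by
  have h1 : ∀ x : ℤ, χF (x + 1) = χF x + (χF 1 - χF 0) := by
    intro x
    have e1 := h (x + 1) 0
    have e2 := h x 1
    have e3 := h 1 0
    have e4 := h 0 1
    rw [add_zero] at e1 e3
    rw [zero_add] at e4
    rw [← e2] at e1
    rw [← e3] at e4
    linear_combination e1 + e4
  have h2 : ∀ y : ℤ, χE (y + 1) = χE y + (χF 1 - χF 0) := by
    intro y
    have e1 := h 0 (y + 1)
    have e2 := h 1 y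
    rw [zero_add] at e1
    rw [add_comm 1 y, ← e1] at e2
    linear_combination -e2
  have aff : ∀ (f : ℤ → ZMod q) (u : ZMod q), (∀ x, f (x + 1) = f x + u) → ∀ x : ℤ, f x = u * x + f 0 := by
    intro f u hf x
    induction x using Int.induction_on with
    | zero => simp
    | succ n ih => rw [hf, ih]; push_cast; ring
    | pred n ih =>
      have := hf (-(n : ℤ) - 1)
      rw [sub_add_cancel, ih] at this
      push_cast at this ⊢
      linear_combination -this
  exact ⟨χF 1 - χF 0, aff χF _ h1, aff χE _ h2⟩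

/-- **Exact sudoku with letters modulo 8 and parity gates**: `E`-digits are not periodic. -/
theorem exact_parity {χF fF χE fE χK fK fG : ℤ → ZMod 8} {bE : ℤ → ZMod 2}
    (hC : ∀ x y : ℤ, χF x + χE y = χK (x + y))
    (hF : ∀ n, fF n ≠ 0) (hE : ∀ n, fE n ≠ 0)
    (hE' : ∀ n, χE n ≠ 0 → fE n = χE n) (hK' : ∀ n, χK n ≠ 0 → fK n = χK n)
    (hrel : ∀ x y : ℤ, Rel (fF x) (fE y) (fK (x + y)) (fG (x + 8 * y)))
    (hu : ∀ y, ∃ x, par (χF x) = bE y) (hw : ∀ x, ∃ y, par (χF x) ≠ bE y)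
    {N : ℤ} (hN : 0 < N) (hper : ∀ n, fE (n + N) = fE n) : False := by
  obtain ⟨u, h1, h2⟩ := cauchy hC
  have hpar : par u ≠ 0 := by
    intro h0
    obtain ⟨y, hy⟩ := hw 0
    obtain ⟨x, hx⟩ := hu y
    apply hy
    rw [← hx, h1 x]
    simp [h0]
  have hunit := isUnit_of_par u hpar
  obtain ⟨v, hv⟩ := hunit
  -- centres
  obtain ⟨a, ha⟩ := ZMod.intCast_surjective (-((v⁻¹ : (ZMod 8)ˣ) : ZMod 8) * χF 0)
  obtain ⟨b, hb⟩ := ZMod.intCast_surjective (-((v⁻¹ : (ZMod 8)ˣ) : ZMod 8) * χE 0)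
  have huv : u * ((v⁻¹ : (ZMod 8)ˣ) : ZMod 8) = 1 := by rw [← hv]; simp
  have hFa : χF a = 0 := by
    rw [h1 a, ha]
    linear_combination (-χF 0) * huv
  have hEb : ∀ m : ℤ, χE (b + m) = u * m := by
    intro m
    rw [h2 (b + m)]
    push_cast
    rw [hb]
    linear_combination (-χE 0) * huv
  refine exact_sudoku (q := 8) (by norm_num) (F := fF) (E := fE) (K := fK) (G := fG) hF hE
    (fun x y => by simpa using hrel x y) (u := u) ⟨v, hv⟩ (a := a) (b := b) ?_ hN hper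
  intro m hm
  have hne : u * (m : ZMod 8) ≠ 0 := by
    rw [← hv]
    intro h0
    exact hm ((Units.mul_right_eq_zero v).1 h0)
  refine ⟨?_, ?_⟩
  · rw [hE' _ (by rw [hEb]; exact hne), hEb]
  · have hK : χK (a + b + m) = u * m := by
      rw [add_assoc, ← hC, hFa, hEb, zero_add]
    rw [hK' _ (by rw [hK]; exact hne), hK]

end Crest.Agent.R046.Exact
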