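import Crest.Prelude.Def_Tiling

set_option autoImplicit false
set_option linter.unusedSectionVars false

/-! Row 46: fibrewise products of component systems.

Base group `B` (later `ℤ × ℤ`), finite fibre groups `H i` (`i : I`), total group
`B × ∀ i, H i`.  Every component `A i ⊆ B × H i` is transversal to `{0} × T i`.
The tiles `indTile T i s` force a common complement to be a fibrewise product `fprod A`, and the
tile `extTile T i F` is then the tile `F` for the component `A i`. -/

namespace Crest.Agent.R046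

open Crest.CombinatoricsR.Tiling

section basic

variable {G : Type*} [AddCommGroup G]

theorem isTilingBy_iff {F : Finset G} {A : Set G} :
    IsTilingBy F A ↔ ∀ x, ∃! f, f ∈ F ∧ x - f ∈ A := by
  constructor
  · intro h x
    obtain ⟨⟨a, f⟩, ⟨ha, hf, haf⟩, hu⟩ := h x
    simp only at ha hf haf
    refine ⟨f, ⟨hf, by rw [← haf]; simpa using ha⟩, ?_⟩
    rintro f' ⟨hf', ha'⟩
    have := hu (x - f', f') ⟨ha', hf', by simp⟩
    exact congrArg Prod.snd this
  · intro h x
    obtain ⟨f, ⟨hf, ha⟩, hu⟩ := h x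
    refine ⟨(x - f, f), ⟨ha, hf, by simp⟩, ?_⟩
    rintro ⟨a', f'⟩ ⟨ha', hf', haf'⟩
    simp only at ha' hf' haf'
    have h1 : a' = x - f' := by rw [← haf']; abel
    have h2 := hu f' ⟨hf', by rw [← h1]; exact ha'⟩
    rw [h1, h2]

end basic

section product

variable {B : Type*} [AddCommGroup B] [DecidableEq B]
variable {I : Type*} [Fintype I] [DecidableEq I]
variable {H : I → Type*} [∀ i, AddCommGroup (H i)] [∀ i, Fintype (H i)] [∀ i, DecidableEq (H i)]

/-- the tile `{0} × T` -/
def fibTile {K : Type*} [DecidableEq K] (T : Finset K) : Finset (B × K) :=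
  T.image (fun h => ((0 : B), h))

theorem mem_fibTile {K : Type*} [DecidableEq K] {T : Finset K} {p : B × K} :
    p ∈ fibTile (B := B) T ↔ p.1 = 0 ∧ p.2 ∈ T := by
  unfold fibTile
  rw [Finset.mem_image]
  constructor
  · rintro ⟨h, hh, rfl⟩; exact ⟨rfl, hh⟩
  · rintro ⟨h1, h2⟩; exact ⟨p.2, h2, by rw [← h1]⟩

/-- `A` meets every translate of `-T` in every fibre exactly once -/
def Transv {K : Type*} [AddCommGroup K] (T : Finset K) (A : Set (B × K)) : Prop :=
  ∀ (b : B) (h : K), ∃! t, t ∈ T ∧ (b, h - t) ∈ A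

theorem isTilingBy_fibTile {K : Type*} [AddCommGroup K] [DecidableEq K] {T : Finset K}
    {A : Set (B × K)} : IsTilingBy (fibTile T) A ↔ Transv T A := by
  rw [isTilingBy_iff]
  constructor
  · intro hh b h
    obtain ⟨⟨c, t⟩, ⟨hf, ha⟩, hu⟩ := hh (b, h)
    rw [mem_fibTile] at hf
    obtain ⟨h1, h2⟩ := hf
    simp only at h1 h2
    subst h1
    refine ⟨t, ⟨h2, by simpa using ha⟩, ?_⟩
    rintro t' ⟨ht', ha'⟩
    have := hu (0, t') ⟨mem_fibTile.2 ⟨rfl, ht'⟩, by simpa using ha'⟩
    exact congrArg Prod.snd this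
  · rintro hh ⟨b, h⟩
    obtain ⟨t, ⟨ht, ha⟩, hu⟩ := hh b h
    refine ⟨(0, t), ⟨mem_fibTile.2 ⟨rfl, ht⟩, by simpa using ha⟩, ?_⟩
    rintro ⟨c, t'⟩ ⟨hf', ha'⟩
    rw [mem_fibTile] at hf'
    obtain ⟨h1, h2⟩ := hf'
    simp only at h1 h2
    subst h1
    rw [hu t' ⟨h2, by simpa using ha'⟩]

/-- the fibrewise product of the components -/
def fprod (A : ∀ i, Set (B × H i)) : Set (B × ∀ i, H i) := {p | ∀ i, (p.1, p.2 i) ∈ A i}

omit [AddCommGroup B] [DecidableEq B] [Fintype I] [DecidableEq I] [∀ i, AddCommGroup (H i)]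
  [∀ i, Fintype (H i)] [∀ i, DecidableEq (H i)] in
theorem mem_fprod {A : ∀ i, Set (B × H i)} {p : B × ∀ i, H i} :
    p ∈ fprod A ↔ ∀ i, (p.1, p.2 i) ∈ A i := Iff.rfl

/-- the tile `F` of component `i`, times the full transversals of the other components -/
def extTile (T : ∀ i, Finset (H i)) (i : I) (F : Finset (B × H i)) : Finset (B × ∀ i, H i) :=
  ((F.image Prod.fst) ×ˢ Finset.univ).filter
    (fun p => (p.1, p.2 i) ∈ F ∧ ∀ j, j ≠ i → p.2 j ∈ T j)

theorem mem_extTile {T : ∀ i, Finset (H i)} {i : I} {F : Finset (B × H i)}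
    {p : B × ∀ i, H i} :
    p ∈ extTile T i F ↔ (p.1, p.2 i) ∈ F ∧ ∀ j, j ≠ i → p.2 j ∈ T j := by
  unfold extTile
  rw [Finset.mem_filter, Finset.mem_product, Finset.mem_image]
  constructor
  · exact fun h => h.2
  · exact fun h => ⟨⟨⟨_, h.1, rfl⟩, Finset.mem_univ _⟩, h⟩

/-- the independence tile -/
def indTile (T : ∀ i, Finset (H i)) (i : I) (s : ∀ i, H i) : Finset (B × ∀ i, H i) :=
  (({0} : Finset B) ×ˢ Finset.univ).filter
    (fun p => (p.2 i ∈ T i ∧ p.2 i ≠ 0 ∧ ∀ j, j ≠ i → p.2 j ∈ T j) ∨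
      (p.2 i = 0 ∧ ∀ j, j ≠ i → p.2 j - s j ∈ T j))

theorem mem_indTile {T : ∀ i, Finset (H i)} {i : I} {s : ∀ i, H i} {p : B × ∀ i, H i} :
    p ∈ indTile (B := B) T i s ↔ p.1 = 0 ∧
      ((p.2 i ∈ T i ∧ p.2 i ≠ 0 ∧ ∀ j, j ≠ i → p.2 j ∈ T j) ∨
      (p.2 i = 0 ∧ ∀ j, j ≠ i → p.2 j - s j ∈ T j)) := by
  unfold indTile
  rw [Finset.mem_filter, Finset.mem_product, Finset.mem_singleton]
  constructor
  · exact fun h => ⟨h.1.1, h.2⟩
  · exact fun h => ⟨⟨h.1, Finset.mem_univ _⟩, h.2⟩

variable {T : ∀ i, Finset (H i)} {A : ∀ i, Set (B × H i)}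

theorem tiles_ext_iff (hT : ∀ i, Transv (T i) (A i)) (i : I) (F : Finset (B × H i)) :
    IsTilingBy (extTile T i F) (fprod A) ↔ IsTilingBy F (A i) := by
  rw [isTilingBy_iff, isTilingBy_iff]
  -- the choice of the other coordinates
  choose t ht htu using hT
  simp only at ht htu
  constructor
  · rintro hh ⟨b, x⟩
    obtain ⟨⟨c, f⟩, ⟨hf, ha⟩, hu⟩ := hh (b, Function.update 0 i x)
    rw [mem_extTile] at hf
    rw [mem_fprod] at ha
    simp only at hf ha
    refine ⟨(c, f i), ⟨hf.1, by simpa using ha i⟩, ?_⟩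
    rintro ⟨c', u'⟩ ⟨hf', ha'⟩
    simp only [Prod.mk_sub_mk] at ha'
    let f' : ∀ j, H j := Function.update
      (fun j => t j (b - c') ((Function.update (0 : ∀ j, H j) i x) j)) i u'
    have hf'i : f' i = u' := Function.update_self _ _ _
    have hf'j : ∀ j, j ≠ i → f' j = t j (b - c') ((Function.update (0 : ∀ j, H j) i x) j) :=
      fun j hj => Function.update_of_ne hj _ _
    have h1 : ((c', f') : B × ∀ j, H j) = (c, f) := by
      refine hu (c', f') ⟨mem_extTile.2 ⟨by simp only [hf'i]; exact hf', ?_⟩, ?_⟩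
      · intro j hj
        simp only
        rw [hf'j j hj]
        exact (ht j _ _).1
      · rw [mem_fprod]
        intro j
        simp only [Prod.mk_sub_mk, Pi.sub_apply]
        by_cases hj : j = i
        · subst hj
          rw [hf'i, Function.update_self]; exact ha'
        · rw [hf'j j hj]; exact (ht j _ _).2
    have h2 := congrArg Prod.fst h1
    have h3 := congrArg Prod.snd h1
    simp only at h2 h3
    rw [← h2, ← h3, hf'i]
  · rintro hh ⟨b, h⟩
    obtain ⟨⟨c, u⟩, ⟨hf, ha⟩, hu⟩ := hh (b, h i)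
    simp only [Prod.mk_sub_mk] at ha
    let f : ∀ j, H j := Function.update (fun j => t j (b - c) (h j)) i u
    have hfi : f i = u := Function.update_self _ _ _
    have hfj : ∀ j, j ≠ i → f j = t j (b - c) (h j) :=
      fun j hj => Function.update_of_ne hj _ _
    refine ⟨(c, f), ⟨mem_extTile.2 ⟨by simp only [hfi]; exact hf, ?_⟩, ?_⟩, ?_⟩
    · intro j hj
      simp only
      rw [hfj j hj]
      exact (ht j _ _).1
    · rw [mem_fprod]
      intro j
      simp only [Prod.mk_sub_mk, Pi.sub_apply]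
      by_cases hj : j = i
      · subst hj
        rw [hfi]; exact ha
      · rw [hfj j hj]; exact (ht j _ _).2
    · rintro ⟨c', f'⟩ ⟨hf', ha'⟩
      rw [mem_extTile] at hf'
      rw [mem_fprod] at ha'
      simp only [Prod.mk_sub_mk, Pi.sub_apply] at hf' ha'
      have h1 := hu (c', f' i) ⟨hf'.1, by simpa using ha' i⟩
      have h2 := congrArg Prod.fst h1
      have h3 := congrArg Prod.snd h1
      simp only at h2 h3
      subst h2
      congr 1
      funext j
      by_cases hj : j = i
      · subst hj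
        rw [hfi, h3]
      · rw [hfj j hj]
        exact htu j _ _ _ ⟨hf'.2 j hj, ha' j⟩

theorem tiles_ind (hT : ∀ i, Transv (T i) (A i)) (h0 : ∀ i, 0 ∈ T i) (i : I) (s : ∀ i, H i) :
    IsTilingBy (indTile T i s) (fprod A) := by
  rw [isTilingBy_iff]
  choose t ht htu using hT
  simp only at ht htu
  rintro ⟨b, h⟩
  by_cases hti : t i b (h i) = 0
  · let f : ∀ j, H j := Function.update (fun j => s j + t j b (h j - s j)) i 0
    have hfi : f i = 0 := Function.update_self _ _ _
    have hfj : ∀ j, j ≠ i → f j = s j + t j b (h j - s j) :=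
      fun j hj => Function.update_of_ne hj _ _
    refine ⟨(0, f), ⟨mem_indTile.2 ⟨rfl, Or.inr ⟨hfi, ?_⟩⟩, ?_⟩, ?_⟩
    · intro j hj
      simp only
      rw [hfj j hj, add_sub_cancel_left]
      exact (ht j _ _).1
    · rw [mem_fprod]
      intro j
      simp only [Prod.mk_sub_mk, Pi.sub_apply, sub_zero]
      by_cases hj : j = i
      · subst hj
        have := (ht j b (h j)).2
        rw [hti] at this
        rw [hfi]; exact this
      · rw [hfj j hj]
        have := (ht j b (h j - s j)).2
        rwa [sub_sub] at this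
    · rintro ⟨c', f'⟩ ⟨hf', ha'⟩
      rw [mem_indTile] at hf'
      rw [mem_fprod] at ha'
      obtain ⟨hc, hf'⟩ := hf'
      simp only at hc
      subst hc
      simp only [Prod.mk_sub_mk, Pi.sub_apply, sub_zero] at hf' ha'
      congr 1
      rcases hf' with ⟨h1, h2, h3⟩ | ⟨h1, h2⟩
      · exact absurd ((htu i b (h i) (f' i) ⟨h1, ha' i⟩).trans hti) h2
      · funext j
        by_cases hj : j = i
        · subst hj
          rw [hfi, h1]
        · rw [hfj j hj]
          have := htu j b (h j - s j) (f' j - s j) ⟨h2 j hj, by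
            have := ha' j
            rwa [sub_sub, add_sub_cancel]⟩
          rw [← this]; abel
  · refine ⟨(0, fun j => t j b (h j)), ⟨mem_indTile.2 ⟨rfl, Or.inl ⟨(ht i _ _).1, hti, ?_⟩⟩, ?_⟩, ?_⟩
    · intro j _
      exact (ht j _ _).1
    · rw [mem_fprod]
      intro j
      simp only [Prod.mk_sub_mk, Pi.sub_apply, sub_zero]
      exact (ht j _ _).2
    · rintro ⟨c', f'⟩ ⟨hf', ha'⟩
      rw [mem_indTile] at hf'
      rw [mem_fprod] at ha'
      obtain ⟨hc, hf'⟩ := hf'
      simp only at hc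
      subst hc
      simp only [Prod.mk_sub_mk, Pi.sub_apply, sub_zero] at hf' ha'
      congr 1
      rcases hf' with ⟨h1, h2, h3⟩ | ⟨h1, h2⟩
      · funext j
        by_cases hj : j = i
        · subst hj
          exact htu j b (h j) (f' j) ⟨h1, ha' j⟩
        · exact htu j b (h j) (f' j) ⟨h3 j hj, ha' j⟩
      · exfalso
        apply hti
        symm
        refine htu i b (h i) 0 ⟨h0 i, ?_⟩
        have := ha' i
        rwa [h1] at this

/-- `x = (b, h)` is covered by the `i`-th zero block -/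
def Cov (T : ∀ i, Finset (H i)) (i : I) (A : Set (B × ∀ i, H i)) (b : B) (h : ∀ i, H i) : Prop :=
  ∃ q : ∀ i, H i, q i = 0 ∧ (∀ j, j ≠ i → q j ∈ T j) ∧ (b, h - q) ∈ A

/-- **Product structure.** -/
theorem exists_fprod [Nonempty I] (h0 : ∀ i, 0 ∈ T i) {A : Set (B × ∀ i, H i)}
    (hA : ∀ i s, IsTilingBy (indTile T i s) A) :
    ∃ A' : ∀ i, Set (B × H i), (∀ i, Transv (T i) (A' i)) ∧ A = fprod A' := by
  -- the full fibre tile
  have hP : ∀ (b : B) (h : ∀ i, H i), ∃! p : ∀ i, H i, (∀ j, p j ∈ T j) ∧ (b, h - p) ∈ A := by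
    intro b h
    obtain ⟨i⟩ := ‹Nonempty I›
    have := isTilingBy_iff.1 (hA i 0) (b, h)
    obtain ⟨⟨c, p⟩, ⟨hp, ha⟩, hu⟩ := this
    rw [mem_indTile] at hp
    obtain ⟨hc, hp⟩ := hp
    simp only at hc
    subst hc
    refine ⟨p, ⟨?_, by simpa using ha⟩, ?_⟩
    · intro j
      rcases hp with ⟨h1, h2, h3⟩ | ⟨h1, h2⟩
      · by_cases hj : j = i
        · subst hj; exact h1
        · exact h3 j hj
      · by_cases hj : j = i
        · subst hj; simp only at h1; rw [h1]; exact h0 j
        · simpa using h2 j hj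
    · rintro p' ⟨hp', ha'⟩
      have := hu (0, p') ⟨mem_indTile.2 ⟨rfl, ?_⟩, by simpa using ha'⟩
      · exact congrArg Prod.snd this
      · by_cases hpi : p' i = 0
        · exact Or.inr ⟨hpi, fun j _ => by simpa using hp' j⟩
        · exact Or.inl ⟨hp' i, hpi, fun j _ => hp' j⟩
  have hcov : ∀ i b h s, s i = 0 → Cov T i A b h → Cov T i A b (h - s) := by
    rintro i b h s hs ⟨q, hq0, hqT, hqA⟩
    have hqP : ∀ j, q j ∈ T j := by
      intro j
      by_cases hj : j = i
      · subst hj; rw [hq0]; exact h0 j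
      · exact hqT j hj
    obtain ⟨⟨c, f⟩, ⟨hf, ha⟩, -⟩ := isTilingBy_iff.1 (hA i s) (b, h)
    rw [mem_indTile] at hf
    obtain ⟨hc, hf⟩ := hf
    simp only at hc
    subst hc
    simp only [Prod.mk_sub_mk, sub_zero] at ha
    rcases hf with ⟨h1, h2, h3⟩ | ⟨h1, h2⟩
    · exfalso
      have hfP : ∀ j, f j ∈ T j := by
        intro j
        by_cases hj : j = i
        · subst hj; exact h1
        · exact h3 j hj
      have := (hP b h).unique ⟨hfP, ha⟩ ⟨hqP, hqA⟩
      apply h2
      simp only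
      rw [this, hq0]
    · refine ⟨f - s, ?_, ?_, ?_⟩
      · simp only at h1
        simp [h1, hs]
      · intro j hj
        exact h2 j hj
      · rw [sub_sub_sub_cancel_right]; exact ha
  have hcov' : ∀ i b h h', h i = h' i → (Cov T i A b h ↔ Cov T i A b h') := by
    intro i b h h' hh
    constructor
    · intro hc
      have := hcov i b h (h - h') (by simp [hh]) hc
      rwa [sub_sub_cancel] at this
    · intro hc
      have := hcov i b h' (h' - h) (by simp [hh]) hc
      rwa [sub_sub_cancel] at this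
  refine ⟨fun i => {p | Cov T i A p.1 (Function.update 0 i p.2)}, ?_, ?_⟩
  · intro i b x
    obtain ⟨p, ⟨hpT, hpA⟩, hpu⟩ := hP b (Function.update 0 i x)
    refine ⟨p i, ⟨hpT i, ?_⟩, ?_⟩
    · show Cov T i A b (Function.update 0 i (x - p i))
      rw [hcov' i b _ (Function.update (0 : ∀ j, H j) i x - Function.update (0 : ∀ j, H j) i (p i))
        (by simp)]
      refine ⟨Function.update p i 0, by simp, ?_, ?_⟩
      · intro j hj
        rw [Function.update_of_ne hj]; exact hpT j
      · convert hpA using 2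
        funext j
        by_cases hj : j = i
        · subst hj; simp
        · simp [Function.update_of_ne hj]
    · rintro t ⟨htT, htA⟩
      have htA' : Cov T i A b (Function.update 0 i (x - t)) := htA
      rw [hcov' i b _ (Function.update (0 : ∀ j, H j) i x - Function.update (0 : ∀ j, H j) i t)
        (by simp)] at htA'
      obtain ⟨q, hq0, hqT, hqA⟩ := htA'
      have := hpu (Function.update q i t) ⟨?_, ?_⟩
      · rw [← this]; simp
      · intro j
        by_cases hj : j = i
        · subst hj; simpa using htT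
        · rw [Function.update_of_ne hj]; exact hqT j hj
      · convert hqA using 2
        funext j
        by_cases hj : j = i
        · subst hj; simp [hq0]
        · simp [Function.update_of_ne hj]
  · ext ⟨b, h⟩
    rw [mem_fprod]
    constructor
    · intro hbh i
      show Cov T i A b (Function.update 0 i (h i))
      rw [hcov' i b _ h (by simp)]
      exact ⟨0, rfl, fun j _ => h0 j, by simpa using hbh⟩
    · intro hbh
      obtain ⟨p, ⟨hpT, hpA⟩, hpu⟩ := hP b h
      have hp0 : p = 0 := by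
        funext i
        have h1 : Cov T i A b (Function.update 0 i (h i)) := hbh i
        rw [hcov' i b _ h (by simp)] at h1
        obtain ⟨q, hq0, hqT, hqA⟩ := h1
        have hqP : ∀ j, q j ∈ T j := by
          intro j
          by_cases hj : j = i
          · subst hj; rw [hq0]; exact h0 j
          · exact hqT j hj
        rw [← hpu q ⟨hqP, hqA⟩, hq0]; rfl
      rw [hp0, sub_zero] at hpA
      exact hpA

end product

end Crest.Agent.R046
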