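import Crest.Prelude.Def_Tiling
import Mathlib

/-!
# Row 46 (S0065): the integer conjuncts imply the real conjuncts

For any finite nonempty `T ⊂ ℤᵈ`: if `T` tiles `ℤᵈ` but never fully periodically, then the closed
unit cube thickening of `T` tiles `ℝᵈ` up to null sets, but never lattice-periodically.

Proof of the second part.  An a.e. tiling by `T + [0,1]ᵈ` is locally finite and yields an exact
tiling of `ℝᵈ` by half open unit cubes.  On each line parallel to an axis the left ends of the cubes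
form a coset of `ℤ`, so each coordinate may be replaced by its image under a map `ψ : ℝ → ℝ` with
`ψ (r + 1) = ψ r + 1` (Keller/Hajós shift).  With `ψ = ⌊Φ ·⌋`, `Φ : ℝ → ℚ` a `ℚ`-linear map with
`Φ 1 = 1` whose application to the entries of a period basis stays invertible, one gets a fully
periodic integer tiling by `T`.
-/

set_option autoImplicit false

namespace Crest.Agent.R046.RealPart

open Crest.CombinatoricsR.Tiling MeasureTheory

/-- A family of half-open unit cubes (given by the lower corners) tiling `ℝᵈ` exactly. -/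
def Exact {ι : Type*} {d : ℕ} (p : ι → Fin d → ℝ) : Prop :=
  ∀ x : Fin d → ℝ, ∃! i, ∀ k, p i k ≤ x k ∧ x k < p i k + 1

lemma psi_int (ψ : ℝ → ℝ) (hψ : ∀ r, ψ (r + 1) = ψ r + 1) (r : ℝ) (n : ℤ) :
    ψ (r + n) = ψ r + n := by
  induction n using Int.induction_on with
  | zero => simp
  | succ n ih =>
    have h := hψ (r + (n : ℤ))
    have e : r + (((n : ℤ) + 1 : ℤ) : ℝ) = r + ((n : ℤ) : ℝ) + 1 := by push_cast; ring
    rw [e, h, ih]; push_cast; ring
  | pred n ih =>
    have h := hψ (r + ((-(n : ℤ) - 1 : ℤ) : ℝ))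
    have e : r + ((-(n : ℤ) - 1 : ℤ) : ℝ) + 1 = r + ((-(n : ℤ) : ℤ) : ℝ) := by push_cast; ring
    rw [e, ih] at h
    push_cast at h ⊢
    linarith

/-- one dimensional structure: left ends of an exact tiling of `ℝ` by unit intervals -/
lemma line {ι : Type*} (f : ι → ℝ) (hf : ∀ t : ℝ, ∃! i, f i ≤ t ∧ t < f i + 1) :
    ∃ ρ : ℝ, (∀ i, ∃ n : ℤ, f i = ρ + n) ∧ (∀ n : ℤ, ∃ i, f i = ρ + n) := by
  have hinj : ∀ i j, f i = f j → i = j := by
    intro i j hij
    obtain ⟨a, _, ha⟩ := hf (f i)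
    have h1 := ha i ⟨le_refl _, by linarith⟩
    have h2 := ha j ⟨by linarith, by linarith⟩
    rw [h1, h2]
  have hup : ∀ i, ∃ j, f j = f i + 1 := by
    intro i
    obtain ⟨j, ⟨hj1, hj2⟩, -⟩ := hf (f i + 1)
    refine ⟨j, ?_⟩
    by_contra hne
    have hlt : f j < f i + 1 := lt_of_le_of_ne hj1 hne
    obtain ⟨a, _, ha⟩ := hf (f j)
    have h1 := ha i ⟨by linarith, by linarith⟩
    have h2 := ha j ⟨le_refl _, by linarith⟩
    have : i = j := by rw [h1, h2]
    subst this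
    linarith
  have hdown : ∀ i, ∃ j, f j = f i - 1 := by
    intro i
    obtain ⟨j, ⟨hj1, hj2⟩, -⟩ := hf (f i - 1)
    refine ⟨j, ?_⟩
    by_contra hne
    have hlt : f j < f i - 1 := lt_of_le_of_ne hj1 hne
    obtain ⟨l, hl⟩ := hup j
    obtain ⟨a, _, ha⟩ := hf (f i)
    have h1 := ha i ⟨le_refl _, by linarith⟩
    have h2 := ha l ⟨by linarith, by linarith⟩
    have : i = l := by rw [h1, h2]
    subst this
    linarith
  obtain ⟨i0, -, -⟩ := hf 0
  refine ⟨f i0, ?_, ?_⟩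
  swap
  · intro n
    induction n using Int.induction_on with
    | zero => exact ⟨i0, by simp⟩
    | succ n ih =>
      obtain ⟨i, hi⟩ := ih
      obtain ⟨j, hj⟩ := hup i
      exact ⟨j, by rw [hj, hi]; push_cast; ring⟩
    | pred n ih =>
      obtain ⟨i, hi⟩ := ih
      obtain ⟨j, hj⟩ := hdown i
      exact ⟨j, by rw [hj, hi]; push_cast; ring⟩
  · have hall : ∀ n : ℤ, ∃ i, f i = f i0 + n := by
      intro n
      induction n using Int.induction_on with
      | zero => exact ⟨i0, by simp⟩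
      | succ n ih =>
        obtain ⟨i, hi⟩ := ih
        obtain ⟨j, hj⟩ := hup i
        exact ⟨j, by rw [hj, hi]; push_cast; ring⟩
      | pred n ih =>
        obtain ⟨i, hi⟩ := ih
        obtain ⟨j, hj⟩ := hdown i
        exact ⟨j, by rw [hj, hi]; push_cast; ring⟩
    intro i
    obtain ⟨j, hj⟩ := hall ⌊f i - f i0⌋
    refine ⟨⌊f i - f i0⌋, ?_⟩
    rw [← hj]
    congr 1
    obtain ⟨a, _, ha⟩ := hf (f i)
    have h1 := ha i ⟨le_refl _, by linarith⟩
    have h2 := ha j ⟨by rw [hj]; linarith [Int.floor_le (f i - f i0)],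
      by rw [hj]; linarith [Int.lt_floor_add_one (f i - f i0)]⟩
    rw [h1, h2]

lemma line_shift {ι : Type*} (f : ι → ℝ) (hf : ∀ t : ℝ, ∃! i, f i ≤ t ∧ t < f i + 1)
    (ψ : ℝ → ℝ) (hψ : ∀ r, ψ (r + 1) = ψ r + 1) (t : ℝ) :
    ∃! i, ψ (f i) ≤ t ∧ t < ψ (f i) + 1 := by
  obtain ⟨ρ, h1, h2⟩ := line f hf
  have hinj : ∀ i j, f i = f j → i = j := by
    intro i j hij
    obtain ⟨a, _, ha⟩ := hf (f i)
    have h1 := ha i ⟨le_refl _, by linarith⟩
    have h2 := ha j ⟨by linarith, by linarith⟩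
    rw [h1, h2]
  obtain ⟨i, hi⟩ := h2 ⌊t - ψ ρ⌋
  have hψi : ψ (f i) = ψ ρ + ⌊t - ψ ρ⌋ := by rw [hi, psi_int ψ hψ]
  refine ⟨i, ?_, ?_⟩
  · simp only [hψi]
    constructor
    · linarith [Int.floor_le (t - ψ ρ)]
    · linarith [Int.lt_floor_add_one (t - ψ ρ)]
  · rintro j ⟨hj1, hj2⟩
    obtain ⟨m, hm⟩ := h1 j
    have hψj : ψ (f j) = ψ ρ + m := by rw [hm, psi_int ψ hψ]
    have : ⌊t - ψ ρ⌋ = m := by
      rw [Int.floor_eq_iff]
      rw [hψj] at hj1 hj2
      constructor <;> linarith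
    apply hinj
    rw [hm, hi, this]

lemma Exact.shift_one {ι : Type*} {d : ℕ} {p : ι → Fin d → ℝ} (hp : Exact p) (k : Fin d)
    (ψ : ℝ → ℝ) (hψ : ∀ r, ψ (r + 1) = ψ r + 1) :
    Exact (fun i => Function.update (p i) k (ψ (p i k))) := by
  intro x
  let I := {i : ι // ∀ j, j ≠ k → p i j ≤ x j ∧ x j < p i j + 1}
  have hf : ∀ t : ℝ, ∃! i : I, p i.1 k ≤ t ∧ t < p i.1 k + 1 := by
    intro t
    obtain ⟨i, hi, hu⟩ := hp (Function.update x k t)
    refine ⟨⟨i, ?_⟩, ?_, ?_⟩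
    · intro j hj
      have := hi j
      rwa [Function.update_of_ne hj] at this
    · have := hi k
      rwa [Function.update_self] at this
    · rintro ⟨j, hj⟩ hjk
      have := hu j (by
        intro l
        by_cases hl : l = k
        · subst hl
          rw [Function.update_self]; exact hjk
        · rw [Function.update_of_ne hl]; exact hj l hl)
      subst this; rfl
  obtain ⟨i, hi, hu⟩ := line_shift (fun i : I => p i.1 k) hf ψ hψ (x k)
  refine ⟨i.1, ?_, ?_⟩
  · intro l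
    by_cases hl : l = k
    · subst hl
      simp only [Function.update_self]; exact hi
    · simp only [Function.update_of_ne hl]; exact i.2 l hl
  · intro j hj
    have hjI : ∀ l, l ≠ k → p j l ≤ x l ∧ x l < p j l + 1 := by
      intro l hl
      have := hj l
      simpa only [Function.update_of_ne hl] using this
    have := hu ⟨j, hjI⟩ (by
      have := hj k
      simpa only [Function.update_self] using this)
    rw [← this]

lemma Exact.shift {ι : Type*} {d : ℕ} {p : ι → Fin d → ℝ} (hp : Exact p)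
    (ψ : ℝ → ℝ) (hψ : ∀ r, ψ (r + 1) = ψ r + 1) :
    Exact (fun i k => ψ (p i k)) := by
  classical
  have key : ∀ s : Finset (Fin d), Exact (fun i k => if k ∈ s then ψ (p i k) else p i k) := by
    intro s
    induction s using Finset.induction_on with
    | empty => simpa using hp
    | insert a s ha ih =>
      have := ih.shift_one a ψ hψ
      convert this using 2 with i
      funext k
      by_cases hk : k = a
      · subst hk
        simp [ha]
      · simp [hk]
  simpa using key Finset.univ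

/-- An exact tiling by integer cubes is a bijection with `ℤᵈ`. -/
lemma Exact.int {ι : Type*} {d : ℕ} {p : ι → Fin d → ℤ} (hp : Exact (fun i k => (p i k : ℝ)))
    (n : Fin d → ℤ) : ∃! i, p i = n := by
  obtain ⟨i, hi, hu⟩ := hp (fun k => (n k : ℝ))
  have conv : ∀ j, (∀ k, ((p j k : ℤ) : ℝ) ≤ (n k : ℝ) ∧ (n k : ℝ) < (p j k : ℝ) + 1) ↔ p j = n := by
    intro j
    constructor
    · intro h
      funext k
      obtain ⟨h1, h2⟩ := h k
      have h1' : p j k ≤ n k := by exact_mod_cast h1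
      have h2' : n k < p j k + 1 := by exact_mod_cast h2
      omega
    · rintro rfl k
      exact ⟨le_refl _, by linarith⟩
  refine ⟨i, (conv i).1 hi, ?_⟩
  intro j hj
  exact hu j ((conv j).2 hj)

/-- distinct translates of an a.e. tiling do not overlap on open sets -/
lemma no_overlap {d : ℕ} {T : Finset (Fin d → ℤ)} {B : Set (Fin d → ℝ)}
    (hB : IsAETilingBy (cubeThickening T) B) (b b' : B) (z z' : T) (U : Set (Fin d → ℝ))
    (hU : IsOpen U) (hne : U.Nonempty)
    (h : ∀ x ∈ U, ∀ k, (b : Fin d → ℝ) k + ((z : Fin d → ℤ) k : ℝ) ≤ x k ∧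
      x k ≤ (b : Fin d → ℝ) k + ((z : Fin d → ℤ) k : ℝ) + 1)
    (h' : ∀ x ∈ U, ∀ k, (b' : Fin d → ℝ) k + ((z' : Fin d → ℤ) k : ℝ) ≤ x k ∧
      x k ≤ (b' : Fin d → ℝ) k + ((z' : Fin d → ℤ) k : ℝ) + 1) : b = b' := by
  have hD : Dense {x : Fin d → ℝ | ∃! a, a ∈ B ∧ x - a ∈ cubeThickening T} :=
    Measure.dense_of_ae hB
  obtain ⟨y, hyU, a, -, hu⟩ := hD.inter_open_nonempty U hU hne
  have h1 := hu b ⟨b.2, z, z.2, fun k => by
    have := h y hyU k
    simp only [Pi.sub_apply]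
    constructor <;> linarith [this.1, this.2]⟩
  have h2 := hu b' ⟨b'.2, z', z'.2, fun k => by
    have := h' y hyU k
    simp only [Pi.sub_apply]
    constructor <;> linarith [this.1, this.2]⟩
  exact Subtype.ext (h1.trans h2.symm)

lemma grid_injective {d : ℕ} {T : Finset (Fin d → ℤ)} {B : Set (Fin d → ℝ)}
    (hB : IsAETilingBy (cubeThickening T) B) (z : T) :
    Function.Injective (fun (b : B) (k : Fin d) =>
      ⌊2 * ((b : Fin d → ℝ) k + ((z : Fin d → ℤ) k : ℝ))⌋ + 1) := by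
  intro b b' hbb
  refine no_overlap hB b b' z z
    (Set.pi Set.univ (fun k => Set.Ioo ((b : Fin d → ℝ) k + ((z : Fin d → ℤ) k : ℝ))
        ((b : Fin d → ℝ) k + ((z : Fin d → ℤ) k : ℝ) + 1) ∩
      Set.Ioo ((b' : Fin d → ℝ) k + ((z : Fin d → ℤ) k : ℝ))
        ((b' : Fin d → ℝ) k + ((z : Fin d → ℤ) k : ℝ) + 1)))
    (isOpen_set_pi Set.finite_univ (fun k _ => isOpen_Ioo.inter isOpen_Ioo)) ?_ ?_ ?_
  · refine ⟨fun k => ((⌊2 * ((b : Fin d → ℝ) k + ((z : Fin d → ℤ) k : ℝ))⌋ + 1 : ℤ) : ℝ) / 2, ?_⟩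
    intro k _
    have hk : ⌊2 * ((b : Fin d → ℝ) k + ((z : Fin d → ℤ) k : ℝ))⌋ + 1 =
      ⌊2 * ((b' : Fin d → ℝ) k + ((z : Fin d → ℤ) k : ℝ))⌋ + 1 := congrFun hbb k
    have a1 := Int.floor_le (2 * ((b : Fin d → ℝ) k + ((z : Fin d → ℤ) k : ℝ)))
    have a2 := Int.lt_floor_add_one (2 * ((b : Fin d → ℝ) k + ((z : Fin d → ℤ) k : ℝ)))
    have a3 := Int.floor_le (2 * ((b' : Fin d → ℝ) k + ((z : Fin d → ℤ) k : ℝ)))
    have a4 := Int.lt_floor_add_one (2 * ((b' : Fin d → ℝ) k + ((z : Fin d → ℤ) k : ℝ)))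
    have hk' : ((⌊2 * ((b : Fin d → ℝ) k + ((z : Fin d → ℤ) k : ℝ))⌋ : ℤ) : ℝ) =
      (⌊2 * ((b' : Fin d → ℝ) k + ((z : Fin d → ℤ) k : ℝ))⌋ : ℤ) := by
      exact_mod_cast (by omega : ⌊2 * ((b : Fin d → ℝ) k + ((z : Fin d → ℤ) k : ℝ))⌋ =
        ⌊2 * ((b' : Fin d → ℝ) k + ((z : Fin d → ℤ) k : ℝ))⌋)
    rw [← hk'] at a3 a4
    simp only [Set.mem_inter_iff, Set.mem_Ioo]
    push_cast
    refine ⟨⟨?_, ?_⟩, ?_, ?_⟩ <;> linarith
  · intro x hx k
    have := hx k (Set.mem_univ k)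
    exact ⟨this.1.1.le, this.1.2.le⟩
  · intro x hx k
    have := hx k (Set.mem_univ k)
    exact ⟨this.2.1.le, this.2.2.le⟩

lemma near_finite {d : ℕ} {T : Finset (Fin d → ℤ)} {B : Set (Fin d → ℝ)}
    (hB : IsAETilingBy (cubeThickening T) B) (x : Fin d → ℝ) :
    {i : B × T | ∀ k, x k - 1 ≤ (i.1 : Fin d → ℝ) k + ((i.2 : Fin d → ℤ) k : ℝ) ∧
      (i.1 : Fin d → ℝ) k + ((i.2 : Fin d → ℤ) k : ℝ) ≤ x k + 1}.Finite := by
  have h1 : ∀ z : T, {b : B | ∀ k, x k - 1 ≤ (b : Fin d → ℝ) k + ((z : Fin d → ℤ) k : ℝ) ∧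
      (b : Fin d → ℝ) k + ((z : Fin d → ℤ) k : ℝ) ≤ x k + 1}.Finite := by
    intro z
    refine Set.Finite.subset (Set.Finite.preimage ((grid_injective hB z).injOn)
      (Set.finite_Icc (fun k => ⌊2 * (x k - 1)⌋ + 1) (fun k => ⌊2 * (x k + 1)⌋ + 1))) ?_
    intro b hb
    simp only [Set.mem_preimage, Set.mem_Icc]
    constructor
    · intro k
      have := (hb k).1
      have h := Int.floor_le_floor (show 2 * (x k - 1) ≤ 2 * ((b : Fin d → ℝ) k +
        ((z : Fin d → ℤ) k : ℝ)) by linarith)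
      simpa using h
    · intro k
      have := (hb k).2
      have h := Int.floor_le_floor (show 2 * ((b : Fin d → ℝ) k +
        ((z : Fin d → ℤ) k : ℝ)) ≤ 2 * (x k + 1) by linarith)
      simpa using h
  refine Set.Finite.subset (Set.finite_iUnion (fun z : T => (h1 z).image (fun b => (b, z)))) ?_
  rintro ⟨b, z⟩ hbz
  exact Set.mem_iUnion.2 ⟨z, b, hbz, rfl⟩

/-- an a.e. tiling by `T + [0,1]ᵈ` is an exact tiling by half open cubes -/
lemma exact_of_ae {d : ℕ} {T : Finset (Fin d → ℤ)} {B : Set (Fin d → ℝ)}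
    (hB : IsAETilingBy (cubeThickening T) B) :
    Exact (fun (i : B × T) k => (i.1 : Fin d → ℝ) k + ((i.2 : Fin d → ℤ) k : ℝ)) := by
  have hD : Dense {x : Fin d → ℝ | ∃! a, a ∈ B ∧ x - a ∈ cubeThickening T} :=
    Measure.dense_of_ae hB
  intro x
  have hex : ∃ i : B × T, ∀ k, (i.1 : Fin d → ℝ) k + ((i.2 : Fin d → ℤ) k : ℝ) ≤ x k ∧
      x k < (i.1 : Fin d → ℝ) k + ((i.2 : Fin d → ℤ) k : ℝ) + 1 := by
    by_contra hno
    push Not at hno
    have hfin := near_finite hB x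
    have hev : ∀ᶠ ε in nhdsWithin (0 : ℝ) (Set.Ioi 0), ∀ i ∈ {i : B × T | ∀ k,
        x k - 1 ≤ (i.1 : Fin d → ℝ) k + ((i.2 : Fin d → ℤ) k : ℝ) ∧
        (i.1 : Fin d → ℝ) k + ((i.2 : Fin d → ℤ) k : ℝ) ≤ x k + 1},
        ∀ y : Fin d → ℝ, (∀ k, x k < y k ∧ y k < x k + ε) →
          ¬ ∀ k, (i.1 : Fin d → ℝ) k + ((i.2 : Fin d → ℤ) k : ℝ) ≤ y k ∧
            y k ≤ (i.1 : Fin d → ℝ) k + ((i.2 : Fin d → ℤ) k : ℝ) + 1 := by
      rw [Filter.eventually_all_finite hfin]
      intro i _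
      obtain ⟨k, hk⟩ := hno i
      by_cases hlt : x k < (i.1 : Fin d → ℝ) k + ((i.2 : Fin d → ℤ) k : ℝ)
      · have : Set.Ioo (0 : ℝ) ((i.1 : Fin d → ℝ) k + ((i.2 : Fin d → ℤ) k : ℝ) - x k) ∈
            nhdsWithin (0 : ℝ) (Set.Ioi 0) := Ioo_mem_nhdsGT (by linarith)
        filter_upwards [this] with ε hε y hy hcon
        have h1 := (hcon k).1
        have h2 := (hy k).2
        have h3 := hε.2
        linarith
      · have h4 := hk (by linarith)
        refine Filter.Eventually.of_forall ?_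
        intro ε y hy hcon
        have h1 := (hcon k).2
        have h2 := (hy k).1
        linarith
    have hsmall : Set.Ioo (0 : ℝ) 1 ∈ nhdsWithin (0 : ℝ) (Set.Ioi 0) :=
      Ioo_mem_nhdsGT (by norm_num)
    obtain ⟨ε, hε, hε1⟩ := (hev.and hsmall).exists
    obtain ⟨y, hyU, a, ⟨haB, z, hz, haz⟩, -⟩ := hD.inter_open_nonempty
      (Set.pi Set.univ (fun k => Set.Ioo (x k) (x k + ε)))
      (isOpen_set_pi Set.finite_univ (fun k _ => isOpen_Ioo))
      ⟨fun k => x k + ε / 2, fun k _ => ⟨by linarith [hε1.1], by linarith [hε1.1]⟩⟩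
    have hy : ∀ k, x k < y k ∧ y k < x k + ε := fun k => hyU k (Set.mem_univ k)
    have haz' : ∀ k, a k + (z k : ℝ) ≤ y k ∧ y k ≤ a k + (z k : ℝ) + 1 := by
      intro k
      have := haz k
      simp only [Pi.sub_apply] at this
      constructor <;> linarith [this.1, this.2]
    refine hε (⟨a, haB⟩, ⟨z, hz⟩) ?_ y hy haz'
    intro k
    have h1 := haz' k
    have h2 := hy k
    have h3 := hε1.2
    constructor <;> simp only <;> linarith [h1.1, h1.2, h2.1, h2.2]
  obtain ⟨i, hi⟩ := hex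
  refine ⟨i, hi, ?_⟩
  intro j hj
  have hb : j.1 = i.1 := by
    refine no_overlap hB j.1 i.1 j.2 i.2
      (Set.pi Set.univ (fun k => Set.Ioo (x k) (x k + min
        ((i.1 : Fin d → ℝ) k + ((i.2 : Fin d → ℤ) k : ℝ) + 1 - x k)
        ((j.1 : Fin d → ℝ) k + ((j.2 : Fin d → ℤ) k : ℝ) + 1 - x k))))
      (isOpen_set_pi Set.finite_univ (fun k _ => isOpen_Ioo)) ?_ ?_ ?_
    · refine Set.univ_pi_nonempty_iff.2 (fun k => Set.nonempty_Ioo.2 ?_)
      have h1 := (hi k).2
      have h2 := (hj k).2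
      have : 0 < min ((i.1 : Fin d → ℝ) k + ((i.2 : Fin d → ℤ) k : ℝ) + 1 - x k)
        ((j.1 : Fin d → ℝ) k + ((j.2 : Fin d → ℤ) k : ℝ) + 1 - x k) :=
        lt_min (by linarith) (by simp only at h2; linarith)
      linarith
    · intro y hy k
      have h1 := hy k (Set.mem_univ k)
      have h2 := hj k
      simp only at h2
      have h3 := min_le_right ((i.1 : Fin d → ℝ) k + ((i.2 : Fin d → ℤ) k : ℝ) + 1 - x k)
        ((j.1 : Fin d → ℝ) k + ((j.2 : Fin d → ℤ) k : ℝ) + 1 - x k)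
      constructor <;> linarith [h1.1, h1.2, h2.1, h2.2]
    · intro y hy k
      have h1 := hy k (Set.mem_univ k)
      have h2 := hi k
      have h3 := min_le_left ((i.1 : Fin d → ℝ) k + ((i.2 : Fin d → ℤ) k : ℝ) + 1 - x k)
        ((j.1 : Fin d → ℝ) k + ((j.2 : Fin d → ℤ) k : ℝ) + 1 - x k)
      constructor <;> linarith [h1.1, h1.2, h2.1, h2.2]
  refine Prod.ext hb (Subtype.ext (funext fun k => ?_))
  have h1 := hi k
  have h2 := hj k
  simp only at h2
  rw [hb] at h2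
  have h3 : ((j.2 : Fin d → ℤ) k : ℝ) < ((i.2 : Fin d → ℤ) k : ℝ) + 1 := by linarith [h1.2, h2.1]
  have h4 : ((i.2 : Fin d → ℤ) k : ℝ) < ((j.2 : Fin d → ℤ) k : ℝ) + 1 := by linarith [h1.1, h2.2]
  have h3' : (j.2 : Fin d → ℤ) k < (i.2 : Fin d → ℤ) k + 1 := by exact_mod_cast h3
  have h4' : (i.2 : Fin d → ℤ) k < (j.2 : Fin d → ℤ) k + 1 := by exact_mod_cast h4
  omega

/-! ### integer tilings from a.e. tilings -/

lemma phi_int (Φ : ℝ →ₗ[ℚ] ℚ) (h1 : Φ 1 = 1) (n : ℤ) : Φ (n : ℝ) = n := by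
  have : ((n : ℝ)) = (n : ℚ) • (1 : ℝ) := by
    rw [Rat.smul_def]; push_cast; ring
  rw [this, map_smul, h1]; simp

lemma floor_phi_add (Φ : ℝ →ₗ[ℚ] ℚ) (h1 : Φ 1 = 1) (r : ℝ) (n : ℤ) :
    ⌊Φ (r + n)⌋ = ⌊Φ r⌋ + n := by
  rw [map_add, phi_int Φ h1, Int.floor_add_intCast]

lemma int_tiling {d : ℕ} {T : Finset (Fin d → ℤ)} {B : Set (Fin d → ℝ)}
    (hB : IsAETilingBy (cubeThickening T) B) (Φ : ℝ →ₗ[ℚ] ℚ) (h1 : Φ 1 = 1) :
    IsTilingBy T {a : Fin d → ℤ | ∃ b ∈ B, ∀ k, a k = ⌊Φ (b k)⌋} := by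
  have hE := (exact_of_ae hB).shift (fun r => ((⌊Φ r⌋ : ℤ) : ℝ)) (by
    intro r
    have := floor_phi_add Φ h1 r 1
    push_cast at this
    rw [this]; push_cast; ring)
  have hE' := Exact.int (p := fun (i : B × T) k =>
    ⌊Φ ((i.1 : Fin d → ℝ) k + ((i.2 : Fin d → ℤ) k : ℝ))⌋) hE
  intro n
  obtain ⟨⟨⟨b, hb⟩, ⟨z, hz⟩⟩, hi, hu⟩ := hE' n
  have hi' : ∀ k, ⌊Φ (b k)⌋ + z k = n k := by
    intro k
    rw [← floor_phi_add Φ h1]
    exact congrFun hi k
  refine ⟨(fun k => ⌊Φ (b k)⌋, z), ⟨⟨b, hb, fun k => rfl⟩, hz, funext hi'⟩, ?_⟩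
  rintro ⟨a', z'⟩ ⟨⟨b', hb', ha'⟩, hz', hsum⟩
  simp only at ha' hz' hsum
  have hj : (⟨⟨b', hb'⟩, ⟨z', hz'⟩⟩ : B × T) = ⟨⟨b, hb⟩, ⟨z, hz⟩⟩ := by
    apply hu
    funext k
    simp only
    rw [floor_phi_add Φ h1, ← ha' k]
    exact congrFun hsum k
  have hb2 : b' = b := by
    have := congrArg (fun q : B × T => (q.1 : Fin d → ℝ)) hj
    exact this
  have hz2 : z' = z := by
    have := congrArg (fun q : B × T => (q.2 : Fin d → ℤ)) hj
    exact this
  subst hb2 hz2
  refine Prod.ext (funext fun k => ?_) rfl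
  exact ha' k

lemma exists_hamel : ∃ (ι : Type) (β : Module.Basis ι ℚ ℝ) (i0 : ι), β i0 = 1 := by
  have hli : LinearIndepOn ℚ id ({1} : Set ℝ) := by
    rw [linearIndepOn_singleton_iff]
    exact one_ne_zero
  exact ⟨_, Module.Basis.extend hli,
    ⟨1, Module.Basis.subset_extend hli (Set.mem_singleton 1)⟩,
    Module.Basis.extend_apply_self hli _⟩

/-- A `ℚ`-linear functional `ℝ → ℚ` fixing `1` and keeping a given real matrix invertible. -/
lemma exists_phi {d : ℕ} (M : Matrix (Fin d) (Fin d) ℝ) (hM : M.det ≠ 0) :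
    ∃ Φ : ℝ →ₗ[ℚ] ℚ, Φ 1 = 1 ∧ (Matrix.of fun i j => Φ (M i j)).det ≠ 0 := by
  classical
  obtain ⟨ι, β, i0, hi0⟩ := exists_hamel
  let s : Finset (ι) :=
    Finset.univ.biUnion fun i : Fin d => Finset.univ.biUnion fun j : Fin d =>
      (β.repr (M i j)).support
  have hs : ∀ i j, (β.repr (M i j)).support ⊆ s := by
    intro i j t ht
    simp only [s, Finset.mem_biUnion, Finset.mem_univ, true_and]
    exact ⟨i, j, ht⟩
  let N : (ι → ℝ) → Matrix (Fin d) (Fin d) ℝ := fun τ =>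
    Matrix.of fun i j => ∑ t ∈ s, ((β.repr (M i j) t : ℚ) : ℝ) * τ t
  have hNβ : N (fun t => β t) = M := by
    ext i j
    simp only [N, Matrix.of_apply]
    have h := β.linearCombination_repr (M i j)
    rw [Finsupp.linearCombination_apply,
      Finsupp.sum_of_support_subset _ (hs i j) _ (by simp)] at h
    conv_rhs => rw [← h]
    refine Finset.sum_congr rfl fun t _ => ?_
    rw [Rat.smul_def]
  have hcont : Continuous (fun τ : ι → ℝ =>
      (N (Function.update τ i0 1)).det) := by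
    apply Continuous.matrix_det
    apply continuous_matrix
    intro i j
    simp only [N, Matrix.of_apply]
    refine continuous_finsetSum _ fun t _ => continuous_const.mul ?_
    by_cases ht : t = i0
    · subst ht
      simpa using continuous_const
    · simp only [Function.update_of_ne ht]
      exact continuous_apply t
  have hdense : DenseRange (fun (q : ι → ℚ) t => ((q t : ℚ) : ℝ)) :=
    DenseRange.piMap (fun _ => Rat.denseRange_cast)
  have hopen : IsOpen {τ : ι → ℝ |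
      (N (Function.update τ i0 1)).det ≠ 0} := isOpen_ne.preimage hcont
  obtain ⟨q, hq⟩ := hdense.exists_mem_open hopen ⟨fun t => β t, by
    have h2 : Function.update (fun t => β t) i0 1 = fun t => β t := by
      rw [← hi0]; exact Function.update_eq_self _ _
    show (N (Function.update (fun t => β t) i0 1)).det ≠ 0
    rw [h2, hNβ]; exact hM⟩
  refine ⟨β.constr ℕ (Function.update q i0 1), ?_, ?_⟩
  · rw [← hi0, Module.Basis.constr_basis]; simp
  · intro hdet
    apply hq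
    have hcast : N (Function.update (fun t => ((q t : ℚ) : ℝ)) i0 1) =
        (Matrix.of fun i j => β.constr ℕ (Function.update q i0 1) (M i j)).map
          (Rat.castHom ℝ) := by
      ext i j
      simp only [N, Matrix.of_apply, Matrix.map_apply]
      rw [Module.Basis.constr_apply, Finsupp.sum_of_support_subset _ (hs i j) _ (by simp)]
      rw [map_sum]
      refine Finset.sum_congr rfl fun t _ => ?_
      simp only [smul_eq_mul, map_mul, eq_ratCast]
      congr 1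
      by_cases ht : t = i0
      · subst ht; simp
      · simp [Function.update_of_ne ht]
    show (N (Function.update (fun t => ((q t : ℚ) : ℝ)) i0 1)).det = 0
    rw [hcast, ← RingHom.mapMatrix_apply, ← RingHom.map_det, hdet, map_zero]

/-- the period group of the integer tiling -/
def perGroup {d : ℕ} (Φ : ℝ →ₗ[ℚ] ℚ) (L : Submodule ℤ (Fin d → ℝ)) :
    AddSubgroup (Fin d → ℤ) where
  carrier := {h | ∃ v ∈ L, ∀ k, Φ (v k) = h k}
  zero_mem' := ⟨0, L.zero_mem, fun k => by simp⟩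
  add_mem' := by
    rintro a b ⟨v, hv, hva⟩ ⟨w, hw, hwb⟩
    exact ⟨v + w, L.add_mem hv hw, fun k => by simp [hva, hwb]⟩
  neg_mem' := by
    rintro a ⟨v, hv, hva⟩
    exact ⟨-v, L.neg_mem hv, fun k => by simp [hva]⟩

lemma exists_int_matrix {d : ℕ} (D : Matrix (Fin d) (Fin d) ℚ) :
    ∃ (n : ℤ) (D' : Matrix (Fin d) (Fin d) ℤ), n ≠ 0 ∧ ∀ i j, (D' i j : ℚ) = n * D i j := by
  classical
  refine ⟨∏ i, ∏ j, ((D i j).den : ℤ),
    fun i j => (D i j).num * (∏ p ∈ (Finset.univ.erase (i, j)), ((D p.1 p.2).den : ℤ)), ?_, ?_⟩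
  · refine Finset.prod_ne_zero_iff.2 fun i _ => Finset.prod_ne_zero_iff.2 fun j _ => ?_
    exact_mod_cast (D i j).den_ne_zero
  · intro i j
    have h1 : (∏ i, ∏ j, ((D i j).den : ℤ)) =
        ((D i j).den : ℤ) * (∏ p ∈ (Finset.univ.erase (i, j)), ((D p.1 p.2).den : ℤ)) := by
      rw [← Finset.prod_product', Finset.univ_product_univ,
        ← Finset.mul_prod_erase Finset.univ (fun p : Fin d × Fin d => ((D p.1 p.2).den : ℤ))
          (Finset.mem_univ (i, j))]
    rw [h1]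
    have h2 : ((D i j).den : ℚ) * D i j = (D i j).num := by
      exact_mod_cast Rat.den_mul_eq_num (D i j)
    push_cast
    rw [← h2]; ring

lemma perGroup_finiteIndex {d : ℕ} (Φ : ℝ →ₗ[ℚ] ℚ) (b : Fin d → (Fin d → ℝ))
    (hdet : (Matrix.of fun i j => Φ (b i j)).det ≠ 0) :
    (perGroup Φ (Submodule.span ℤ (Set.range b))).FiniteIndex := by
  classical
  obtain ⟨n, D', hn, hD'⟩ := exists_int_matrix (Matrix.of fun i j => Φ (b i j))
  have hdet' : D'.det ≠ 0 := by
    intro h0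
    have h1 : (D'.map (Int.castRingHom ℚ)).det = 0 := by
      rw [← RingHom.mapMatrix_apply, ← RingHom.map_det, h0, map_zero]
    have h2 : D'.map (Int.castRingHom ℚ) = (n : ℚ) • (Matrix.of fun i j => Φ (b i j)) := by
      ext i j
      simp only [Matrix.map_apply, eq_intCast, Matrix.smul_apply, smul_eq_mul]
      exact hD' i j
    rw [h2, Matrix.det_smul] at h1
    rcases mul_eq_zero.1 h1 with h | h
    · exact pow_ne_zero _ (Int.cast_ne_zero.2 hn) h
    · exact hdet h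
  set δ : ℤ := D'.det with hδ
  have hmul : ∀ w : Fin d → ℤ, δ • w ∈ perGroup Φ (Submodule.span ℤ (Set.range b)) := by
    intro w
    let u : Fin d → ℤ := Matrix.vecMul w D'.adjugate
    have hu : Matrix.vecMul u D' = δ • w := by
      simp only [u]
      rw [Matrix.vecMul_vecMul, Matrix.adjugate_mul, ← hδ, Matrix.vecMul_smul, Matrix.vecMul_one]
    refine ⟨∑ j, (u j * n) • b j, Submodule.sum_mem _ fun j _ =>
      Submodule.smul_mem _ _ (Submodule.subset_span ⟨j, rfl⟩), ?_⟩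
    intro k
    rw [← hu]
    simp only [Finset.sum_apply, Pi.smul_apply, Matrix.vecMul, dotProduct]
    rw [map_sum]
    push_cast
    refine Finset.sum_congr rfl fun j _ => ?_
    rw [map_zsmul, hD' j k, zsmul_eq_mul]
    push_cast
    simp only [Matrix.of_apply]
    ring
  have hδ0 : δ.natAbs ≠ 0 := by simpa using hdet'
  have : NeZero δ.natAbs := ⟨hδ0⟩
  let f : (Fin d → ℤ) →+ (Fin d → ZMod δ.natAbs) :=
    { toFun := fun w k => (w k : ZMod δ.natAbs)
      map_zero' := by funext k; simp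
      map_add' := by intro x y; funext k; simp }
  have : f.ker.FiniteIndex := inferInstance
  refine AddSubgroup.finiteIndex_of_le (H := f.ker) ?_
  intro w hw
  have hw' : ∀ k, (w k : ZMod δ.natAbs) = 0 := fun k => congrFun hw k
  have hdiv : ∀ k, δ ∣ w k := by
    intro k
    have := (ZMod.intCast_zmod_eq_zero_iff_dvd (w k) δ.natAbs).1 (hw' k)
    exact Int.natAbs_dvd.1 this
  choose c hc using hdiv
  have : w = δ • c := by
    funext k
    simpa using hc k
  rw [this]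
  exact hmul c

/-- **Real from integer, negative part.** -/
theorem not_latticePeriodic {d : ℕ} {T : Finset (Fin d → ℤ)}
    (h : ∀ A : Set (Fin d → ℤ), IsTilingBy T A → ¬ IsFullyPeriodic A)
    (B : Set (Fin d → ℝ)) (hB : IsAETilingBy (cubeThickening T) B) : ¬ IsLatticePeriodic B := by
  classical
  rintro ⟨b, hb⟩
  have hM : (Matrix.of fun i j => b i j).det ≠ 0 := by
    have h1 : LinearIndependent ℝ (Matrix.of fun i j => b i j).row := b.linearIndependent
    have h2 := (Matrix.linearIndependent_rows_iff_isUnit).1 h1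
    exact ((Matrix.isUnit_iff_isUnit_det _).1 h2).ne_zero
  obtain ⟨Φ, hΦ1, hΦ⟩ := exists_phi _ hM
  refine h _ (int_tiling hB Φ hΦ1)
    ⟨perGroup Φ (Submodule.span ℤ (Set.range b)), perGroup_finiteIndex Φ b hΦ, ?_⟩
  rintro g ⟨v, hv, hvg⟩ a ⟨x, hx, hxa⟩
  refine ⟨v + x, hb v hv x hx, ?_⟩
  intro k
  simp only [Pi.add_apply]
  rw [hxa k, map_add, hvg k, Int.floor_intCast_add]

/-- **Real from integer, positive part.** -/
theorem exists_ae_tiling {d : ℕ} {T : Finset (Fin d → ℤ)} {A : Set (Fin d → ℤ)}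
    (hA : IsTilingBy T A) :
    IsAETilingBy (cubeThickening T) ((fun (a : Fin d → ℤ) k => (a k : ℝ)) '' A) := by
  have hae : ∀ᵐ x : Fin d → ℝ, ∀ (k : Fin d) (n : ℤ), x k ≠ n := by
    rw [ae_all_iff]
    intro k
    rw [ae_all_iff]
    intro n
    have : (volume : Measure (Fin d → ℝ)) {x | x k = n} = 0 := by
      rw [volume_pi]
      exact Measure.pi_hyperplane (fun _ : Fin d => (volume : Measure ℝ)) k (n : ℝ)
    rw [ae_iff]
    simpa using this
  filter_upwards [hae] with x hx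
  have key : ∀ a z : Fin d → ℤ, (∀ k, (z k : ℝ) ≤ x k - a k ∧ x k - a k ≤ z k + 1) ↔
      a + z = fun k => ⌊x k⌋ := by
    intro a z
    constructor
    · intro h
      funext k
      obtain ⟨h1, h2⟩ := h k
      symm
      rw [Int.floor_eq_iff]
      simp only [Pi.add_apply]
      push_cast
      refine ⟨by linarith, lt_of_le_of_ne (by linarith) ?_⟩
      have := hx k (a k + z k + 1)
      push_cast at this
      exact this
    · intro h k
      have hk := congrFun h k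
      simp only [Pi.add_apply] at hk
      have hk' : (a k : ℝ) + z k = (⌊x k⌋ : ℤ) := by exact_mod_cast hk
      have h1 := Int.floor_le (x k)
      have h2 := Int.lt_floor_add_one (x k)
      constructor <;> linarith
  obtain ⟨⟨a, z⟩, ⟨ha, hz, haz⟩, hu⟩ := hA (fun k => ⌊x k⌋)
  refine ⟨fun k => (a k : ℝ), ⟨⟨a, ha, rfl⟩, z, hz, (key a z).2 haz⟩, ?_⟩
  rintro _ ⟨⟨a', ha', rfl⟩, z', hz', haz'⟩
  have := hu (a', z') ⟨ha', hz', (key a' z').1 haz'⟩
  have h1 : a' = a := congrArg Prod.fst this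
  rw [h1]

/-- **Row 46**: the integer conjuncts imply the real ones, for every finite tile. -/
theorem real_part {d : ℕ} {T : Finset (Fin d → ℤ)}
    (hex : ∃ A : Set (Fin d → ℤ), IsTilingBy T A)
    (h : ∀ A : Set (Fin d → ℤ), IsTilingBy T A → ¬ IsFullyPeriodic A) :
    (∃ B : Set (Fin d → ℝ), IsAETilingBy (cubeThickening T) B) ∧
      ∀ B : Set (Fin d → ℝ), IsAETilingBy (cubeThickening T) B → ¬ IsLatticePeriodic B := by
  obtain ⟨A, hA⟩ := hex
  exact ⟨⟨_, exists_ae_tiling hA⟩, not_latticePeriodic h⟩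

end Crest.Agent.R046.RealPart
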