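import Crest.Agent.R046.Lift
import Crest.Agent.R046.Real
import Crest.Agent.R046.Product

set_option autoImplicit false

/-! Row 46: from component systems and clauses to the statement S0065. -/

namespace Crest.Agent.R046

open Crest.CombinatoricsR.Tiling

/-! ### cyclicity of the product of the fibres -/

theorem exists_generator (H : Type*) [AddCommGroup H] [IsAddCyclic H] :
    ∃ g : H, ∀ h : H, ∃ n : ℤ, n • g = h := by
  obtain ⟨g, hg⟩ := IsAddCyclic.exists_generator (α := H)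
  exact ⟨g, fun h => AddSubgroup.mem_zmultiples_iff.1 (hg h)⟩

theorem isAddCyclic_pi {I : Type*} [Fintype I] {H : I → Type*} [∀ i, AddCommGroup (H i)]
    [∀ i, Fintype (H i)] [∀ i, IsAddCyclic (H i)]
    (hco : Pairwise fun i j => Nat.Coprime (Fintype.card (H i)) (Fintype.card (H j))) :
    IsAddCyclic (∀ i, H i) := by
  classical
  choose g hg using fun i => exists_generator (H i)
  refine ⟨⟨g, fun h => ?_⟩⟩
  choose n hn using fun i => hg i (h i)
  -- Chinese remainder theorem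
  have hcop : Pairwise fun i j => IsCoprime ((Fintype.card (H i) : ℤ)) (Fintype.card (H j) : ℤ) :=
    fun i j hij => Nat.isCoprime_iff_coprime.2 (hco hij)
  obtain ⟨m, hm⟩ : ∃ m : ℤ, ∀ i, (Fintype.card (H i) : ℤ) ∣ m - n i := by
    have hI : Pairwise fun i j => IsCoprime (Ideal.span {(Fintype.card (H i) : ℤ)})
        (Ideal.span {(Fintype.card (H j) : ℤ)}) :=
      fun i j hij => (Ideal.isCoprime_span_singleton_iff _ _).2 (hcop hij)
    obtain ⟨m, hm⟩ := Ideal.exists_forall_sub_mem_ideal hI n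
    exact ⟨m, fun i => Ideal.mem_span_singleton.1 (hm i)⟩
  refine ⟨m, ?_⟩
  show m • g = h
  funext i
  obtain ⟨k, hk⟩ := hm i
  have h1 : m = n i + Fintype.card (H i) * k := by linarith
  rw [Pi.smul_apply, h1, add_smul, hn i, mul_comm, mul_smul]
  have : (Fintype.card (H i) : ℤ) • g i = 0 := by
    rw [natCast_zsmul]
    exact card_nsmul_eq_zero
  rw [this, smul_zero, add_zero]

/-! ### merging for `ℤ² × H`, `H` cyclic -/

/-- the projection `ℤ³ → ℤ² × H` -/
def projH {H : Type*} [AddCommGroup H] (g : H) : Z3 →+ (ℤ × ℤ) × H where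
  toFun x := ((x 0, x 1), x 2 • g)
  map_zero' := by simp
  map_add' x y := by simp [add_smul]

theorem merge_cyclic {H : Type*} [AddCommGroup H] [IsAddCyclic H] {ι : Type*} [Finite ι]
    (F : ι → Finset ((ℤ × ℤ) × H)) (hne : ∃ i, (F i).Nonempty)
    (hex : ∃ A, ∀ i, IsTilingBy (F i) A)
    (hnp : ∀ A, (∀ i, IsTilingBy (F i) A) → ¬ IsFullyPeriodic A) : MergedConclusion := by
  obtain ⟨g, hg⟩ := exists_generator H
  refine merge_quot (projH g) ?_ (w := Pi.single 2 (addOrderOf g : ℤ)) ?_ ?_ F hne hex hnp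
  · rintro ⟨⟨a, b⟩, c⟩
    obtain ⟨z, rfl⟩ := hg c
    exact ⟨![a, b, z], rfl⟩
  · simp [projH]
  · intro x hx
    simp only [projH, AddMonoidHom.coe_mk, ZeroHom.coe_mk, Prod.mk_eq_zero] at hx
    obtain ⟨⟨h0, h1⟩, h2⟩ := hx
    rw [← addOrderOf_dvd_iff_zsmul_eq_zero] at h2
    obtain ⟨n, hn⟩ := h2
    refine ⟨n, ?_⟩
    funext j
    fin_cases j
    · simpa using h0
    · simpa using h1
    · simp only [Fin.reduceFinMk, Pi.smul_apply, Pi.single_eq_same, smul_eq_mul]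
      rw [hn]; ring

/-! ### periods -/

theorem exists_period {H : Type*} [AddCommGroup H] {A : Set ((ℤ × ℤ) × H)}
    (h : IsFullyPeriodic A) : ∃ N : ℕ, 0 < N ∧ ∀ (b v : ℤ × ℤ) (x : H),
      (b, x) ∈ A ↔ (b + (N : ℤ) • v, x) ∈ A := by
  obtain ⟨K, hK, hper⟩ := h
  refine ⟨K.index, Nat.pos_of_ne_zero hK.index_ne_zero, ?_⟩
  have key : ∀ (b v : ℤ × ℤ) (x : H), (b, x) ∈ A → (b + (K.index : ℤ) • v, x) ∈ A := by
    intro b v x hb
    have h1 : K.index • ((v, 0) : (ℤ × ℤ) × H) ∈ K := K.nsmul_index_mem _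
    have h2 := hper _ h1 _ hb
    convert h2 using 1
    rw [← natCast_zsmul]
    ext <;> simp [add_comm]
  intro b v x
  refine ⟨key b v x, fun hb => ?_⟩
  have := key _ (-v) x hb
  convert this using 2
  simp

theorem exists_period_fprod {I : Type*} [Fintype I] {H : I → Type*} [∀ i, AddCommGroup (H i)]
    {T : ∀ i, Finset (H i)} {A : ∀ i, Set ((ℤ × ℤ) × H i)} (hT : ∀ i, Transv (T i) (A i))
    (h : IsFullyPeriodic (fprod A)) : ∃ N : ℕ, 0 < N ∧ ∀ i (b v : ℤ × ℤ) (x : H i),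
      (b, x) ∈ A i ↔ (b + (N : ℤ) • v, x) ∈ A i := by
  classical
  obtain ⟨N, hN, hper⟩ := exists_period h
  refine ⟨N, hN, ?_⟩
  have key : ∀ i (b v : ℤ × ℤ) (x : H i), (b, x) ∈ A i → (b + (N : ℤ) • v, x) ∈ A i := by
    intro i b v x hx
    choose t ht _ using hT
    let y : ∀ j, H j := Function.update (fun j => 0 - t j b 0) i x
    have hy : (b, y) ∈ fprod A := by
      rw [mem_fprod]
      intro j
      by_cases hj : j = i
      · subst hj
        simpa [y] using hx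
      · simp only [y, Function.update_of_ne hj]
        exact (ht j b 0).2
    have h1 := (hper b v y).1 hy
    rw [mem_fprod] at h1
    have h2 := h1 i
    simpa [y] using h2
  intro i b v x
  refine ⟨key i b v x, fun hb => ?_⟩
  have := key i _ (-v) x hb
  convert this using 2
  simp

/-! ### the statement from components and clauses -/

theorem s0065_of_components {I : Type} [Fintype I] [DecidableEq I] [Nonempty I] {H : I → Type}
    [∀ i, AddCommGroup (H i)] [∀ i, Fintype (H i)] [∀ i, DecidableEq (H i)]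
    [∀ i, IsAddCyclic (H i)]
    (hco : Pairwise fun i j => Nat.Coprime (Fintype.card (H i)) (Fintype.card (H j)))
    (T : ∀ i, Finset (H i)) (h0 : ∀ i, 0 ∈ T i)
    {κ : I → Type} [∀ i, Finite (κ i)] (S : ∀ i, κ i → Finset ((ℤ × ℤ) × H i))
    {γ : Type} [Finite γ] (C : γ → Finset ((ℤ × ℤ) × ∀ i, H i))
    (hex : ∃ A : ∀ i, Set ((ℤ × ℤ) × H i), (∀ i, Transv (T i) (A i)) ∧
      (∀ i k, IsTilingBy (S i k) (A i)) ∧ ∀ c, IsTilingBy (C c) (fprod A))
    (hno : ∀ A : ∀ i, Set ((ℤ × ℤ) × H i), (∀ i, Transv (T i) (A i)) →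
      (∀ i k, IsTilingBy (S i k) (A i)) → (∀ c, IsTilingBy (C c) (fprod A)) →
      ∀ N : ℕ, 0 < N → (∀ i (b v : ℤ × ℤ) (x : H i),
        (b, x) ∈ A i ↔ (b + (N : ℤ) • v, x) ∈ A i) → False) :
    ∃ T : Finset (Fin 3 → ℤ), T.Nonempty ∧
      (∃ A : Set (Fin 3 → ℤ), IsTilingBy T A) ∧
      (∀ A : Set (Fin 3 → ℤ), IsTilingBy T A → ¬ IsFullyPeriodic A) ∧
      (∃ B : Set (Fin 3 → ℝ), IsAETilingBy (cubeThickening T) B) ∧
      ∀ B : Set (Fin 3 → ℝ), IsAETilingBy (cubeThickening T) B → ¬ IsLatticePeriodic B := by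
  have : IsAddCyclic (∀ i, H i) := isAddCyclic_pi hco
  let F : (I × (∀ i, H i)) ⊕ ((Σ i, κ i) ⊕ γ) → Finset ((ℤ × ℤ) × ∀ i, H i) :=
    Sum.elim (fun p => indTile T p.1 p.2) (Sum.elim (fun p => extTile T p.1 (S p.1 p.2)) C)
  have hmain : MergedConclusion := by
    refine merge_cyclic F ?_ ?_ ?_
    · obtain ⟨i⟩ := ‹Nonempty I›
      refine ⟨Sum.inl (i, 0), ⟨(0, 0), mem_indTile.2 ⟨rfl, Or.inr ⟨rfl, fun j _ => ?_⟩⟩⟩⟩
      simpa using h0 j
    · obtain ⟨A, hT, hS, hC⟩ := hex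
      refine ⟨fprod A, ?_⟩
      rintro (⟨i, s⟩ | ⟨i, k⟩ | c)
      · exact tiles_ind hT h0 i s
      · exact (tiles_ext_iff hT i _).2 (hS i k)
      · exact hC c
    · intro A hA hper
      obtain ⟨A', hT, rfl⟩ := exists_fprod h0 (A := A) (fun i s => hA (Sum.inl (i, s)))
      obtain ⟨N, hN, hN'⟩ := exists_period_fprod hT hper
      exact hno A' hT (fun i k => (tiles_ext_iff hT i _).1 (hA (Sum.inr (Sum.inl ⟨i, k⟩))))
        (fun c => hA (Sum.inr (Sum.inr c))) N hN hN'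
  obtain ⟨T, h1, h2, h3, -⟩ := hmain
  exact ⟨T, h1, h2, h3, RealPart.real_part h2 h3⟩

end Crest.Agent.R046
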