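import Mathlib
import Crest.Prelude.Def_Tiling

/-! Row 46 (S0065): FROZEN INTERFACE (helper527).

`CompStmt`   : one component (COMP group).
`DesignStmt` : components + clauses give S0065 as soon as the clause system has a true model and no
               fully periodic model (DESIGN group).
`NoModelStmt`, `TrueModelStmt`, `ParamStmt` : the concrete design (LOGIC group).
`main_of`    : everything together. -/

set_option autoImplicit false

namespace Crest.Agent.R046.Iface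

open Crest.CombinatoricsR.Tiling

/-! ### Components -/

/-- fibre group of a component with role number `p` and label moduli `r`. -/
abbrev CG (p : ℕ) {S : Type} (r : S → ℕ) := ZMod (p ^ 3) × (∀ a : S, ZMod (r a))

/-- the role of a fibre element. -/
def role (p : ℕ) : ZMod (p ^ 3) →+* ZMod p := ZMod.castHom (dvd_pow_self p three_ne_zero) (ZMod p)

/-- at the base point `v` the `g`-labels of the points are not all equal. `lab g h` is the
`g`-label of the fibre element `h`. -/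
def Bad {H S : Type} {L : S → Type} (lab : ∀ g, H → L g) (A : Set ((ℤ × ℤ) × H)) (v : ℤ × ℤ)
    (g : S) : Prop :=
  ∃ h h' : H, (v, h) ∈ A ∧ (v, h') ∈ A ∧ lab g h ≠ lab g h'

/-- **COMPONENT THEOREM.** Line coordinates `(ℓ, t)`.  The fibre group is
`ZMod (p^3) × ∏_{a : Option S} ZMod (r a)`; the label `r none` is internal. -/
def CompStmt : Prop :=
  ∀ (p : ℕ), 2 ≤ p → ∀ (S : Type) (_ : Fintype S) (_ : DecidableEq S) (_ : Nonempty S)
    (r : Option S → ℕ), (∀ a, 3 ≤ r a) → (∀ a b, a ≠ b → (r a).Coprime (r b)) →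
    (∀ a, p.Coprime (r a)) → ∀ (rigid : Prop),
    ∃ C : Set (Finset ((ℤ × ℤ) × CG p r)), C.Finite ∧
      -- forced
      (∀ A : Set ((ℤ × ℤ) × CG p r), (∀ F ∈ C, IsTilingBy F A) →
        (∀ v (ρ : ZMod p), ∃! h : CG p r, (v, h) ∈ A ∧ role p h.1 = ρ) ∧
        ∃ τ : ℤ → ℤ, (rigid → ∀ ℓ, τ ℓ = τ 0) ∧
          ∀ ℓ, ∃ (g : S) (h : ℤ), ∀ t : ℤ, t ≡ τ ℓ [ZMOD (p : ℤ) ^ 2] →
            ¬ t ≡ h [ZMOD (r (some g) : ℤ)] →
            Bad (fun (a : Option S) (x : CG p r) => x.2 a) A (ℓ, t) (some g)) ∧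
      -- truth
      (∀ (lam : ℤ → S) (h o : ℤ → ℤ), (rigid → ∀ ℓ, o ℓ = 0) →
        ∃ A : Set ((ℤ × ℤ) × CG p r), (∀ F ∈ C, IsTilingBy F A) ∧
          ∀ ℓ t (g : S), Bad (fun (a : Option S) (x : CG p r) => x.2 a) A (ℓ, t) (some g) →
            lam ℓ = g ∧ ¬ t ≡ h ℓ [ZMOD (r (some g) : ℤ)] ∧
              ∃ j : ℤ, j ≠ 0 ∧ |j| < p ∧ t ≡ o ℓ + j [ZMOD (p : ℤ) ^ 2])

/-! ### The design: components, directions and clauses -/

/-- parameters of a design with `n` components and letters `S`. -/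
structure Par (n : ℕ) (S : Type) where
  /-- role numbers -/
  p : Fin n → ℕ
  /-- label moduli (`none` is internal) -/
  r : Fin n → Option S → ℕ
  /-- is the component rigid? -/
  rigid : Fin n → Prop
  /-- `(x, y) ↦ (line, position)` -/
  φ : Fin n → (ℤ × ℤ) ≃+ (ℤ × ℤ)
  /-- the forbidden conjunctions: `(J, a)` forbids `∀ i ∈ J, bad i (a i) v` -/
  CL : Set (Finset (Fin n) × (Fin n → S))

/-- admissible parameters. -/
structure Par.Good {n : ℕ} {S : Type} (P : Par n S) : Prop where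
  hp : ∀ i, 2 ≤ P.p i
  hr : ∀ i a, 3 ≤ P.r i a
  hpp : ∀ i j, i ≠ j → (P.p i).Coprime (P.p j)
  hpr : ∀ i j a, (P.p i).Coprime (P.r j a)
  hrr : ∀ i j a b, (i ≠ j ∨ a ≠ b) → (P.r i a).Coprime (P.r j b)
  hJ : ∀ c ∈ P.CL, c.1.Nonempty

/-- the consequences of being a solution, at the level of the bad-predicates
(`bad i g v`: component `i` is bad for the letter `g` at the point `v`). -/
structure Model {n : ℕ} {S : Type} (P : Par n S) (bad : Fin n → S → ℤ × ℤ → Prop) : Prop where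
  forced : ∀ i, ∃ τ : ℤ → ℤ, (P.rigid i → ∀ ℓ, τ ℓ = τ 0) ∧
    ∀ ℓ, ∃ (g : S) (h : ℤ), ∀ t : ℤ, t ≡ τ ℓ [ZMOD (P.p i : ℤ) ^ 2] →
      ¬ t ≡ h [ZMOD (P.r i (some g) : ℤ)] → bad i g ((P.φ i).symm (ℓ, t))
  clause : ∀ c ∈ P.CL, ∀ v, ∃ i ∈ c.1, ¬ bad i (c.2 i) v

/-- the bad-predicate of the intended solution with letters `lam`, hole positions `h`, offsets `o`
(an upper bound for the true one). -/
def TBad {n : ℕ} {S : Type} (P : Par n S) (lam : Fin n → ℤ → S) (h o : Fin n → ℤ → ℤ)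
    (i : Fin n) (g : S) (v : ℤ × ℤ) : Prop :=
  lam i (P.φ i v).1 = g ∧ ¬ (P.φ i v).2 ≡ h i (P.φ i v).1 [ZMOD (P.r i (some g) : ℤ)] ∧
    ∃ j : ℤ, j ≠ 0 ∧ |j| < P.p i ∧ (P.φ i v).2 ≡ o i (P.φ i v).1 + j [ZMOD (P.p i : ℤ) ^ 2]

/-- no model is periodic. -/
def NoPeriodicModel {n : ℕ} {S : Type} (P : Par n S) : Prop :=
  ∀ (M : ℕ) (bad : Fin n → S → ℤ × ℤ → Prop), 0 < M →
    (∀ i g v u, bad i g (v + (M : ℤ) • u) ↔ bad i g v) → Model P bad → False

/-- there is a true model. -/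
def TrueModel {n : ℕ} {S : Type} (P : Par n S) : Prop :=
  ∃ (lam : Fin n → ℤ → S) (h o : Fin n → ℤ → ℤ), (∀ i, P.rigid i → ∀ ℓ, o i ℓ = 0) ∧
    ∀ c ∈ P.CL, ∀ v, ∃ i ∈ c.1, ¬ TBad P lam h o i (c.2 i) v

/-- the conclusion S0065. -/
def Concl : Prop :=
  ∃ T : Finset (Fin 3 → ℤ), T.Nonempty ∧
    (∃ A : Set (Fin 3 → ℤ), IsTilingBy T A) ∧
    (∀ A : Set (Fin 3 → ℤ), IsTilingBy T A → ¬ IsFullyPeriodic A) ∧
    (∃ B : Set (Fin 3 → ℝ), IsAETilingBy (cubeThickening T) B) ∧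
    ∀ B : Set (Fin 3 → ℝ), IsAETilingBy (cubeThickening T) B → ¬ IsLatticePeriodic B

/-- **DESIGN THEOREM.** (From `CompStmt`, `Product`, `Clause`, `Final`.) -/
def DesignStmt : Prop :=
  ∀ (n : ℕ) (_ : NeZero n) (S : Type) (_ : Fintype S) (_ : DecidableEq S) (_ : Nonempty S)
    (P : Par n S), P.Good → NoPeriodicModel P → TrueModel P → Concl

/-! ### The concrete design -/

/-- admissible letters `(χ, f, b)`. -/
abbrev Letter : Type := {l : ZMod 8 × ZMod 8 × Bool // l.2.1 ≠ 0 ∧ (l.1 ≠ 0 → l.2.1 = l.1)}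

namespace Letter
/-- clock -/
def chi (l : Letter) : ZMod 8 := l.1.1
/-- digit -/
def f (l : Letter) : ZMod 8 := l.1.2.1
/-- extra bit -/
def b (l : Letter) : Bool := l.1.2.2
end Letter

/-- the sudoku relation between the digits `s` of `F`, `e` of `E`, `k` of `K`, `g` of `G`. -/
def Rel (s e k g : ZMod 8) : Prop :=
  (k = e → g = s + e ∨ g = e ∨ s + e = 0) ∧ (g = s → k = s + e ∨ k = s ∨ s + e = 0)

/-- parity of a residue mod 8: `true` iff odd. -/
def par (a : ZMod 8) : Bool := a.val % 2 == 1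

/-- linear coordinate changes. -/
def phiF : (ℤ × ℤ) ≃+ (ℤ × ℤ) := AddEquiv.refl _

/-- line `y`, position `x`. -/
def phiE : (ℤ × ℤ) ≃+ (ℤ × ℤ) := AddEquiv.prodComm

/-- line `x + y`, position `x`. -/
def phiK : (ℤ × ℤ) ≃+ (ℤ × ℤ) where
  toFun v := (v.1 + v.2, v.1)
  invFun v := (v.2, v.1 - v.2)
  left_inv v := by ext <;> simp
  right_inv v := by ext <;> simp
  map_add' v w := by ext <;> simp <;> ring

/-- line `x + 8 y`, position `-y`. -/
def phiG : (ℤ × ℤ) ≃+ (ℤ × ℤ) where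
  toFun v := (v.1 + 8 * v.2, -v.2)
  invFun v := (v.1 + 8 * v.2, -v.2)
  left_inv v := by ext <;> simp
  right_inv v := by ext <;> simp
  map_add' v w := by ext <;> simp <;> ring

/-- coordinates of the ten components: 0 F, 1 E, 2 K, 3 G, 4..7 hole gates of 0..3 (line and
position exchanged), 8 u (line `y`, position `x`), 9 w (line `x`, position `y`). -/
def phi10 : Fin 10 → (ℤ × ℤ) ≃+ (ℤ × ℤ) :=
  ![phiF, phiE, phiK, phiG,
    phiF.trans AddEquiv.prodComm, phiE.trans AddEquiv.prodComm,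
    phiK.trans AddEquiv.prodComm, phiG.trans AddEquiv.prodComm,
    phiE, phiF]

/-- the forbidden conjunctions. -/
inductive Forb : Finset (Fin 10) × (Fin 10 → Letter) → Prop
  /-- Cauchy relation `χ_F(x) + χ_E(y) = χ_K(x+y)`. -/
  | cauchy (a : Fin 10 → Letter) : (a 0).chi + (a 1).chi ≠ (a 2).chi → Forb ({0, 1, 2}, a)
  /-- sudoku relation. -/
  | rel (a : Fin 10 → Letter) : ¬ Rel (a 0).f (a 1).f (a 2).f (a 3).f → Forb ({0, 1, 2, 3}, a)
  /-- `u` bad ⇒ parity of `χ_F(x)` is `b(y)`. -/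
  | paru (a : Fin 10 → Letter) : par (a 0).chi ≠ (a 1).b → Forb ({0, 1, 8}, a)
  /-- `w` bad ⇒ parity of `χ_F(x)` is not `b(y)`. -/
  | parw (a : Fin 10 → Letter) : par (a 0).chi = (a 1).b → Forb ({0, 1, 9}, a)
  /-- hole gates: gate `i+4` bad ⇒ component `i` not bad. -/
  | hole (i : Fin 4) (a : Fin 10 → Letter) :
      Forb ({Fin.castLE (by norm_num) i, Fin.natAdd 4 (Fin.castLE (by norm_num : 4 ≤ 6) i)}, a)

/-- the concrete design for given numerical parameters. -/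
def par10 (p : Fin 10 → ℕ) (r : Fin 10 → Option Letter → ℕ) : Par 10 Letter where
  p := p
  r := r
  rigid := fun i => i.1 < 4
  φ := phi10
  CL := {c | Forb c}

/-- numerical conditions on the parameters. -/
structure Num (p : Fin 10 → ℕ) (r : Fin 10 → Option Letter → ℕ) : Prop where
  hp : ∀ i, 2 ≤ p i
  hr : ∀ i a, 3 ≤ r i a
  hpp : ∀ i j, i ≠ j → (p i).Coprime (p j)
  hpr : ∀ i j a, (p i).Coprime (r j a)
  hrr : ∀ i j a b, (i ≠ j ∨ a ≠ b) → (r i a).Coprime (r j b)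
  hu : p 8 = 2
  hw : p 9 = 5
  /-- the hole gate of the component `i` has a large role number. -/
  hQ : ∀ i : Fin 4, 2 * ∏ a : Letter, r (Fin.castLE (by norm_num) i) (some a) ≤
    p (Fin.natAdd 4 (Fin.castLE (by norm_num : 4 ≤ 6) i))

/-- **PARAMETERS.** -/
def ParamStmt : Prop := ∃ p r, Num p r

/-- **NO PERIODIC MODEL** (extraction on the cells, Cauchy, parity, exact sudoku). -/
def NoModelStmt : Prop := ∀ p r, Num p r → NoPeriodicModel (par10 p r)

/-- **TRUE MODEL.** -/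
def TrueModelStmt : Prop := ∀ p r, Num p r → TrueModel (par10 p r)

theorem forb_nonempty {c : Finset (Fin 10) × (Fin 10 → Letter)} (h : Forb c) : c.1.Nonempty := by
  rcases h with _ | _ | _ | _ | _ <;> simp

theorem par10_good {p : Fin 10 → ℕ} {r : Fin 10 → Option Letter → ℕ} (h : Num p r) :
    (par10 p r).Good :=
  ⟨h.hp, h.hr, h.hpp, h.hpr, h.hrr, fun _ hc => forb_nonempty hc⟩

instance : Nonempty Letter := ⟨⟨(1, 1, true), by decide⟩⟩

/-- everything together. -/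
theorem main_of (hD : DesignStmt) (hP : ParamStmt) (hN : NoModelStmt) (hT : TrueModelStmt) :
    Concl := by
  obtain ⟨p, r, h⟩ := hP
  exact hD 10 inferInstance Letter inferInstance inferInstance inferInstance (par10 p r)
    (par10_good h) (hN p r h) (hT p r h)

end Crest.Agent.R046.Iface
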