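import Crest.Agent.R046.Merge

set_option autoImplicit false

/-! Row 46: from a system of tile equations in a quotient `ℤ³ / ⟨w⟩` to one tile in `ℤ³`. -/

namespace Crest.Agent.R046

open Crest.CombinatoricsR.Tiling

section lift

variable {G : Type*} [AddCommGroup G] (π : Z3 →+ G)

open Classical in
/-- the lift of a tile along a section -/
noncomputable def liftTile (s : G → Z3) (F : Finset G) : Finset Z3 := F.image s

theorem mem_liftTile {s : G → Z3} {F : Finset G} {t : Z3} :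
    t ∈ liftTile s F ↔ ∃ f ∈ F, s f = t := by
  classical
  unfold liftTile
  exact Finset.mem_image

theorem isTilingBy_lift {s : G → Z3} (hs : ∀ g, π (s g) = g) {F : Finset G} {A : Set G}
    (h : IsTilingBy F A) : IsTilingBy (liftTile s F) (π ⁻¹' A) := by
  intro x
  obtain ⟨⟨a, f⟩, ⟨ha, hf, haf⟩, huniq⟩ := h (π x)
  simp only at ha hf haf
  refine ⟨(x - s f, s f), ⟨?_, mem_liftTile.2 ⟨f, hf, rfl⟩, by simp⟩, ?_⟩
  · show π (x - s f) ∈ A
    rw [map_sub, hs, ← haf]; simpa using ha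
  · rintro ⟨a', t'⟩ ⟨ha', ht', hat'⟩
    obtain ⟨f', hf', rfl⟩ := mem_liftTile.1 ht'
    simp only at ha' hat'
    have h1 := huniq (π a', f') ⟨ha', hf', by
      simp only
      rw [← hat', map_add, hs]⟩
    simp only [Prod.mk.injEq] at h1
    obtain ⟨-, h2⟩ := h1
    subst h2
    have h3 : a' = x - s f' := by rw [← hat']; abel
    rw [h3]

theorem isTilingBy_push {w : Z3} (hw : π w = 0) (hker : ∀ x, π x = 0 → ∃ n : ℤ, x = n • w)
    (hπ : Function.Surjective π)
    {s : G → Z3} (hs : ∀ g, π (s g) = g) {F : Finset G} {A : Set Z3}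
    (hA : ∀ a ∈ A, ∀ n : ℤ, a + n • w ∈ A) (h : IsTilingBy (liftTile s F) A) :
    IsTilingBy F (π '' A) := by
  intro g
  obtain ⟨x, rfl⟩ := hπ g
  obtain ⟨⟨a, t⟩, ⟨ha, ht, hat⟩, huniq⟩ := h x
  obtain ⟨f, hf, rfl⟩ := mem_liftTile.1 ht
  simp only at ha hat
  refine ⟨(π a, f), ⟨⟨a, ha, rfl⟩, hf, ?_⟩, ?_⟩
  · show π a + f = π x
    rw [← hat, map_add, hs]
  · rintro ⟨a', f'⟩ ⟨⟨b, hb, hb'⟩, hf', hat'⟩
    simp only at hb' hf' hat'
    subst hb'
    have h1 : π (x - (b + s f')) = 0 := by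
      rw [map_sub, map_add, hs, hat', sub_self]
    obtain ⟨n, hn⟩ := hker _ h1
    have h2 := huniq (b + n • w, s f') ⟨hA b hb n, mem_liftTile.2 ⟨f', hf', rfl⟩, by
      simp only
      rw [← hn]; abel⟩
    simp only [Prod.mk.injEq] at h2
    obtain ⟨h3, h4⟩ := h2
    have h5 : f' = f := by rw [← hs f', h4, hs]
    have h6 : π b = π a := by rw [← h3, map_add, map_zsmul, hw]; simp
    rw [h5, h6]

/-- two sections that differ at one element by `w` force invariance under `w`. -/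
theorem invariant_of_two {w : Z3} {s : G → Z3} (hs : ∀ g, π (s g) = g) (hw : π w = 0)
    {s' : G → Z3} {f0 : G} (hs'0 : s' f0 = s f0 + w) (hs' : ∀ g, g ≠ f0 → s' g = s g)
    {F : Finset G} (hf0 : f0 ∈ F) {A : Set Z3}
    (h : IsTilingBy (liftTile s F) A) (h' : IsTilingBy (liftTile s' F) A) :
    ∀ a ∈ A, ∀ n : ℤ, a + n • w ∈ A := by
  have hplus : ∀ a ∈ A, a + w ∈ A := by
    intro a ha
    obtain ⟨⟨b, t⟩, ⟨hb, ht, hbt⟩, -⟩ := h (a + s f0 + w)
    obtain ⟨f, hf, rfl⟩ := mem_liftTile.1 ht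
    simp only at hb hbt
    by_cases hff : f = f0
    · subst hff
      have : b = a + w := by
        have := eq_sub_of_add_eq hbt
        rw [this]; abel
      rwa [← this]
    · exfalso
      obtain ⟨q, -, huniq⟩ := h' (a + s f0 + w)
      have e1 := huniq (b, s f) ⟨hb, mem_liftTile.2 ⟨f, hf, hs' f hff⟩, hbt⟩
      have e2 := huniq (a, s f0 + w) ⟨ha, mem_liftTile.2 ⟨f0, hf0, hs'0⟩, by simp only; abel⟩
      have e3 : s f = s f0 + w := by
        have := e1.trans e2.symm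
        simp only [Prod.mk.injEq] at this
        exact this.2
      apply hff
      rw [← hs f, e3, map_add, hw, hs, add_zero]
  have hminus : ∀ a ∈ A, a - w ∈ A := by
    intro a ha
    obtain ⟨⟨b, t⟩, ⟨hb, ht, hbt⟩, -⟩ := h' (a + s f0)
    obtain ⟨f, hf, rfl⟩ := mem_liftTile.1 ht
    simp only at hb hbt
    by_cases hff : f = f0
    · subst hff
      rw [hs'0] at hbt
      have : b = a - w := by
        have := eq_sub_of_add_eq hbt
        rw [this]; abel
      rwa [← this]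
    · exfalso
      rw [hs' f hff] at hbt
      obtain ⟨q, -, huniq⟩ := h (a + s f0)
      have e1 := huniq (b, s f) ⟨hb, mem_liftTile.2 ⟨f, hf, rfl⟩, hbt⟩
      have e2 := huniq (a, s f0) ⟨ha, mem_liftTile.2 ⟨f0, hf0, rfl⟩, rfl⟩
      have e3 : s f = s f0 := by
        have := e1.trans e2.symm
        simp only [Prod.mk.injEq] at this
        exact this.2
      apply hff
      rw [← hs f, e3, hs]
  intro a ha n
  induction n using Int.induction_on with
  | zero => simpa using ha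
  | succ n ih =>
    have := hplus _ ih
    have e : a + (n : ℤ) • w + w = a + ((n : ℤ) + 1) • w := by rw [add_smul, one_smul]; abel
    rwa [e] at this
  | pred n ih =>
    have := hminus _ ih
    have e : a + (-(n : ℤ)) • w - w = a + (-(n : ℤ) - 1) • w := by rw [sub_smul, one_smul]; abel
    rwa [e] at this

theorem isFullyPeriodic_push (hπ : Function.Surjective π) {A : Set Z3} (h : IsFullyPeriodic A) :
    IsFullyPeriodic (π '' A) := by
  obtain ⟨H, hH, hper⟩ := h
  refine ⟨H.map π, ⟨?_⟩, ?_⟩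
  · exact ne_zero_of_dvd_ne_zero hH.index_ne_zero (H.index_map_dvd hπ)
  · rintro _ ⟨h, hh, rfl⟩ _ ⟨a, ha, rfl⟩
    exact ⟨h + a, hper h hh a ha, by simp⟩

/-- The conclusion of the merging theorem. -/
def MergedConclusion : Prop :=
  ∃ T : Finset Z3, T.Nonempty ∧ (∃ A, IsTilingBy T A) ∧
      (∀ A, IsTilingBy T A → ¬ IsFullyPeriodic A) ∧
      ∃ M : ℕ, 2 ≤ M ∧ ∀ A, IsTilingBy T A → ∀ a ∈ A, ∀ b ∈ A, ∀ i, (M : ℤ) ∣ a i - b i

/-- **Merging theorem for a quotient of `ℤ³` by a cyclic group.** -/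
theorem merge_quot (hπ : Function.Surjective π) {w : Z3} (hw : π w = 0)
    (hker : ∀ x, π x = 0 → ∃ n : ℤ, x = n • w) {ι : Type*} [Finite ι]
    (F : ι → Finset G) (hne : ∃ i, (F i).Nonempty)
    (hex : ∃ A, ∀ i, IsTilingBy (F i) A)
    (hnp : ∀ A, (∀ i, IsTilingBy (F i) A) → ¬ IsFullyPeriodic A) : MergedConclusion := by
  classical
  obtain ⟨m, ⟨e⟩⟩ := Finite.exists_equiv_fin ι
  obtain ⟨i0, f0, hf0⟩ := hne
  let s : G → Z3 := Function.surjInv hπ
  have hs : ∀ g, π (s g) = g := Function.surjInv_eq hπ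
  let s' : G → Z3 := Function.update s f0 (s f0 + w)
  have hs'0 : s' f0 = s f0 + w := Function.update_self _ _ _
  have hs'1 : ∀ g, g ≠ f0 → s' g = s g := fun g hg => Function.update_of_ne hg _ _
  have hs' : ∀ g, π (s' g) = g := by
    intro g
    by_cases hg : g = f0
    · rw [hg, hs'0, map_add, hs, hw, add_zero]
    · rw [hs'1 g hg, hs]
  refine merge (liftTile s' (F i0)) (fun i : Fin m => liftTile s (F (e.symm i)))
    ⟨s' f0, mem_liftTile.2 ⟨f0, hf0, rfl⟩⟩ ?_ ?_
  · obtain ⟨A, hA⟩ := hex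
    exact ⟨π ⁻¹' A, isTilingBy_lift π hs' (hA i0), fun i => isTilingBy_lift π hs (hA _)⟩
  · intro A h0 hA hper
    have hAall : ∀ i, IsTilingBy (liftTile s (F i)) A := by
      intro i
      have := hA (e i)
      simpa using this
    have hinv := invariant_of_two π hs hw hs'0 hs'1 hf0 (hAall i0) h0
    exact hnp (π '' A) (fun i => isTilingBy_push π hw hker hπ hs hinv (hAall i))
      (isFullyPeriodic_push π hπ hper)

end lift

/-- the projection `ℤ³ → ℤ × ℤ × ZMod N` -/
def projN (N : ℕ) : Z3 →+ ℤ × ℤ × ZMod N where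
  toFun x := (x 0, x 1, (x 2 : ZMod N))
  map_zero' := by simp
  map_add' x y := by simp

/-- **Merging theorem for systems in `ℤ² × ZMod N`.** -/
theorem merge_zmod (N : ℕ) {ι : Type*} [Finite ι]
    (F : ι → Finset (ℤ × ℤ × ZMod N)) (hne : ∃ i, (F i).Nonempty)
    (hex : ∃ A, ∀ i, IsTilingBy (F i) A)
    (hnp : ∀ A, (∀ i, IsTilingBy (F i) A) → ¬ IsFullyPeriodic A) : MergedConclusion := by
  refine merge_quot (projN N) ?_ (w := Pi.single 2 (N : ℤ)) ?_ ?_ F hne hex hnp
  · rintro ⟨a, b, c⟩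
    obtain ⟨z, rfl⟩ := ZMod.intCast_surjective c
    exact ⟨![a, b, z], rfl⟩
  · simp [projN]
  · intro x hx
    simp only [projN, AddMonoidHom.coe_mk, ZeroHom.coe_mk, Prod.mk_eq_zero] at hx
    obtain ⟨h0, h1, h2⟩ := hx
    rw [ZMod.intCast_zmod_eq_zero_iff_dvd] at h2
    obtain ⟨n, hn⟩ := h2
    refine ⟨n, ?_⟩
    funext j
    fin_cases j
    · simpa using h0
    · simpa using h1
    · simp only [Fin.reduceFinMk, Pi.smul_apply, Pi.single_eq_same, smul_eq_mul]
      rw [hn]; ring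

end Crest.Agent.R046
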