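import Crest.Prelude.Def_Tiling

set_option autoImplicit false

/-! Row 46: merging a finite system of tile equations in `ℤ³` into one tile. -/

namespace Crest.Agent.R046

open Crest.CombinatoricsR.Tiling

/-- the group `ℤ³`. -/
abbrev Z3 := Fin 3 → ℤ

/-! ### The pieces of the cube -/

/-- the box around the `i`-th bubble -/
def inBox (i : ℕ) (u : Z3) : Prop :=
  1 ≤ u 0 ∧ u 0 ≤ i + 3 ∧ 4 * (i : ℤ) + 1 ≤ u 1 ∧ u 1 ≤ 4 * i + 3 ∧ 1 ≤ u 2 ∧ u 2 ≤ 3

/-- the `i`-th bubble -/
def inBub (i : ℕ) (u : Z3) : Prop :=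
  2 ≤ u 0 ∧ u 0 ≤ i + 2 ∧ u 1 = 4 * (i : ℤ) + 2 ∧ u 2 = 2

/-- the `i`-th cage -/
def inCage (i : ℕ) (u : Z3) : Prop := inBox i u ∧ ¬ inBub i u

/-- scale of the cube -/
def MM (K : ℕ) : ℤ := 4 * K + 8

/-- the big piece -/
def inC0 (K : ℕ) (u : Z3) : Prop :=
  (∀ j, 0 ≤ u j ∧ u j < MM K) ∧ ∀ i < K, ¬ inCage i u

instance (i : ℕ) (u : Z3) : Decidable (inBox i u) := by unfold inBox; infer_instance
instance (i : ℕ) (u : Z3) : Decidable (inBub i u) := by unfold inBub; infer_instance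
instance (i : ℕ) (u : Z3) : Decidable (inCage i u) := by unfold inCage; infer_instance

/-- the piece of type `ty` (`none` = the big piece). -/
def piece (K : ℕ) : Option (Fin K) → Z3 → Prop
  | none => inC0 K
  | some i => inCage i

theorem inCage_bounds {K i : ℕ} (hi : i < K) {u : Z3} (h : inCage i u) :
    ∀ j, 1 ≤ u j ∧ u j < MM K - 1 := by
  obtain ⟨⟨h1, h2, h3, h4, h5, h6⟩, -⟩ := h
  have hK : (i : ℤ) + 1 ≤ K := by exact_mod_cast hi
  intro j
  fin_cases j <;> simp only [MM, Fin.zero_eta, Fin.mk_one, Fin.reduceFinMk, Fin.isValue] <;> constructor <;> linarith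

theorem inCage_disjoint {i j : ℕ} {u : Z3} (hi : inCage i u) (hj : inCage j u) : i = j := by
  obtain ⟨⟨-, -, h3, h4, -, -⟩, -⟩ := hi
  obtain ⟨⟨-, -, g3, g4, -, -⟩, -⟩ := hj
  omega

theorem piece_bounds {K : ℕ} {ty : Option (Fin K)} {u : Z3} (h : piece K ty u) :
    ∀ j, 0 ≤ u j ∧ u j < MM K := by
  cases ty with
  | none => exact h.1
  | some i =>
    intro j
    have := inCage_bounds i.2 h j
    constructor <;> linarith [this.1, this.2]

/-- the type of a point is unique -/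
theorem piece_unique {K : ℕ} {ty ty' : Option (Fin K)} {u : Z3} (h : piece K ty u)
    (h' : piece K ty' u) : ty = ty' := by
  cases ty with
  | none =>
    cases ty' with
    | none => rfl
    | some i => exact absurd h' (h.2 i i.2)
  | some i =>
    cases ty' with
    | none => exact absurd h (h'.2 i i.2)
    | some j => exact congrArg some (Fin.ext (inCage_disjoint h h'))

theorem piece_exists (K : ℕ) {u : Z3} (hu : ∀ j, 0 ≤ u j ∧ u j < MM K) :
    ∃ ty, piece K ty u := by
  by_cases h : ∃ i < K, inCage i u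
  · obtain ⟨i, hi, h⟩ := h
    exact ⟨some ⟨i, hi⟩, h⟩
  · push Not at h
    exact ⟨none, hu, h⟩

/-! ### The merged tile -/

section tile

variable {K : ℕ} (F0 : Finset Z3) (G : Fin K → Finset Z3)

/-- the tile of the system that belongs to a type -/
def tileOf : Option (Fin K) → Finset Z3
  | none => F0
  | some i => G i

/-- coordinatewise remainder -/
def rem3 (M : ℤ) (w : Z3) : Z3 := fun j => w j % M
/-- coordinatewise quotient -/
def quo3 (M : ℤ) (w : Z3) : Z3 := fun j => w j / M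

theorem MM_pos (K : ℕ) : 0 < MM K := by unfold MM; positivity

theorem rem3_bounds {M : ℤ} (hM : 0 < M) (w : Z3) : ∀ j, 0 ≤ rem3 M w j ∧ rem3 M w j < M :=
  fun _ => ⟨Int.emod_nonneg _ hM.ne', Int.emod_lt_of_pos _ hM⟩

theorem rem3_add_quo3 (M : ℤ) (w : Z3) : rem3 M w + M • quo3 M w = w := by
  funext j
  simp only [rem3, quo3, Pi.add_apply, Pi.smul_apply, smul_eq_mul]
  exact Int.emod_add_mul_ediv (w j) M

theorem rem3_of {M : ℤ} (r v : Z3) (hr : ∀ j, 0 ≤ r j ∧ r j < M) :
    rem3 M (r + M • v) = r := by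
  funext j
  simp only [rem3, Pi.add_apply, Pi.smul_apply, smul_eq_mul]
  rw [Int.add_mul_emod_self_left]
  exact Int.emod_eq_of_lt (hr j).1 (hr j).2

theorem quo3_of {M : ℤ} (r v : Z3) (hr : ∀ j, 0 ≤ r j ∧ r j < M) :
    quo3 M (r + M • v) = v := by
  funext j
  have hM : 0 < M := lt_of_le_of_lt (hr j).1 (hr j).2
  simp only [quo3, Pi.add_apply, Pi.smul_apply, smul_eq_mul]
  rw [Int.add_mul_ediv_left _ _ hM.ne']
  rw [Int.ediv_eq_zero_of_lt (hr j).1 (hr j).2, zero_add]

open Classical in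
/-- The merged tile. -/
noncomputable def mergedTile : Finset Z3 :=
  (((Finset.Icc (fun _ => (0 : ℤ)) (fun _ => MM K - 1) : Finset Z3) ×ˢ
      ((Finset.univ : Finset (Option (Fin K))).biUnion (tileOf F0 G))).filter
    (fun p => ∃ ty, piece K ty p.1 ∧ p.2 ∈ tileOf F0 G ty)).image
    (fun p => p.1 + MM K • p.2)

theorem mem_mergedTile_iff {w : Z3} :
    w ∈ mergedTile F0 G ↔ ∃ ty r f, piece K ty r ∧ f ∈ tileOf F0 G ty ∧ w = r + MM K • f := by
  classical
  unfold mergedTile
  simp only [Finset.mem_image, Finset.mem_filter, Finset.mem_product, Finset.mem_biUnion,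
    Finset.mem_univ, true_and, Finset.mem_Icc, Prod.exists]
  constructor
  · rintro ⟨r, f, ⟨-, ty, h1, h2⟩, rfl⟩
    exact ⟨ty, r, f, h1, h2, rfl⟩
  · rintro ⟨ty, r, f, h1, h2, rfl⟩
    refine ⟨r, f, ⟨⟨⟨fun j => (piece_bounds h1 j).1, fun j => ?_⟩, ty, h2⟩, ty, h1, h2⟩, rfl⟩
    have := (piece_bounds h1 j).2
    show r j ≤ MM K - 1
    omega

theorem mem_mergedTile_of {ty : Option (Fin K)} {r f : Z3} (hr : piece K ty r) :
    r + MM K • f ∈ mergedTile F0 G ↔ f ∈ tileOf F0 G ty := by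
  rw [mem_mergedTile_iff]
  constructor
  · rintro ⟨ty', r', f', h1, h2, h3⟩
    have e1 := rem3_of (M := MM K) r f (piece_bounds hr)
    have e2 := rem3_of (M := MM K) r' f' (piece_bounds h1)
    have e3 := quo3_of (M := MM K) r f (piece_bounds hr)
    have e4 := quo3_of (M := MM K) r' f' (piece_bounds h1)
    rw [h3] at e1 e3
    rw [e2] at e1
    rw [e4] at e3
    subst e1 e3
    rw [piece_unique hr h1]
    exact h2
  · intro h
    exact ⟨ty, r, f, hr, h, rfl⟩

/-! ### Existence of tilings -/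

/-- the scaled tiling set -/
def scaled (M : ℤ) (A : Set Z3) : Set Z3 := {x | ∃ a ∈ A, x = M • a}

theorem smul_inj {M : ℤ} (hM : 0 < M) {a b : Z3} (h : M • a = M • b) : a = b := by
  funext j
  have := congrFun h j
  simp only [Pi.smul_apply, smul_eq_mul] at this
  exact mul_left_cancel₀ hM.ne' this

theorem isTilingBy_scaled {A : Set Z3} (h0 : IsTilingBy F0 A) (hG : ∀ i, IsTilingBy (G i) A) :
    IsTilingBy (mergedTile F0 G) (scaled (MM K) A) := by
  have hty : ∀ ty, IsTilingBy (tileOf F0 G ty) A := by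
    intro ty; cases ty with
    | none => exact h0
    | some i => exact hG i
  intro w
  set M := MM K with hMdef
  have hM : 0 < M := MM_pos K
  obtain ⟨ty, hr⟩ := piece_exists K (rem3_bounds hM w)
  obtain ⟨⟨a, f⟩, ⟨ha, hf, haf⟩, huniq⟩ := hty ty (quo3 M w)
  simp only at ha hf haf
  refine ⟨(M • a, rem3 M w + M • f), ⟨⟨a, ha, rfl⟩, ?_, ?_⟩, ?_⟩
  · exact (mem_mergedTile_of F0 G hr).2 hf
  · show M • a + (rem3 M w + M • f) = w
    conv_rhs => rw [← rem3_add_quo3 M w, ← haf]
    rw [smul_add]; abel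
  · rintro ⟨x, t⟩ ⟨⟨b, hb, hx⟩, ht, hxt⟩
    simp only at hx ht hxt
    subst hx
    have ht' : t = rem3 M w + M • (quo3 M w - b) := by
      have : t = w - M • b := by rw [← hxt]; abel
      rw [this, smul_sub]
      nth_rewrite 1 [← rem3_add_quo3 M w]
      abel
    rw [ht', hMdef, mem_mergedTile_of F0 G hr] at ht
    have := huniq (b, quo3 M w - b) ⟨hb, ht, by simp⟩
    simp only [Prod.mk.injEq] at this
    obtain ⟨h1, h2⟩ := this
    rw [ht', h2, h1]

end tile

/-! ### Rigidity -/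

section rigid

variable {K : ℕ} (F0 : Finset Z3) (G : Fin K → Finset Z3) (A : Set Z3)

/-- `Placed ty p`: the piece of type `ty` is placed at `p`. -/
def Placed (ty : Option (Fin K)) (p : Z3) : Prop :=
  ∃ a ∈ A, ∃ f ∈ tileOf F0 G ty, p = a + MM K • f

variable {F0 G A}

theorem placed_cover (hA : IsTilingBy (mergedTile F0 G) A) (x : Z3) :
    ∃ ty p, Placed F0 G A ty p ∧ piece K ty (x - p) := by
  obtain ⟨⟨a, t⟩, ⟨ha, ht, hat⟩, -⟩ := hA x
  simp only at ha ht hat
  obtain ⟨ty, r, f, hr, hf, rfl⟩ := (mem_mergedTile_iff F0 G).1 ht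
  refine ⟨ty, a + MM K • f, ⟨a, ha, f, hf, rfl⟩, ?_⟩
  have : x - (a + MM K • f) = r := by rw [← hat]; abel
  rw [this]; exact hr

theorem placed_unique (hA : IsTilingBy (mergedTile F0 G) A) {x : Z3} {ty ty' : Option (Fin K)}
    {p p' : Z3} (h : Placed F0 G A ty p) (hx : piece K ty (x - p))
    (h' : Placed F0 G A ty' p') (hx' : piece K ty' (x - p')) : ty = ty' ∧ p = p' := by
  obtain ⟨a, ha, f, hf, rfl⟩ := h
  obtain ⟨a', ha', f', hf', rfl⟩ := h'
  obtain ⟨q, -, huniq⟩ := hA x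
  have e1 := huniq (a, (x - (a + MM K • f)) + MM K • f)
    ⟨ha, (mem_mergedTile_of F0 G hx).2 hf, by simp only; abel⟩
  have e2 := huniq (a', (x - (a' + MM K • f')) + MM K • f')
    ⟨ha', (mem_mergedTile_of F0 G hx').2 hf', by simp only; abel⟩
  have e3 : (a, (x - (a + MM K • f)) + MM K • f) = (a', (x - (a' + MM K • f')) + MM K • f') :=
    e1.trans e2.symm
  simp only [Prod.mk.injEq] at e3
  obtain ⟨e4, e5⟩ := e3
  have e6 : rem3 (MM K) ((x - (a + MM K • f)) + MM K • f) = x - (a + MM K • f) :=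
    rem3_of _ _ (piece_bounds hx)
  have e7 : rem3 (MM K) ((x - (a' + MM K • f')) + MM K • f') = x - (a' + MM K • f') :=
    rem3_of _ _ (piece_bounds hx')
  rw [e5, e7] at e6
  have e8 : a + MM K • f = a' + MM K • f' := by
    have := e6
    exact (sub_right_inj.1 this).symm
  refine ⟨?_, e8⟩
  rw [← e8] at hx'
  exact piece_unique hx hx'

/-- a boundary point of the cube lies in the big piece -/
theorem inC0_of_bdry {u : Z3} (hu : ∀ j, 0 ≤ u j ∧ u j < MM K) (j : Fin 3)
    (hj : u j = 0 ∨ u j = MM K - 1) : inC0 K u := by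
  refine ⟨hu, fun i hi hc => ?_⟩
  have := inCage_bounds hi hc j
  omega

theorem cube_disjoint (hA : IsTilingBy (mergedTile F0 G) A) {p p' : Z3}
    (h : Placed F0 G A none p) (h' : Placed F0 G A none p')
    (hd : ∀ j, |p' j - p j| < MM K) : p = p' := by
  have hM := MM_pos K
  -- the common point
  let u : Z3 := fun j =>
    if j = 0 then (if 0 ≤ p' 0 - p 0 then p' 0 - p 0 else p' 0 - p 0 + MM K - 1)
    else if j = 1 then (if p' 1 - p 1 ≤ 0 then 0 else MM K - 1)
    else max 0 (p' 2 - p 2)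
  have h0 := abs_lt.1 (hd 0)
  have h1 := abs_lt.1 (hd 1)
  have h2 := abs_lt.1 (hd 2)
  have u0 : u 0 = if 0 ≤ p' 0 - p 0 then p' 0 - p 0 else p' 0 - p 0 + MM K - 1 := rfl
  have u1 : u 1 = if p' 1 - p 1 ≤ 0 then 0 else MM K - 1 := rfl
  have u2 : u 2 = max 0 (p' 2 - p 2) := rfl
  have hu : inC0 K u := by
    apply inC0_of_bdry _ 1
    · rw [u1]; split_ifs <;> simp
    · intro j
      fin_cases j
      · show 0 ≤ u 0 ∧ u 0 < MM K
        rw [u0]; split_ifs <;> constructor <;> omega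
      · show 0 ≤ u 1 ∧ u 1 < MM K
        rw [u1]; split_ifs <;> constructor <;> omega
      · show 0 ≤ u 2 ∧ u 2 < MM K
        rw [u2]; constructor <;> omega
  have hu' : inC0 K (u - (p' - p)) := by
    apply inC0_of_bdry _ 0
    · show u 0 - (p' 0 - p 0) = 0 ∨ u 0 - (p' 0 - p 0) = MM K - 1
      rw [u0]; split_ifs <;> omega
    · intro j
      fin_cases j
      · show 0 ≤ u 0 - (p' 0 - p 0) ∧ u 0 - (p' 0 - p 0) < MM K
        rw [u0]; split_ifs <;> constructor <;> omega
      · show 0 ≤ u 1 - (p' 1 - p 1) ∧ u 1 - (p' 1 - p 1) < MM K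
        rw [u1]; split_ifs <;> constructor <;> omega
      · show 0 ≤ u 2 - (p' 2 - p 2) ∧ u 2 - (p' 2 - p 2) < MM K
        rw [u2]; constructor <;> omega
  have e1 : (p + u) - p = u := by abel
  have e2 : (p + u) - p' = u - (p' - p) := by abel
  exact (placed_unique hA (x := p + u) h (by rw [e1]; exact hu) h' (by rw [e2]; exact hu')).2

theorem inC0_of_inBub {j : ℕ} (hj : j < K) {u : Z3} (h : inBub j u) : inC0 K u := by
  obtain ⟨h1, h2, h3, h4⟩ := h
  have hK : (j : ℤ) + 1 ≤ K := by exact_mod_cast hj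
  refine ⟨?_, ?_⟩
  · intro l
    fin_cases l
    · show 0 ≤ u 0 ∧ u 0 < MM K
      unfold MM; constructor <;> omega
    · show 0 ≤ u 1 ∧ u 1 < MM K
      unfold MM; constructor <;> omega
    · show 0 ≤ u 2 ∧ u 2 < MM K
      unfold MM; constructor <;> omega
  · rintro i hi ⟨⟨-, -, g3, g4, -, -⟩, hb⟩
    have : i = j := by omega
    subst this
    exact hb ⟨h1, h2, h3, h4⟩

/-- Every point of a piece that is not a bubble point has a neighbour in directions `e₁, e₂`
in the same piece. -/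
theorem exists_nbr {ty : Option (Fin K)} {u : Z3} (h : piece K ty u)
    (hb : ¬ (ty = none ∧ ∃ j < K, inBub j u)) :
    ∃ d : Z3, d 0 = 0 ∧ ((d 1 = 0 ∧ (d 2 = 1 ∨ d 2 = -1)) ∨ (d 2 = 0 ∧ (d 1 = 1 ∨ d 1 = -1))) ∧
      piece K ty (u + d) := by
  have key : ∀ (a b c : ℤ), (![a, b, c] : Z3) 0 = a ∧ (![a, b, c] : Z3) 1 = b ∧
      (![a, b, c] : Z3) 2 = c := fun a b c => ⟨rfl, rfl, rfl⟩
  cases ty with
  | some j =>
    obtain ⟨⟨h1, h2, h3, h4, h5, h6⟩, h7⟩ := h
    by_cases hu1 : u 1 = 4 * ((j : ℕ) : ℤ) + 2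
    · obtain ⟨k0, k1, k2⟩ := key 0 1 0
      refine ⟨![0, 1, 0], k0, Or.inr ⟨k2, Or.inl k1⟩, ?_⟩
      show inCage j (u + ![0, 1, 0])
      simp only [inCage, inBox, inBub, Pi.add_apply, k0, k1, k2]
      constructor
      · omega
      · omega
    · by_cases hu2 : u 2 ≤ 2
      · obtain ⟨k0, k1, k2⟩ := key 0 0 1
        refine ⟨![0, 0, 1], k0, Or.inl ⟨k1, Or.inl k2⟩, ?_⟩
        show inCage j (u + ![0, 0, 1])
        simp only [inCage, inBox, inBub, Pi.add_apply, k0, k1, k2]
        constructor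
        · omega
        · omega
      · obtain ⟨k0, k1, k2⟩ := key 0 0 (-1)
        refine ⟨![0, 0, -1], k0, Or.inl ⟨k1, Or.inr k2⟩, ?_⟩
        show inCage j (u + ![0, 0, -1])
        simp only [inCage, inBox, inBub, Pi.add_apply, k0, k1, k2]
        constructor
        · omega
        · omega
  | none =>
    have hbb : ∀ j < K, ¬ inBub j u := fun j hj hu => hb ⟨rfl, j, hj, hu⟩
    obtain ⟨hu, hc⟩ := h
    have hu0 := hu 0
    have hu1 := hu 1
    have hu2 := hu 2
    have hMM : MM K = 4 * K + 8 := rfl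
    have hK0 : (0 : ℤ) ≤ K := by positivity
    have mk : ∀ d : Z3, (∀ j, 0 ≤ (u + d) j ∧ (u + d) j < MM K) →
        ((u + d) 2 < 1 ∨ 3 < (u + d) 2) → inC0 K (u + d) := by
      intro d hd h2
      refine ⟨hd, fun i hi hci => ?_⟩
      obtain ⟨⟨-, -, -, -, g5, g6⟩, -⟩ := hci
      omega
    by_cases c4 : 4 ≤ u 2
    · by_cases c5 : u 2 = 4
      · obtain ⟨k0, k1, k2⟩ := key 0 0 1
        refine ⟨![0, 0, 1], k0, Or.inl ⟨k1, Or.inl k2⟩, mk _ ?_ ?_⟩
        · intro j
          fin_cases j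
          · show 0 ≤ u 0 + 0 ∧ u 0 + 0 < MM K
            omega
          · show 0 ≤ u 1 + 0 ∧ u 1 + 0 < MM K
            omega
          · show 0 ≤ u 2 + 1 ∧ u 2 + 1 < MM K
            omega
        · right
          show 3 < u 2 + 1
          omega
      · obtain ⟨k0, k1, k2⟩ := key 0 0 (-1)
        refine ⟨![0, 0, -1], k0, Or.inl ⟨k1, Or.inr k2⟩, mk _ ?_ ?_⟩
        · intro j
          fin_cases j
          · show 0 ≤ u 0 + 0 ∧ u 0 + 0 < MM K
            omega
          · show 0 ≤ u 1 + 0 ∧ u 1 + 0 < MM K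
            omega
          · show 0 ≤ u 2 + -1 ∧ u 2 + -1 < MM K
            omega
        · right
          show 3 < u 2 + -1
          omega
    · by_cases c0 : u 2 = 0
      · by_cases c1 : u 1 < MM K - 1
        · obtain ⟨k0, k1, k2⟩ := key 0 1 0
          refine ⟨![0, 1, 0], k0, Or.inr ⟨k2, Or.inl k1⟩, mk _ ?_ ?_⟩
          · intro j
            fin_cases j
            · show 0 ≤ u 0 + 0 ∧ u 0 + 0 < MM K
              omega
            · show 0 ≤ u 1 + 1 ∧ u 1 + 1 < MM K
              omega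
            · show 0 ≤ u 2 + 0 ∧ u 2 + 0 < MM K
              omega
          · left
            show u 2 + 0 < 1
            omega
        · obtain ⟨k0, k1, k2⟩ := key 0 (-1) 0
          refine ⟨![0, -1, 0], k0, Or.inr ⟨k2, Or.inr k1⟩, mk _ ?_ ?_⟩
          · intro j
            fin_cases j
            · show 0 ≤ u 0 + 0 ∧ u 0 + 0 < MM K
              omega
            · show 0 ≤ u 1 + -1 ∧ u 1 + -1 < MM K
              omega
            · show 0 ≤ u 2 + 0 ∧ u 2 + 0 < MM K
              omega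
          · left
            show u 2 + 0 < 1
            omega
      · obtain ⟨k0, k1, k2⟩ := key 0 0 (-1)
        refine ⟨![0, 0, -1], k0, Or.inl ⟨k1, Or.inr k2⟩, ?_, ?_⟩
        · intro j
          fin_cases j
          · show 0 ≤ u 0 + 0 ∧ u 0 + 0 < MM K
            omega
          · show 0 ≤ u 1 + 0 ∧ u 1 + 0 < MM K
            omega
          · show 0 ≤ u 2 + -1 ∧ u 2 + -1 < MM K
            omega
        · intro i hi hci
          have hbox := hci.1
          simp only [inBox, Pi.add_apply, k0, k1, k2] at hbox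
          obtain ⟨g1, g2, g3, g4, g5, g6⟩ := hbox
          have hbu : inBox i u := ⟨by omega, by omega, by omega, by omega, by omega, by omega⟩
          exact hc i hi ⟨hbu, hbb i hi⟩

/-- A placed cage forces the big piece at the same place. -/
theorem cage_forces (hA : IsTilingBy (mergedTile F0 G) A) {i : Fin K} {q : Z3}
    (h : Placed F0 G A (some i) q) : Placed F0 G A none q := by
  have hMM : MM K = 4 * K + 8 := rfl
  have hiK : ((i : ℕ) : ℤ) + 1 ≤ K := by exact_mod_cast i.2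
  -- the bubble points
  have main : ∀ m : ℕ, m ≤ (i : ℕ) → ∃ p : Z3, ∃ j : ℕ, j < K ∧ Placed F0 G A none p ∧
      2 ≤ q 0 + 2 + m - p 0 ∧ q 0 + 2 + m - p 0 ≤ j + 2 ∧
      q 1 + (4 * ((i : ℕ) : ℤ) + 2) - p 1 = 4 * (j : ℤ) + 2 ∧ q 2 + 2 - p 2 = 2 := by
    intro m hm
    have hm' : (m : ℤ) ≤ ((i : ℕ) : ℤ) := by exact_mod_cast hm
    let y : Z3 := q + ![2 + (m : ℤ), 4 * ((i : ℕ) : ℤ) + 2, 2]
    have y0 : y 0 = q 0 + (2 + (m : ℤ)) := rfl
    have y1 : y 1 = q 1 + (4 * ((i : ℕ) : ℤ) + 2) := rfl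
    have y2 : y 2 = q 2 + 2 := rfl
    obtain ⟨ty, p, hp, hyp⟩ := placed_cover hA y
    have hne : ¬ (ty = some i ∧ p = q) := by
      rintro ⟨rfl, rfl⟩
      have : inCage i (y - p) := hyp
      simp only [inCage, inBox, inBub, Pi.sub_apply, y0, y1, y2] at this
      omega
    by_cases hb : ty = none ∧ ∃ j < K, inBub j (y - p)
    · obtain ⟨rfl, j, hj, hbj⟩ := hb
      simp only [inBub, Pi.sub_apply, y0, y1, y2] at hbj
      refine ⟨p, j, hj, hp, ?_, ?_, ?_, ?_⟩ <;> omega
    · exfalso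
      obtain ⟨d, hd0, hd, hpd⟩ := exists_nbr hyp hb
      have hcage : piece K (some i) (y + d - q) := by
        show inCage i (y + d - q)
        simp only [inCage, inBox, inBub, Pi.sub_apply, Pi.add_apply, y0, y1, y2, hd0]
        rcases hd with ⟨d1, d2 | d2⟩ | ⟨d2, d1 | d1⟩ <;> rw [d1, d2] <;> constructor <;> omega
      have e : y - p + d = y + d - p := by abel
      rw [e] at hpd
      have := placed_unique hA hp hpd h hcage
      exact hne this
  choose! P J hJ hPl h2 h3 h4 h5 using main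
  -- all the big pieces coincide
  have hPeq : ∀ m : ℕ, m ≤ (i : ℕ) → P 0 = P m := by
    intro m hm
    apply cube_disjoint hA (hPl 0 (Nat.zero_le _)) (hPl m hm)
    have hm' : (m : ℤ) ≤ ((i : ℕ) : ℤ) := by exact_mod_cast hm
    have hm0 : (0 : ℤ) ≤ (m : ℤ) := by positivity
    have a1 := h2 0 (Nat.zero_le _)
    have a2 := h3 0 (Nat.zero_le _)
    have a3 := h4 0 (Nat.zero_le _)
    have a4 := h5 0 (Nat.zero_le _)
    have b1 := h2 m hm
    have b2 := h3 m hm
    have b3 := h4 m hm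
    have b4 := h5 m hm
    have j0 : ((J 0 : ℕ) : ℤ) + 1 ≤ K := by exact_mod_cast hJ 0 (Nat.zero_le _)
    have jm : ((J m : ℕ) : ℤ) + 1 ≤ K := by exact_mod_cast hJ m hm
    have cz : ((0 : ℕ) : ℤ) = 0 := rfl
    rw [cz] at a1 a2
    intro l
    fin_cases l
    · show |P m 0 - P 0 0| < MM K
      rw [abs_lt]; constructor <;> omega
    · show |P m 1 - P 0 1| < MM K
      rw [abs_lt]; constructor <;> omega
    · show |P m 2 - P 0 2| < MM K
      rw [abs_lt]; constructor <;> omega
  set p := P 0 with hp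
  set j := J 0 with hj
  have hjK : j < K := hJ 0 (Nat.zero_le _)
  have a1 := h2 0 (Nat.zero_le _)
  have a2 := h3 0 (Nat.zero_le _)
  have a3 := h4 0 (Nat.zero_le _)
  have a4 := h5 0 (Nat.zero_le _)
  have b1 := h2 i le_rfl
  have b2 := h3 i le_rfl
  have b3 := h4 i le_rfl
  rw [← hPeq i le_rfl] at b1 b2 b3
  rw [← hp] at a1 a2 a3 a4
  rw [← hj] at a2 a3
  have cz : ((0 : ℕ) : ℤ) = 0 := rfl
  rw [cz] at a1 a2
  have hJi : J i = j := by
    have : ((J i : ℕ) : ℤ) = (j : ℤ) := by omega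
    exact_mod_cast this
  rw [hJi] at b2 b3
  have hp0 : Placed F0 G A none p := hPl 0 (Nat.zero_le _)
  -- no bubble point before
  have c1 : p 0 = q 0 := by
    by_contra hne
    let z : Z3 := q + ![1, 4 * ((i : ℕ) : ℤ) + 2, 2]
    have z0 : z 0 = q 0 + 1 := rfl
    have z1 : z 1 = q 1 + (4 * ((i : ℕ) : ℤ) + 2) := rfl
    have z2 : z 2 = q 2 + 2 := rfl
    have hz1 : piece K none (z - p) := by
      apply inC0_of_inBub hjK
      simp only [inBub, Pi.sub_apply, z0, z1, z2]
      refine ⟨by omega, by omega, by omega, by omega⟩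
    have hz2 : piece K (some i) (z - q) := by
      show inCage i (z - q)
      simp only [inCage, inBox, inBub, Pi.sub_apply, z0, z1, z2]
      constructor <;> omega
    have := (placed_unique hA hp0 hz1 h hz2).1
    simp at this
  have c2 : (j : ℤ) ≤ ((i : ℕ) : ℤ) := by
    by_contra hne
    push Not at hne
    let z : Z3 := q + ![((i : ℕ) : ℤ) + 3, 4 * ((i : ℕ) : ℤ) + 2, 2]
    have z0 : z 0 = q 0 + (((i : ℕ) : ℤ) + 3) := rfl
    have z1 : z 1 = q 1 + (4 * ((i : ℕ) : ℤ) + 2) := rfl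
    have z2 : z 2 = q 2 + 2 := rfl
    have hz1 : piece K none (z - p) := by
      apply inC0_of_inBub hjK
      simp only [inBub, Pi.sub_apply, z0, z1, z2]
      refine ⟨by omega, by omega, by omega, by omega⟩
    have hz2 : piece K (some i) (z - q) := by
      show inCage i (z - q)
      simp only [inCage, inBox, inBub, Pi.sub_apply, z0, z1, z2]
      constructor <;> omega
    have := (placed_unique hA hp0 hz1 h hz2).1
    simp at this
  have hpq : p = q := by
    funext l
    fin_cases l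
    · exact c1
    · show p 1 = q 1
      omega
    · show p 2 = q 2
      omega
  rw [← hpq]; exact hp0

/-- the shifts of `F0` by unit vectors belong to the system -/
def HasShifts (F0 : Finset Z3) (G : Fin K → Finset Z3) : Prop :=
  ∀ j : Fin 3, ∀ s : ℤ, (s = 1 ∨ s = -1) → ∃ i, ∀ f ∈ F0, f + Pi.single j s ∈ G i

theorem placed_shift (hA : IsTilingBy (mergedTile F0 G) A) (hs : HasShifts F0 G) {p : Z3}
    (h : Placed F0 G A none p) (j : Fin 3) (s : ℤ) (hs1 : s = 1 ∨ s = -1) :
    Placed F0 G A none (p + MM K • (Pi.single j s : Z3)) := by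
  obtain ⟨i, hi⟩ := hs j s hs1
  obtain ⟨a, ha, f, hf, rfl⟩ := h
  apply cage_forces hA (i := i)
  exact ⟨a, ha, f + Pi.single j s, hi f hf, by rw [smul_add]; abel⟩

theorem placed_shift_int (hA : IsTilingBy (mergedTile F0 G) A) (hs : HasShifts F0 G) {p : Z3}
    (h : Placed F0 G A none p) (j : Fin 3) (n : ℤ) :
    Placed F0 G A none (p + MM K • (Pi.single j n : Z3)) := by
  induction n using Int.induction_on with
  | zero => simpa using h
  | succ n ih =>
    have := placed_shift hA hs ih j 1 (Or.inl rfl)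
    have e : p + MM K • (Pi.single j (n : ℤ) : Z3) + MM K • (Pi.single j 1 : Z3) =
        p + MM K • (Pi.single j ((n : ℤ) + 1) : Z3) := by
      rw [add_assoc, ← smul_add, ← Pi.single_add]
    rwa [e] at this
  | pred n ih =>
    have := placed_shift hA hs ih j (-1) (Or.inr rfl)
    have e : p + MM K • (Pi.single j (-(n : ℤ)) : Z3) + MM K • (Pi.single j (-1) : Z3) =
        p + MM K • (Pi.single j (-(n : ℤ) - 1) : Z3) := by
      rw [add_assoc, ← smul_add, ← Pi.single_add, sub_eq_add_neg]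
    rwa [e] at this

theorem placed_shift_all (hA : IsTilingBy (mergedTile F0 G) A) (hs : HasShifts F0 G) {p : Z3}
    (h : Placed F0 G A none p) (v : Z3) : Placed F0 G A none (p + MM K • v) := by
  have h1 := placed_shift_int hA hs h 0 (v 0)
  have h2 := placed_shift_int hA hs h1 1 (v 1)
  have h3 := placed_shift_int hA hs h2 2 (v 2)
  have e : p + MM K • (Pi.single 0 (v 0) : Z3) + MM K • (Pi.single 1 (v 1) : Z3) +
      MM K • (Pi.single 2 (v 2) : Z3) = p + MM K • v := by
    have hv : v = (Pi.single 0 (v 0) : Z3) + Pi.single 1 (v 1) + Pi.single 2 (v 2) := by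
      funext l
      fin_cases l <;> simp
    conv_rhs => rw [hv]
    rw [smul_add, smul_add]; abel
  rwa [e] at h3

/-- two placed big pieces differ by a multiple of the scale -/
theorem placed_diff (hA : IsTilingBy (mergedTile F0 G) A) (hs : HasShifts F0 G) {p p' : Z3}
    (h : Placed F0 G A none p) (h' : Placed F0 G A none p') : ∃ v, p' = p + MM K • v := by
  have hM := MM_pos K
  refine ⟨quo3 (MM K) (p' - p), ?_⟩
  have h1 := placed_shift_all hA hs h (quo3 (MM K) (p' - p))
  have h2 := cube_disjoint hA h1 h' ?_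
  · exact h2.symm
  · intro j
    have e : p' - (p + MM K • quo3 (MM K) (p' - p)) = rem3 (MM K) (p' - p) := by
      have := rem3_add_quo3 (MM K) (p' - p)
      rw [← sub_sub]
      nth_rewrite 1 [← this]
      abel
    have e' := congrFun e j
    have hb := rem3_bounds hM (p' - p) j
    rw [Pi.sub_apply] at e'
    rw [e', abs_lt]
    constructor <;> linarith [hb.1, hb.2]

theorem exists_scale (hA : IsTilingBy (mergedTile F0 G) A) (hs : HasShifts F0 G)
    (hF0 : F0.Nonempty) {a b : Z3} (ha : a ∈ A) (hb : b ∈ A) : ∃ v, b = a + MM K • v := by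
  obtain ⟨f, hf⟩ := hF0
  obtain ⟨v, hv⟩ := placed_diff hA hs (p := a + MM K • f) (p' := b + MM K • f)
    ⟨a, ha, f, hf, rfl⟩ ⟨b, hb, f, hf, rfl⟩
  refine ⟨v, ?_⟩
  have : b + MM K • f = (a + MM K • v) + MM K • f := by rw [hv]; abel
  exact add_right_cancel this

/-- the tiling set of the system extracted from a tiling set of the merged tile -/
def unscaled (M : ℤ) (c : Z3) (A : Set Z3) : Set Z3 := {v | c + M • v ∈ A}

theorem isTilingBy_unscaled (hA : IsTilingBy (mergedTile F0 G) A) (hs : HasShifts F0 G)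
    (hF0 : F0.Nonempty) {c : Z3} (hc : c ∈ A) (ty : Option (Fin K)) {r : Z3}
    (hr : piece K ty r) : IsTilingBy (tileOf F0 G ty) (unscaled (MM K) c A) := by
  intro w
  have hM := MM_pos K
  obtain ⟨⟨a, t⟩, ⟨ha, ht, hat⟩, huniq⟩ := hA (c + MM K • w + r)
  simp only at ha ht hat
  obtain ⟨v, hv⟩ := exists_scale hA hs hF0 hc ha
  have ht' : t = r + MM K • (w - v) := by
    have : t = (c + MM K • w + r) - a := by rw [← hat]; abel
    rw [this, hv, smul_sub]; abel
  rw [ht', mem_mergedTile_of F0 G hr] at ht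
  refine ⟨(v, w - v), ⟨?_, ht, by simp⟩, ?_⟩
  · show c + MM K • v ∈ A
    rw [← hv]; exact ha
  · rintro ⟨v', f'⟩ ⟨hv', hf', hw⟩
    simp only at hv' hf' hw
    have h1 := huniq (c + MM K • v', r + MM K • f') ⟨hv', (mem_mergedTile_of F0 G hr).2 hf', by
      simp only
      rw [← hw, smul_add]; abel⟩
    simp only [Prod.mk.injEq] at h1
    have h2 : v' = v := by
      have h3 := h1.1
      rw [hv] at h3
      exact smul_inj hM (add_left_cancel h3)
    subst h2
    have h4 : f' = w - v' := by rw [← hw]; abel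
    rw [h4]

/-- the corner of the cube is in the big piece -/
theorem piece_none_zero : piece K none (0 : Z3) := by
  have hMM : MM K = 4 * K + 8 := rfl
  apply inC0_of_bdry _ 0
  · left; rfl
  · intro j
    constructor
    · exact le_rfl
    · exact MM_pos K

theorem piece_some_corner (i : Fin K) :
    piece K (some i) (![1, 4 * ((i : ℕ) : ℤ) + 1, 1] : Z3) := by
  have k0 : (![1, 4 * ((i : ℕ) : ℤ) + 1, 1] : Z3) 0 = 1 := rfl
  have k1 : (![1, 4 * ((i : ℕ) : ℤ) + 1, 1] : Z3) 1 = 4 * ((i : ℕ) : ℤ) + 1 := rfl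
  have k2 : (![1, 4 * ((i : ℕ) : ℤ) + 1, 1] : Z3) 2 = 1 := rfl
  show inCage i _
  simp only [inCage, inBox, inBub, k0, k1, k2]
  constructor <;> omega

theorem isFullyPeriodic_unscaled {M : ℤ} {c : Z3} {A : Set Z3} (h : IsFullyPeriodic A) :
    IsFullyPeriodic (unscaled M c A) := by
  obtain ⟨H, hH, hper⟩ := h
  refine ⟨H.comap (zsmulAddGroupHom M), ?_, ?_⟩
  · have := hH
    constructor
    rw [AddSubgroup.index_comap]
    exact (inferInstance : (H.addSubgroupOf (zsmulAddGroupHom M).range).FiniteIndex).index_ne_zero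
  · intro v hv a ha
    have h1 : M • v ∈ H := hv
    have h2 : c + M • a ∈ A := ha
    show c + M • (v + a) ∈ A
    have := hper _ h1 _ h2
    have e : M • v + (c + M • a) = c + M • (v + a) := by rw [smul_add]; abel
    rwa [e] at this

end rigid

/-! ### The merging theorem -/

/-- The list of tiles: the given ones and the six shifts of `F0`. -/
def fullList {m : ℕ} (F0 : Finset Z3) (F : Fin m → Finset Z3) : Fin (m + 6) → Finset Z3 :=
  Fin.append F (fun k : Fin 6 => F0.image (fun f => f + Pi.single (⟨k.1 / 2, by omega⟩ : Fin 3)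
    (if k.1 % 2 = 0 then 1 else -1)))

theorem isTilingBy_image_add {F : Finset Z3} {A : Set Z3} (h : IsTilingBy F A) (w : Z3) :
    IsTilingBy (F.image (fun f => f + w)) A := by
  intro x
  obtain ⟨⟨a, f⟩, ⟨ha, hf, haf⟩, huniq⟩ := h (x - w)
  simp only at ha hf haf
  refine ⟨(a, f + w), ⟨ha, Finset.mem_image.2 ⟨f, hf, rfl⟩, ?_⟩, ?_⟩
  · show a + (f + w) = x
    rw [← add_assoc, haf]; abel
  · rintro ⟨a', t'⟩ ⟨ha', ht', hat'⟩
    obtain ⟨f', hf', rfl⟩ := Finset.mem_image.1 ht'
    simp only at ha' hat'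
    have := huniq (a', f') ⟨ha', hf', by simp only; rw [← hat']; abel⟩
    simp only [Prod.mk.injEq] at this
    rw [this.1, this.2]

theorem hasShifts_fullList {m : ℕ} (F0 : Finset Z3) (F : Fin m → Finset Z3) :
    HasShifts F0 (fullList F0 F) := by
  intro j s hs
  rcases hs with rfl | rfl
  · refine ⟨Fin.natAdd m ⟨2 * j.1, by omega⟩, fun f hf => ?_⟩
    unfold fullList
    rw [Fin.append_right]
    refine Finset.mem_image.2 ⟨f, hf, ?_⟩
    have e1 : (⟨2 * j.1 / 2, by omega⟩ : Fin 3) = j := by ext; simp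
    have e2 : 2 * j.1 % 2 = 0 := by omega
    simp only [e1, e2, if_true]
  · refine ⟨Fin.natAdd m ⟨2 * j.1 + 1, by omega⟩, fun f hf => ?_⟩
    unfold fullList
    rw [Fin.append_right]
    refine Finset.mem_image.2 ⟨f, hf, ?_⟩
    have e1 : (⟨(2 * j.1 + 1) / 2, by omega⟩ : Fin 3) = j := by ext; simp only; omega
    have e2 : ¬ ((2 * j.1 + 1) % 2 = 0) := by omega
    simp only [e1, e2, if_false]

/-- **Merging theorem.** -/
theorem merge {m : ℕ} (F0 : Finset Z3) (F : Fin m → Finset Z3) (hF0 : F0.Nonempty)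
    (hex : ∃ A, IsTilingBy F0 A ∧ ∀ i, IsTilingBy (F i) A)
    (hnp : ∀ A, IsTilingBy F0 A → (∀ i, IsTilingBy (F i) A) → ¬ IsFullyPeriodic A) :
    ∃ T : Finset Z3, T.Nonempty ∧ (∃ A, IsTilingBy T A) ∧
      (∀ A, IsTilingBy T A → ¬ IsFullyPeriodic A) ∧
      ∃ M : ℕ, 2 ≤ M ∧ ∀ A, IsTilingBy T A → ∀ a ∈ A, ∀ b ∈ A, ∀ i, (M : ℤ) ∣ a i - b i := by
  have hs := hasShifts_fullList F0 F
  refine ⟨mergedTile F0 (fullList F0 F), ?_, ?_, ?_, 4 * (m + 6) + 8, by omega, ?_⟩
  · obtain ⟨f, hf⟩ := hF0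
    exact ⟨0 + MM (m + 6) • f, (mem_mergedTile_of F0 (fullList F0 F) piece_none_zero).2 hf⟩
  · obtain ⟨A, h0, hA⟩ := hex
    refine ⟨_, isTilingBy_scaled F0 (fullList F0 F) h0 ?_⟩
    intro i
    refine Fin.addCases (fun i => ?_) (fun i => ?_) i
    · unfold fullList; rw [Fin.append_left]; exact hA i
    · unfold fullList; rw [Fin.append_right]; exact isTilingBy_image_add h0 _
  · intro A hA hper
    obtain ⟨⟨c, t⟩, ⟨hc, -, -⟩, -⟩ := hA 0
    refine hnp (unscaled (MM (m + 6)) c A)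
      (isTilingBy_unscaled hA hs hF0 hc none piece_none_zero) ?_ (isFullyPeriodic_unscaled hper)
    intro i
    have := isTilingBy_unscaled hA hs hF0 hc (some (Fin.castAdd 6 i)) (piece_some_corner _)
    simp only [tileOf, fullList, Fin.append_left] at this
    exact this
  · intro A hA a ha b hb i
    obtain ⟨v, hv⟩ := exists_scale hA hs hF0 hb ha
    have : a i - b i = MM (m + 6) * v i := by
      rw [hv]; simp
    rw [this]
    have e : (((4 * (m + 6) + 8 : ℕ)) : ℤ) = MM (m + 6) := by unfold MM; push_cast; ring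
    rw [e]
    exact dvd_mul_right _ _

end Crest.Agent.R046
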