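import Mathlib

/-!
# Row 46: the hole-robust four-direction sudoku

`F, E, K, G : ZMod L → ZMod q` nowhere zero, `q ∣ L`, `q ≥ 5`, with the sudoku relation between
`F x`, `E y`, `K (x + y)`, `G (x + q y)` at all points `(x, y)` which are not "void", where every
line of the four families has only a scale-invariantly thin set of void points, and with
`E y = y`, `K z = z` whenever these are nonzero modulo `q`.  There is no such system
(`no_sys`).
-/

set_option autoImplicit false

namespace Crest.Agent.R046.Robust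

open Finset

/-! ### counting in `ZMod L` -/

section Count

variable {L : ℕ} [NeZero L]

/-- the number of `x : ZMod L` with `p x` -/
noncomputable def cnt (p : ZMod L → Prop) : ℕ := by
  classical
  exact (univ.filter p).card

theorem cnt_mono {p p' : ZMod L → Prop} (h : ∀ x, p x → p' x) : cnt p ≤ cnt p' := by
  classical
  unfold cnt
  exact card_le_card (fun x hx => by simp only [mem_filter, mem_univ, true_and] at hx ⊢; exact h x hx)

theorem cnt_false {p : ZMod L → Prop} (h : ∀ x, ¬ p x) : cnt p = 0 := by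
  classical
  unfold cnt
  rw [card_eq_zero]
  ext x
  simp [h x]

theorem cnt_congr {p p' : ZMod L → Prop} (h : ∀ x, p x ↔ p' x) : cnt p = cnt p' :=
  le_antisymm (cnt_mono fun x => (h x).1) (cnt_mono fun x => (h x).2)

theorem cnt_or (p p' : ZMod L → Prop) : cnt (fun x => p x ∨ p' x) ≤ cnt p + cnt p' := by
  classical
  unfold cnt
  refine le_trans (card_le_card ?_) (card_union_le _ _)
  intro x hx
  simp only [mem_filter, mem_univ, true_and, mem_union] at hx ⊢
  exact hx

theorem cnt_equiv (e : ZMod L ≃ ZMod L) (p : ZMod L → Prop) : cnt (fun x => p (e x)) = cnt p := by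
  classical
  unfold cnt
  refine card_bij (fun x _ => e x) ?_ ?_ ?_
  · intro x hx; simpa using hx
  · intro x _ y _ h; exact e.injective h
  · intro y hy
    exact ⟨e.symm y, by simpa using hy, by simp⟩

theorem exists_of_cnt_lt {p p' : ZMod L → Prop} (h : cnt p' < cnt p) : ∃ x, p x ∧ ¬ p' x := by
  by_contra hcon
  push Not at hcon
  exact absurd (cnt_mono hcon) (not_le.2 h)

theorem cnt_eq_sum (p : ZMod L → Prop) [DecidablePred p] :
    cnt p = ∑ x : ZMod L, if p x then 1 else 0 := by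
  classical
  unfold cnt
  rw [card_filter]
  exact sum_congr rfl fun x _ => by congr

theorem sum_cnt_comm (B : ZMod L → ZMod L → Prop) :
    ∑ x, cnt (fun y => B x y) = ∑ y, cnt (fun x => B x y) := by
  classical
  simp only [cnt_eq_sum]
  exact sum_comm

theorem markov (f : ZMod L → ℕ) (k : ℕ) : k * cnt (fun x => k ≤ f x) ≤ ∑ x, f x := by
  classical
  have h1 : k * cnt (fun x => k ≤ f x) = ∑ x ∈ univ.filter (fun x : ZMod L => k ≤ f x), k := by
    rw [sum_const, smul_eq_mul, mul_comm]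
    unfold cnt
    congr!
  rw [h1]
  refine (sum_le_sum (fun x hx => (mem_filter.1 hx).2)).trans ?_
  exact sum_le_sum_of_subset (filter_subset _ _)

theorem sum_le_of_le {f : ZMod L → ℕ} {a b N : ℕ} (h : ∀ x, N * f x ≤ a) (hb : L * a ≤ b) :
    N * ∑ x, f x ≤ b := by
  rw [mul_sum]
  refine (sum_le_card_nsmul _ _ a (fun x _ => h x)).trans ?_
  rw [card_univ, ZMod.card, smul_eq_mul]
  exact hb

/-- each class modulo `q` has `L / q` elements -/
theorem cnt_class {q : ℕ} (hqL : q ∣ L) (i : ZMod q) :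
    q * cnt (fun x : ZMod L => ZMod.castHom hqL (ZMod q) x = i) = L := by
  classical
  have hq0 : q ≠ 0 := by
    rintro rfl
    exact NeZero.ne L (Nat.eq_zero_of_zero_dvd hqL)
  have : NeZero q := ⟨hq0⟩
  set π := ZMod.castHom hqL (ZMod q) with hπ
  have hsurj : Function.Surjective π := ZMod.castHom_surjective hqL
  -- all classes have the same size
  have hsame : ∀ j : ZMod q, cnt (fun x : ZMod L => π x = j) = cnt (fun x : ZMod L => π x = i) := by
    intro j
    obtain ⟨s, hs⟩ := hsurj (i - j)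
    rw [← cnt_equiv (Equiv.addRight s) (fun x => π x = i)]
    refine cnt_congr fun x => ?_
    simp only [Equiv.coe_addRight, map_add, hs]
    constructor
    · rintro rfl; ring
    · intro h
      have : π x = i - (i - j) := eq_sub_of_add_eq h
      rw [this]; ring
  have htot : ∑ j : ZMod q, cnt (fun x : ZMod L => π x = j) = L := by
    have h1 : (univ : Finset (ZMod L)).card = ∑ j : ZMod q, (univ.filter (fun x => π x = j)).card :=
      card_eq_sum_card_fiberwise (fun x _ => mem_univ _)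
    rw [card_univ, ZMod.card] at h1
    refine Eq.trans ?_ h1.symm
    refine sum_congr rfl fun j _ => ?_
    unfold cnt
    congr!
  rw [sum_congr rfl (fun j _ => hsame j), sum_const, card_univ, ZMod.card, smul_eq_mul] at htot
  exact htot

/-- a natural multiple: the fibres of `X ↦ m X + Z` have at most `m` elements -/
theorem cnt_mul_le (m : ℕ) (hm : 0 < m) (Z : ZMod L) (p : ZMod L → Prop) :
    cnt (fun X => p ((m : ZMod L) * X + Z)) ≤ m * cnt p := by
  classical
  unfold cnt
  have h1 : ((univ.filter (fun X : ZMod L => p ((m : ZMod L) * X + Z))).image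
      (fun X => (m : ZMod L) * X + Z)) ⊆ univ.filter p := by
    intro y hy
    obtain ⟨X, hX, rfl⟩ := mem_image.1 hy
    simpa using hX
  refine le_trans ?_ (Nat.mul_le_mul_left m (card_le_card h1))
  refine card_le_mul_card_image _ m ?_
  intro b hb
  obtain ⟨X0, hX0, hX0'⟩ := mem_image.1 hb
  have h2 : ((univ.filter (fun X : ZMod L => p ((m : ZMod L) * X + Z))).filter
      (fun X => (m : ZMod L) * X + Z = b)).card ≤
      (univ.filter (fun a : ZMod L => m • a = 0)).card := by
    refine card_le_card_of_injOn (fun X => X - X0) ?_ ?_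
    · intro X hX
      simp only [coe_filter, mem_filter, mem_univ, true_and, Set.mem_ofPred_eq] at hX ⊢
      rw [nsmul_eq_mul, mul_sub]
      have : (m : ZMod L) * X + Z = (m : ZMod L) * X0 + Z := by rw [hX.2, hX0']
      have h3 := add_right_cancel this
      rw [h3, sub_self]
    · intro X _ Y _ h
      exact sub_left_injective h
  exact h2.trans (IsAddCyclic.card_nsmul_eq_zero_le hm)

end Count

/-! ### the star lemma -/

theorem exists_avoid {q : ℕ} (s : Finset (ZMod q)) [NeZero q] (h : s.card < q) : ∃ z, z ∉ s := by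
  classical
  have h2 : s.card < (univ : Finset (ZMod q)).card := by rwa [card_univ, ZMod.card]
  obtain ⟨z, -, hz⟩ := exists_mem_notMem_of_card_lt_card h2
  exact ⟨z, hz⟩

/-- pairwise intersecting 2-sets `{i, f i}` form a star -/
theorem star_comb {q : ℕ} [NeZero q] (hq : 5 ≤ q) (f : ZMod q → ZMod q) (hf : ∀ i, f i ≠ i)
    (h : ∀ i j, i ≠ j → i = f j ∨ f i = j ∨ f i = f j) : ∃ c, ∀ i, i ≠ c → f i = c := by
  classical
  by_cases h0 : ∀ i, i ≠ f 0 → f i = f 0
  · exact ⟨f 0, h0⟩
  push Not at h0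
  obtain ⟨j, hj1, hj2⟩ := h0
  have hj0 : j ≠ 0 := by rintro rfl; exact hj2 rfl
  have hfj : f j = 0 := by
    rcases h 0 j (Ne.symm hj0) with h1 | h1 | h1
    · exact h1.symm
    · exact absurd h1.symm hj1
    · exact absurd h1.symm hj2
  refine ⟨0, fun k hk => ?_⟩
  by_contra hfk
  by_cases hkc : k = f 0
  · subst hkc
    have h1 : f (f 0) = j := by
      rcases h (f 0) j (Ne.symm hj1) with h1 | h1 | h1
      · rw [hfj] at h1; exact absurd h1 (hf 0)
      · exact h1
      · rw [hfj] at h1; exact absurd h1 hfk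
    obtain ⟨m, hm⟩ := exists_avoid ({0, f 0, j} : Finset (ZMod q))
      (lt_of_le_of_lt (card_le_three) (by omega))
    simp only [mem_insert, mem_singleton, not_or] at hm
    obtain ⟨hm0, hmc, hmj⟩ := hm
    have e0 := h m 0 hm0
    have e1 := h m (f 0) hmc
    have e2 := h m j hmj
    rw [h1] at e1
    rw [hfj] at e2
    have a0 : f m = 0 ∨ f m = f 0 := by
      rcases e0 with e | e | e
      · exact absurd e hmc
      · exact Or.inl e
      · exact Or.inr e
    have a1 : f m = f 0 ∨ f m = j := by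
      rcases e1 with e | e | e
      · exact absurd e hmj
      · exact Or.inl e
      · exact Or.inr e
    have a2 : f m = j ∨ f m = 0 := by
      rcases e2 with e | e | e
      · exact absurd e hm0
      · exact Or.inl e
      · exact Or.inr e
    have n1 := hf 0
    rcases a0 with a0 | a0 <;> rcases a1 with a1 | a1 <;> rcases a2 with a2 | a2 <;>
      simp_all
  · have h1 : f k = f 0 := by
      rcases h k 0 hk with h1 | h1 | h1
      · exact absurd h1 hkc
      · exact absurd h1 hfk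
      · exact h1
    have hkj : k ≠ j := by
      rintro rfl
      rw [hfj] at h1
      exact hf 0 h1.symm
    rcases h k j hkj with h2 | h2 | h2
    · rw [hfj] at h2; exact hk h2
    · rw [h1] at h2; exact hj1 h2.symm
    · rw [h1, hfj] at h2; exact hf 0 h2

section Star

variable {L q : ℕ} [NeZero L]

/-- The robust star lemma. -/
theorem star (hqL : q ∣ L) (hq : 5 ≤ q) (A B : ZMod L → ZMod q)
    (hA : ∀ x, A x ≠ 0) (Bad : ZMod L → ZMod L → Prop)
    (hrel : ∀ x z, ¬ Bad x z → ZMod.castHom hqL (ZMod q) z ≠ ZMod.castHom hqL (ZMod q) x →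
      B z = A x + (ZMod.castHom hqL (ZMod q) z - ZMod.castHom hqL (ZMod q) x) ∨
      B z = ZMod.castHom hqL (ZMod q) z - ZMod.castHom hqL (ZMod q) x ∨
      A x = ZMod.castHom hqL (ZMod q) x - ZMod.castHom hqL (ZMod q) z)
    (OK : ZMod L → Prop) (hOK : ∀ x, OK x → 2 * q * cnt (fun z => Bad x z) < L)
    (hex : q * cnt (fun x => ¬ OK x) < L) :
    ∃ c : ZMod q, (∀ x, OK x → ZMod.castHom hqL (ZMod q) x ≠ c →
        A x = ZMod.castHom hqL (ZMod q) x - c) ∧
      (∀ z, ZMod.castHom hqL (ZMod q) z ≠ c →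
        q * (cnt (fun x => Bad x z) + cnt (fun x => ¬ OK x)) < L →
        B z = ZMod.castHom hqL (ZMod q) z - c) := by
  classical
  have hq0 : q ≠ 0 := by omega
  have : NeZero q := ⟨hq0⟩
  have hqpos : 0 < q := Nat.pos_of_ne_zero hq0
  set π := ZMod.castHom hqL (ZMod q) with hπ
  have hclass : ∀ i, q * cnt (fun x : ZMod L => π x = i) = L := fun i => cnt_class hqL i
  -- claim 1
  have c1 : ∀ x z, ¬ Bad x z → π z ≠ π x → π z ≠ π x - A x →
      π z - B z = π x ∨ π z - B z = π x - A x := by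
    intro x z h1 h2 h3
    rcases hrel x z h1 h2 with h | h | h
    · right; rw [h]; ring
    · left; rw [h]; ring
    · exact absurd (by rw [h]; ring) h3
  -- claim 2
  have c2 : ∀ x y, OK x → OK y → π x = π y ∨ π x = π y - A y ∨ π x - A x = π y ∨
      π x - A x = π y - A y := by
    intro x y hx hy
    by_contra hcon
    push Not at hcon
    obtain ⟨n1, n2, n3, n4⟩ := hcon
    obtain ⟨ζ, hζ⟩ := exists_avoid ({π x, π x - A x, π y, π y - A y} : Finset (ZMod q))
      (lt_of_le_of_lt card_le_four (by omega))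
    simp only [mem_insert, mem_singleton, not_or] at hζ
    obtain ⟨z1, z2, z3, z4⟩ := hζ
    have h1 := hOK x hx
    have h2 := hOK y hy
    have h3 : cnt (fun z => Bad x z ∨ Bad y z) < cnt (fun z => π z = ζ) := by
      have h4 := cnt_or (fun z => Bad x z) (fun z => Bad y z)
      have h5 := hclass ζ
      by_contra h6
      push Not at h6
      have h7 := Nat.mul_le_mul_left (2 * q) (h6.trans h4)
      have h8 : 2 * q * cnt (fun z => π z = ζ) = 2 * L := by rw [mul_assoc, h5]
      rw [h8, mul_add] at h7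
      omega
    obtain ⟨z, hz1, hz2⟩ := exists_of_cnt_lt h3
    simp only [not_or] at hz2
    have e1 := c1 x z hz2.1 (by rw [hz1]; exact z1) (by rw [hz1]; exact z2)
    have e2 := c1 y z hz2.2 (by rw [hz1]; exact z3) (by rw [hz1]; exact z4)
    rcases e1 with e1 | e1 <;> rcases e2 with e2 | e2
    · exact n1 (e1.symm.trans e2)
    · exact n2 (e1.symm.trans e2)
    · exact n3 (e1.symm.trans e2)
    · exact n4 (e1.symm.trans e2)
  -- OK points in each class
  have c3 : ∀ i, ∃ x, π x = i ∧ OK x := by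
    intro i
    have h1 : cnt (fun x => ¬ OK x) < cnt (fun x => π x = i) := by
      by_contra h2
      push Not at h2
      have h3 := Nat.mul_le_mul_left q h2
      rw [hclass i] at h3
      omega
    obtain ⟨x, hx1, hx2⟩ := exists_of_cnt_lt h1
    exact ⟨x, hx1, not_not.1 hx2⟩
  choose g hg1 hg2 using c3
  obtain ⟨c, hc⟩ := star_comb hq (fun i => i - A (g i)) (fun i h => hA (g i) (by
      have : A (g i) = i - (i - A (g i)) := by ring
      rw [this, h, sub_self])) (by
    intro i j hij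
    have := c2 (g i) (g j) (hg2 i) (hg2 j)
    rw [hg1, hg1] at this
    rcases this with h | h | h | h
    · exact absurd h hij
    · exact Or.inl h
    · exact Or.inr (Or.inl h)
    · exact Or.inr (Or.inr h))
  have hAx : ∀ x, OK x → π x ≠ c → π x - A x = c := by
    intro x hx hxc
    by_contra hcon
    obtain ⟨i, hi⟩ := exists_avoid ({c, π x, π x - A x} : Finset (ZMod q))
      (lt_of_le_of_lt card_le_three (by omega))
    simp only [mem_insert, mem_singleton, not_or] at hi
    obtain ⟨i1, i2, i3⟩ := hi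
    have h1 := c2 x (g i) hx (hg2 i)
    rw [hg1, hc i i1] at h1
    rcases h1 with h | h | h | h
    · exact i2 h.symm
    · exact hxc h
    · exact i3 h.symm
    · exact hcon h
  refine ⟨c, fun x hx hxc => ?_, fun z hzc hz => ?_⟩
  · rw [← hAx x hx hxc]; ring
  · -- for each class there is an OK point, not bad with `z`
    have c4 : ∀ i, ∃ x, π x = i ∧ OK x ∧ ¬ Bad x z := by
      intro i
      have h1 : cnt (fun x => Bad x z ∨ ¬ OK x) < cnt (fun x => π x = i) := by
        have h4 := cnt_or (fun x => Bad x z) (fun x => ¬ OK x)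
        by_contra h2
        push Not at h2
        have h3 := Nat.mul_le_mul_left q (h2.trans h4)
        rw [hclass i] at h3
        omega
      obtain ⟨x, hx1, hx2⟩ := exists_of_cnt_lt h1
      simp only [not_or, not_not] at hx2
      exact ⟨x, hx1, hx2.2, hx2.1⟩
    have c5 : ∀ i, i ≠ c → i ≠ π z → π z - B z = i ∨ π z - B z = c := by
      intro i hi1 hi2
      obtain ⟨x, hx1, hx2, hx3⟩ := c4 i
      have h1 := hAx x hx2 (by rw [hx1]; exact hi1)
      have h2 := c1 x z hx3 (by rw [hx1]; exact Ne.symm hi2) (by rw [h1]; exact hzc)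
      rw [h1, hx1] at h2
      exact h2
    obtain ⟨i, hi⟩ := exists_avoid ({c, π z} : Finset (ZMod q))
      (lt_of_le_of_lt card_le_two (by omega))
    obtain ⟨j, hj⟩ := exists_avoid ({c, π z, i} : Finset (ZMod q))
      (lt_of_le_of_lt card_le_three (by omega))
    simp only [mem_insert, mem_singleton, not_or] at hi hj
    have h1 := c5 i hi.1 hi.2
    have h2 := c5 j hj.1 hj.2.1
    have h3 : π z - B z = c := by
      rcases h1 with h1 | h1
      · rcases h2 with h2 | h2
        · exact absurd (h2.symm.trans h1) hj.2.2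
        · exact h2
      · exact h1
    rw [← h3]; ring

end Star

/-! ### the sudoku system -/

/-- the pointwise relation (`s = F x`, `e = E y`, `k = K (x + y)`, `g = G (x + q y)`) -/
def Rel {q : ℕ} (s e k g : ZMod q) : Prop :=
  (k = e → g = s + e ∨ g = e ∨ s = -e) ∧ (g = s → k = s + e ∨ k = s ∨ e = -s)

theorem Rel.symm {q : ℕ} {s e k g : ZMod q} (h : Rel s e k g) : Rel e s g k := by
  refine ⟨fun h1 => ?_, fun h1 => ?_⟩
  · rcases h.2 h1 with h2 | h2 | h2
    · left; rw [h2, add_comm]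
    · right; left; exact h2
    · right; right; exact h2
  · rcases h.1 h1 with h2 | h2 | h2
    · left; rw [h2, add_comm]
    · right; left; exact h2
    · right; right; exact h2

section Sys

variable {L : ℕ} [NeZero L]

/-- scale invariantly thin sets: every progression of ratio a power of `q` meets `S` in a
fraction at most `1 / N` -/
def Thin (q N : ℕ) (S : Set (ZMod L)) : Prop :=
  ∀ (k : ℕ) (c : ZMod L), N * cnt (fun t => (q : ZMod L) ^ k * t + c ∈ S) ≤ L

theorem Thin.comp {q N : ℕ} {S : Set (ZMod L)} (h : Thin q N S) (a : ZMod L) :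
    Thin q N {t | (q : ZMod L) * t + a ∈ S} := by
  intro k c
  have h1 := h (k + 1) ((q : ZMod L) * c + a)
  refine le_trans (le_of_eq ?_) h1
  congr 1
  refine cnt_congr fun t => ?_
  have e : (q : ZMod L) * ((q : ZMod L) ^ k * t + c) + a =
      (q : ZMod L) ^ (k + 1) * t + ((q : ZMod L) * c + a) := by ring
  show (q : ZMod L) * ((q : ZMod L) ^ k * t + c) + a ∈ S ↔ _
  rw [e]

theorem Thin.one {q N : ℕ} {S : Set (ZMod L)} (h : Thin q N S) :
    N * cnt (fun t => t ∈ S) ≤ L := by
  refine le_trans (le_of_eq ?_) (h 0 0)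
  congr 1
  refine cnt_congr fun t => ?_
  rw [pow_zero, one_mul, add_zero]

theorem Thin.mul {q N : ℕ} {S : Set (ZMod L)} (h : Thin q N S) :
    N * cnt (fun t => (q : ZMod L) * t ∈ S) ≤ L := by
  refine le_trans (le_of_eq ?_) (h 1 0)
  congr 1
  refine cnt_congr fun t => ?_
  rw [pow_one, add_zero]

/-- a sudoku with holes -/
structure Sys (q N : ℕ) (F E K G : ZMod L → ZMod q) (hF hE hK hG : ZMod L → Set (ZMod L)) :
    Prop where
  F0 : ∀ x, F x ≠ 0
  E0 : ∀ x, E x ≠ 0
  K0 : ∀ x, K x ≠ 0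
  G0 : ∀ x, G x ≠ 0
  thF : ∀ x, Thin q N (hF x)
  thE : ∀ x, Thin q N (hE x)
  thK : ∀ x, Thin q N (hK x)
  thG : ∀ x, Thin q N (hG x)
  rel : ∀ x y, y ∉ hF x → x ∉ hE y → x ∉ hK (x + y) → y ∉ hG (x + q * y) →
    Rel (F x) (E y) (K (x + y)) (G (x + q * y))

/-- the renormalised system -/
theorem Sys.renorm {q N : ℕ} {F E K G : ZMod L → ZMod q}
    {hF hE hK hG : ZMod L → Set (ZMod L)} (S : Sys q N F E K G hF hE hK hG) (c : ZMod L) :
    Sys q N E (fun y => F (q * (c + y))) (fun z => G (q * (c + z))) (fun w => K (q * c + w))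
      (fun x => {t | (q : ZMod L) * t + q * c ∈ hE x}) (fun y => hF (q * (c + y)))
      (fun z => hG (q * (c + z))) (fun w => {t | (q : ZMod L) * t + q * c ∈ hK (q * c + w)}) where
  F0 := S.E0
  E0 := fun y => S.F0 _
  K0 := fun y => S.G0 _
  G0 := fun y => S.K0 _
  thF := fun x => (S.thE x).comp _
  thE := fun y => S.thF _
  thK := fun z => S.thG _
  thG := fun w => (S.thK _).comp _
  rel := by
    intro x y h1 h2 h3 h4
    have h := S.rel (q * (c + y)) x
    have e1 : (q : ZMod L) * y + q * c = q * (c + y) := by ring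
    have e2 : (q : ZMod L) * (c + y) + x = q * c + (x + q * y) := by ring
    have e3 : (q : ZMod L) * (c + y) + q * x = q * (c + (x + y)) := by ring
    rw [e2, e3] at h
    refine (h h2 ?_ ?_ h3).symm
    · intro h5
      exact h1 (by show (q : ZMod L) * y + q * c ∈ hE x; rw [e1]; exact h5)
    · intro h5
      exact h4 (by show (q : ZMod L) * y + q * c ∈ hK _; rw [e1]; exact h5)

/-- the half step -/
theorem Sys.step {q N : ℕ} (hqL : q ∣ L) (hq : 5 ≤ q) (hN : 64 * q ^ 3 ≤ N)
    {F E K G : ZMod L → ZMod q}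
    {hF hE hK hG : ZMod L → Set (ZMod L)} (S : Sys q N F E K G hF hE hK hG)
    (exE : 4 * q ^ 2 * cnt (fun y => ZMod.castHom hqL (ZMod q) y ≠ 0 ∧
      E y ≠ ZMod.castHom hqL (ZMod q) y) ≤ L)
    (exK : 4 * q ^ 2 * cnt (fun y => ZMod.castHom hqL (ZMod q) y ≠ 0 ∧
      K y ≠ ZMod.castHom hqL (ZMod q) y) ≤ L) :
    ∃ c : ZMod L, 4 * q ^ 2 * cnt (fun y => ZMod.castHom hqL (ZMod q) y ≠ 0 ∧
        F (q * (c + y)) ≠ ZMod.castHom hqL (ZMod q) y) ≤ L ∧
      4 * q ^ 2 * cnt (fun y => ZMod.castHom hqL (ZMod q) y ≠ 0 ∧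
        G (q * (c + y)) ≠ ZMod.castHom hqL (ZMod q) y) ≤ L := by
  classical
  have hL : 0 < L := Nat.pos_of_ne_zero (NeZero.ne L)
  set π := ZMod.castHom hqL (ZMod q) with hπ
  have hπq : π (q : ZMod L) = 0 := by rw [map_natCast]; exact ZMod.natCast_self q
  set xE : ZMod L → Prop := fun y => π y ≠ 0 ∧ E y ≠ π y with hxE
  set xK : ZMod L → Prop := fun y => π y ≠ 0 ∧ K y ≠ π y with hxK
  set Vd : ZMod L → ZMod L → Prop := fun X Z =>
    ((Z - X ∈ hF (q * X) ∨ (q : ZMod L) * X ∈ hE (Z - X)) ∨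
    ((q : ZMod L) * X ∈ hK (q * X + (Z - X)) ∨ Z - X ∈ hG (q * Z))) with hVd
  set Bad : ZMod L → ZMod L → Prop := fun X Z =>
    Vd X Z ∨ (xE (Z - X) ∨ xK (q * X + (Z - X))) with hBad
  -- total number of void pairs
  have hV : N * ∑ X, cnt (fun Z => Vd X Z) ≤ 4 * L * L := by
    have h1 : ∀ X, cnt (fun Z => Vd X Z) ≤
        (cnt (fun Z : ZMod L => Z - X ∈ hF ((q : ZMod L) * X)) +
          cnt (fun Z : ZMod L => (q : ZMod L) * X ∈ hE (Z - X))) +
        (cnt (fun Z : ZMod L => (q : ZMod L) * X ∈ hK ((q : ZMod L) * X + (Z - X))) +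
          cnt (fun Z : ZMod L => Z - X ∈ hG ((q : ZMod L) * Z))) := by
      intro X
      refine (cnt_or _ _).trans (add_le_add (cnt_or _ _) (cnt_or _ _))
    have h2 : ∑ X, cnt (fun Z => Vd X Z) ≤
        ((∑ X, cnt (fun Z : ZMod L => Z - X ∈ hF ((q : ZMod L) * X))) +
          ∑ X, cnt (fun Z : ZMod L => (q : ZMod L) * X ∈ hE (Z - X))) +
        ((∑ X, cnt (fun Z : ZMod L => (q : ZMod L) * X ∈ hK ((q : ZMod L) * X + (Z - X)))) +
          ∑ X, cnt (fun Z : ZMod L => Z - X ∈ hG ((q : ZMod L) * Z))) := by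
      rw [← sum_add_distrib, ← sum_add_distrib, ← sum_add_distrib]
      exact sum_le_sum fun X _ => h1 X
    have s1 : N * ∑ X, cnt (fun Z : ZMod L => Z - X ∈ hF (q * X)) ≤ L * L := by
      refine sum_le_of_le (a := L) (fun X => ?_) le_rfl
      have := cnt_equiv (Equiv.subRight X) (fun t => t ∈ hF (q * X))
      simp only [Equiv.subRight_apply] at this
      rw [this]
      exact (S.thF _).one
    have s2 : N * ∑ X, cnt (fun Z : ZMod L => (q : ZMod L) * X ∈ hE (Z - X)) ≤ L * L := by
      have e1 : ∑ X, cnt (fun Z : ZMod L => (q : ZMod L) * X ∈ hE (Z - X)) =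
          ∑ X, cnt (fun Z : ZMod L => (q : ZMod L) * X ∈ hE Z) := by
        refine sum_congr rfl fun X _ => ?_
        exact cnt_equiv (Equiv.subRight X) (fun t => (q : ZMod L) * X ∈ hE t)
      rw [e1, sum_cnt_comm]
      exact sum_le_of_le (a := L) (fun X => (S.thE _).mul) le_rfl
    have s3 : N * ∑ X, cnt (fun Z : ZMod L => (q : ZMod L) * X ∈ hK (q * X + (Z - X))) ≤
        L * L := by
      have e1 : ∑ X, cnt (fun Z : ZMod L => (q : ZMod L) * X ∈ hK (q * X + (Z - X))) =
          ∑ X, cnt (fun Z : ZMod L => (q : ZMod L) * X ∈ hK Z) := by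
        refine sum_congr rfl fun X _ => ?_
        exact cnt_equiv ((Equiv.subRight X).trans (Equiv.addLeft ((q : ZMod L) * X)))
          (fun t => (q : ZMod L) * X ∈ hK t)
      rw [e1, sum_cnt_comm]
      exact sum_le_of_le (a := L) (fun X => (S.thK _).mul) le_rfl
    have s4 : N * ∑ X, cnt (fun Z : ZMod L => Z - X ∈ hG (q * Z)) ≤ L * L := by
      rw [sum_cnt_comm]
      refine sum_le_of_le (a := L) (fun Z => ?_) le_rfl
      have := cnt_equiv (Equiv.subLeft Z) (fun t => t ∈ hG (q * Z))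
      simp only [Equiv.subLeft_apply] at this
      rw [this]
      exact (S.thG _).one
    calc N * ∑ X, cnt (fun Z => Vd X Z) ≤ N * _ := Nat.mul_le_mul_left N h2
      _ ≤ 4 * L * L := by
        rw [mul_add, mul_add, mul_add]
        have : 4 * L * L = L * L + L * L + (L * L + L * L) := by ring
        rw [this]
        exact add_le_add (add_le_add s1 s2) (add_le_add s3 s4)
  have hV' : N * ∑ Z, cnt (fun X => Vd X Z) ≤ 4 * L * L := by
    rw [← sum_cnt_comm]; exact hV
  -- bad counts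
  have hb1 : ∀ X, cnt (fun Z => Bad X Z) ≤ cnt (fun Z => Vd X Z) + (cnt xE + cnt xK) := by
    intro X
    refine (cnt_or _ _).trans (Nat.add_le_add_left ((cnt_or _ _).trans (add_le_add ?_ ?_)) _)
    · exact le_of_eq (cnt_equiv (Equiv.subRight X) xE)
    · exact le_of_eq (cnt_equiv ((Equiv.subRight X).trans (Equiv.addLeft ((q : ZMod L) * X))) xK)
  have hb2 : ∀ Z, cnt (fun X => Bad X Z) ≤ cnt (fun X => Vd X Z) + (cnt xE + q * cnt xK) := by
    intro Z
    refine (cnt_or _ _).trans (Nat.add_le_add_left ((cnt_or _ _).trans (add_le_add ?_ ?_)) _)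
    · exact le_of_eq (cnt_equiv (Equiv.subLeft Z) xE)
    · have h1 := cnt_mul_le (q - 1) (by omega) Z xK
      have h2 : cnt (fun X : ZMod L => xK (q * X + (Z - X))) =
          cnt (fun X => xK (((q - 1 : ℕ) : ZMod L) * X + Z)) := by
        refine cnt_congr fun X => ?_
        have e : (q : ZMod L) * X + (Z - X) = ((q - 1 : ℕ) : ZMod L) * X + Z := by
          rw [Nat.cast_sub (by omega)]; push_cast; ring
        rw [e]
      rw [h2]
      exact h1.trans (Nat.mul_le_mul_right _ (by omega))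
  -- OK lines
  set OK : ZMod L → Prop := fun X => 4 * q * cnt (fun Z => Vd X Z) < L with hOKdef
  have hxEK : 4 * q ^ 2 * (cnt xE + cnt xK) ≤ 2 * L := by
    rw [mul_add]; omega
  have hOK : ∀ X, OK X → 2 * q * cnt (fun Z => Bad X Z) < L := by
    intro X hX
    have h1 := hb1 X
    have hX' : 4 * q * cnt (fun Z => Vd X Z) < L := hX
    have h2 : 4 * q * cnt (fun Z => Bad X Z) ≤
        4 * q * cnt (fun Z => Vd X Z) + 4 * q * (cnt xE + cnt xK) := by
      rw [← mul_add]; exact Nat.mul_le_mul_left _ h1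
    have h3 : 5 * (4 * q * (cnt xE + cnt xK)) ≤ 2 * L := by
      refine le_trans ?_ hxEK
      have : 4 * q ^ 2 * (cnt xE + cnt xK) = q * (4 * q * (cnt xE + cnt xK)) := by ring
      rw [this]
      exact Nat.mul_le_mul_right _ hq
    have h4 : 4 * q * cnt (fun Z => Bad X Z) = 2 * (2 * q * cnt (fun Z => Bad X Z)) := by ring
    omega
  have hnOK : N * cnt (fun X => ¬ OK X) ≤ 16 * q * L := by
    have h1 := markov (fun X => 4 * q * cnt (fun Z => Vd X Z)) L
    have h2 : cnt (fun X => ¬ OK X) = cnt (fun X => L ≤ 4 * q * cnt (fun Z => Vd X Z)) :=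
      cnt_congr fun X => not_lt
    rw [← h2, ← mul_sum] at h1
    have h3 : L * (N * cnt (fun X => ¬ OK X)) ≤ L * (16 * q * L) := by
      calc L * (N * cnt (fun X => ¬ OK X)) = N * (L * cnt (fun X => ¬ OK X)) := by ring
        _ ≤ N * (4 * q * ∑ X, cnt (fun Z => Vd X Z)) := Nat.mul_le_mul_left _ h1
        _ = 4 * q * (N * ∑ X, cnt (fun Z => Vd X Z)) := by ring
        _ ≤ 4 * q * (4 * L * L) := Nat.mul_le_mul_left _ hV
        _ = L * (16 * q * L) := by ring
    exact Nat.le_of_mul_le_mul_left h3 hL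
  have hsmall : ∀ m : ℕ, N * m ≤ 16 * q * L → 4 * q ^ 2 * m ≤ L := by
    intro m hm
    have h1 : 64 * q ^ 3 * m ≤ 16 * q * L := (Nat.mul_le_mul_right m hN).trans hm
    have h2 : (16 * q) * (4 * q ^ 2 * m) ≤ (16 * q) * L := by
      calc (16 * q) * (4 * q ^ 2 * m) = 64 * q ^ 3 * m := by ring
        _ ≤ _ := h1
    exact Nat.le_of_mul_le_mul_left h2 (by omega)
  have hnOK' : 4 * q ^ 2 * cnt (fun X => ¬ OK X) ≤ L := hsmall _ hnOK
  have hq20 : 20 * (q * cnt (fun X => ¬ OK X)) ≤ L := by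
    refine le_trans ?_ hnOK'
    have : 4 * q ^ 2 * cnt (fun X => ¬ OK X) = (4 * q) * (q * cnt (fun X => ¬ OK X)) := by ring
    rw [this]
    exact Nat.mul_le_mul_right _ (by omega)
  have hex : q * cnt (fun X => ¬ OK X) < L := by omega
  obtain ⟨c, hc1, hc2⟩ := star hqL hq (fun X => F ((q : ZMod L) * X)) (fun Z => G ((q : ZMod L) * Z))
    (fun X => S.F0 _) Bad (by
      intro X Z hnb hne
      have hnv : ¬ Vd X Z := fun h => hnb (Or.inl h)
      have hnE : ¬ xE (Z - X) := fun h => hnb (Or.inr (Or.inl h))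
      have hnK : ¬ xK (q * X + (Z - X)) := fun h => hnb (Or.inr (Or.inr h))
      simp only [hVd, not_or] at hnv
      obtain ⟨⟨v1, v2⟩, v3, v4⟩ := hnv
      have e1 : (q : ZMod L) * X + q * (Z - X) = q * Z := by ring
      have hr := S.rel (q * X) (Z - X) v1 v2 v3 (by rw [e1]; exact v4)
      rw [e1] at hr
      have hd : π (Z - X) ≠ 0 := by rw [map_sub]; exact sub_ne_zero.2 hne
      have hE' : E (Z - X) = π (Z - X) := by
        by_contra h; exact hnE ⟨hd, h⟩
      have hd2 : π ((q : ZMod L) * X + (Z - X)) = π (Z - X) := by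
        rw [map_add, map_mul, hπq, zero_mul, zero_add]
      have hK' : K (q * X + (Z - X)) = π (Z - X) := by
        by_contra h
        exact hnK ⟨by rw [hd2]; exact hd, by rw [hd2]; exact h⟩
      rw [hE', hK'] at hr
      rcases hr.1 rfl with h | h | h
      · left; rw [h, map_sub]
      · right; left; rw [h, map_sub]
      · right; right; rw [h, map_sub]; ring) OK hOK hex
  obtain ⟨c', hc'⟩ := ZMod.castHom_surjective hqL c
  change π c' = c at hc'
  refine ⟨c', ?_, ?_⟩
  · -- F
    refine le_trans (Nat.mul_le_mul_left _ ?_) hnOK'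
    have h1 := cnt_equiv (Equiv.addLeft c') (fun X => ¬ OK X)
    rw [← h1]
    refine cnt_mono fun y hy => ?_
    simp only [Equiv.coe_addLeft]
    intro hok
    apply hy.2
    have h2 := hc1 (c' + y) hok (by rw [map_add]; change π c' + π y ≠ c; rw [hc']; simpa using hy.1)
    rw [h2]
    change π (c' + y) - c = π y
    rw [map_add, hc']; ring
  · -- G
    have hZ : ∀ Z, π Z ≠ c → G (q * Z) ≠ π Z - c → L ≤ 2 * q * cnt (fun X => Vd X Z) := by
      intro Z h1 h2
      by_contra h3
      push Not at h3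
      apply h2
      refine hc2 Z h1 ?_
      have h4 := hb2 Z
      have h5 : 4 * q * cnt (fun X => Bad X Z) ≤
          2 * (2 * q * cnt (fun X => Vd X Z)) + 4 * q * (cnt xE + q * cnt xK) := by
        have := Nat.mul_le_mul_left (4 * q) h4
        rw [mul_add] at this
        refine this.trans (le_of_eq ?_)
        ring
      have h6 : 4 * q * (q * cnt xK) ≤ L := by
        refine le_trans (le_of_eq ?_) exK
        ring
      have h7 : 5 * (4 * q * cnt xE) ≤ L := by
        refine le_trans ?_ exE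
        have : 4 * q ^ 2 * cnt xE = q * (4 * q * cnt xE) := by ring
        rw [this]
        exact Nat.mul_le_mul_right _ hq
      have h8 : 4 * q * cnt (fun X => Bad X Z) = 4 * (q * cnt (fun X => Bad X Z)) := by ring
      rw [mul_add] at h5 ⊢
      omega
    refine hsmall _ ?_
    have h1 : cnt (fun y => π y ≠ 0 ∧ G (q * (c' + y)) ≠ π y) ≤
        cnt (fun Z => L ≤ 2 * q * cnt (fun X => Vd X Z)) := by
      rw [← cnt_equiv (Equiv.addLeft c') (fun Z => L ≤ 2 * q * cnt (fun X => Vd X Z))]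
      refine cnt_mono fun y hy => ?_
      simp only [Equiv.coe_addLeft]
      refine hZ (c' + y) ?_ ?_
      · rw [map_add, hc']; simpa using hy.1
      · intro h; apply hy.2; rw [h, map_add, hc']; ring
    have h2 := markov (fun Z => 2 * q * cnt (fun X => Vd X Z)) L
    rw [← mul_sum] at h2
    have h3 : L * (N * cnt (fun Z => L ≤ 2 * q * cnt (fun X => Vd X Z))) ≤ L * (16 * q * L) := by
      calc L * (N * cnt (fun Z => L ≤ 2 * q * cnt (fun X => Vd X Z)))
          = N * (L * cnt (fun Z => L ≤ 2 * q * cnt (fun X => Vd X Z))) := by ring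
        _ ≤ N * (2 * q * ∑ Z, cnt (fun X => Vd X Z)) := Nat.mul_le_mul_left _ h2
        _ = 2 * q * (N * ∑ Z, cnt (fun X => Vd X Z)) := by ring
        _ ≤ 2 * q * (4 * L * L) := Nat.mul_le_mul_left _ hV'
        _ = L * (8 * q * L) := by ring
        _ ≤ L * (16 * q * L) := Nat.mul_le_mul_left _ (Nat.mul_le_mul_right _ (by omega))
    exact (Nat.mul_le_mul_left N h1).trans (Nat.le_of_mul_le_mul_left h3 hL)

/-- invariance under all `t` with `q ^ i * t = 0` -/
def Per {q : ℕ} (i : ℕ) (F : ZMod L → ZMod q) : Prop :=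
  ∀ t : ZMod L, (q : ZMod L) ^ i * t = 0 → ∀ x, F (x + t) = F x

theorem Sys.iterate {q N : ℕ} (hqL : q ∣ L) (hq : 5 ≤ q) (hN : 64 * q ^ 3 ≤ N)
    (i j : ℕ) (h : ∃ (F E K G : ZMod L → ZMod q) (hF hE hK hG : ZMod L → Set (ZMod L)),
      Sys q N F E K G hF hE hK hG ∧
      4 * q ^ 2 * cnt (fun y => ZMod.castHom hqL (ZMod q) y ≠ 0 ∧
        E y ≠ ZMod.castHom hqL (ZMod q) y) ≤ L ∧
      4 * q ^ 2 * cnt (fun y => ZMod.castHom hqL (ZMod q) y ≠ 0 ∧
        K y ≠ ZMod.castHom hqL (ZMod q) y) ≤ L ∧ Per i F ∧ Per i G ∧ Per j E ∧ Per j K) :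
    ∃ (F E K G : ZMod L → ZMod q) (hF hE hK hG : ZMod L → Set (ZMod L)),
      Sys q N F E K G hF hE hK hG ∧
      4 * q ^ 2 * cnt (fun y => ZMod.castHom hqL (ZMod q) y ≠ 0 ∧
        E y ≠ ZMod.castHom hqL (ZMod q) y) ≤ L ∧
      4 * q ^ 2 * cnt (fun y => ZMod.castHom hqL (ZMod q) y ≠ 0 ∧
        K y ≠ ZMod.castHom hqL (ZMod q) y) ≤ L ∧ Per j F ∧ Per j G ∧ Per (i + 1) E ∧
        Per (i + 1) K := by
  obtain ⟨F, E, K, G, hF, hE, hK, hG, S, e1, e2, p1, p2, p3, p4⟩ := h
  obtain ⟨c, c1, c2⟩ := S.step hqL hq hN e1 e2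
  refine ⟨_, _, _, _, _, _, _, _, S.renorm c, c1, c2, p3, ?_, ?_, ?_⟩
  · intro t ht x
    show K (q * c + (x + t)) = K (q * c + x)
    rw [← add_assoc]
    exact p4 t ht _
  · intro t ht x
    show F (q * (c + (x + t))) = F (q * (c + x))
    have e : (q : ZMod L) * (c + (x + t)) = q * (c + x) + q * t := by ring
    rw [e]
    refine p1 _ ?_ _
    rw [← mul_assoc, ← pow_succ]
    exact ht
  · intro t ht x
    show G (q * (c + (x + t))) = G (q * (c + x))
    have e : (q : ZMod L) * (c + (x + t)) = q * (c + x) + q * t := by ring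
    rw [e]
    refine p2 _ ?_ _
    rw [← mul_assoc, ← pow_succ]
    exact ht

/-- **The hole-robust sudoku has no periodic solution.** -/
theorem no_sys {q N : ℕ} (hqL : q ∣ L) (hq : 5 ≤ q) (hN : 64 * q ^ 3 ≤ N)
    {F E K G : ZMod L → ZMod q}
    {hF hE hK hG : ZMod L → Set (ZMod L)} (S : Sys q N F E K G hF hE hK hG)
    (bE : ∀ y, ZMod.castHom hqL (ZMod q) y ≠ 0 → E y = ZMod.castHom hqL (ZMod q) y)
    (bK : ∀ y, ZMod.castHom hqL (ZMod q) y ≠ 0 → K y = ZMod.castHom hqL (ZMod q) y) : False := by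
  classical
  have hL : 0 < L := Nat.pos_of_ne_zero (NeZero.ne L)
  have hqne : NeZero q := ⟨by omega⟩
  have hzero : ∀ H : ZMod L → ZMod q,
      (∀ y, ZMod.castHom hqL (ZMod q) y ≠ 0 → H y = ZMod.castHom hqL (ZMod q) y) →
      4 * q ^ 2 * cnt (fun y => ZMod.castHom hqL (ZMod q) y ≠ 0 ∧
        H y ≠ ZMod.castHom hqL (ZMod q) y) ≤ L := by
    intro H hH
    have : cnt (fun y => ZMod.castHom hqL (ZMod q) y ≠ 0 ∧
        H y ≠ ZMod.castHom hqL (ZMod q) y) = 0 := cnt_false (by
      rintro y ⟨h1, h2⟩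
      exact h2 (hH y h1))
    rw [this, mul_zero]
    exact Nat.zero_le _
  have hp0 : ∀ H : ZMod L → ZMod q, Per 0 H := by
    intro H t ht x
    rw [pow_zero, one_mul] at ht
    rw [ht, add_zero]
  have key : ∀ k : ℕ, ∃ (F E K G : ZMod L → ZMod q) (hF hE hK hG : ZMod L → Set (ZMod L)),
      Sys q N F E K G hF hE hK hG ∧
      4 * q ^ 2 * cnt (fun y => ZMod.castHom hqL (ZMod q) y ≠ 0 ∧
        E y ≠ ZMod.castHom hqL (ZMod q) y) ≤ L ∧
      4 * q ^ 2 * cnt (fun y => ZMod.castHom hqL (ZMod q) y ≠ 0 ∧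
        K y ≠ ZMod.castHom hqL (ZMod q) y) ≤ L ∧ Per k F ∧ Per k G ∧ Per k E ∧ Per k K := by
    intro k
    induction k with
    | zero =>
      exact ⟨F, E, K, G, hF, hE, hK, hG, S, hzero E bE, hzero K bK, hp0 F, hp0 G, hp0 E, hp0 K⟩
    | succ k ih => exact Sys.iterate hqL hq hN _ _ (Sys.iterate hqL hq hN _ _ ih)
  -- a prime factor of `q`
  obtain ⟨r, hr, hrq⟩ := Nat.exists_prime_and_dvd (n := q) (by omega)
  obtain ⟨v, L', hL', hLv⟩ := Nat.exists_eq_pow_mul_and_not_dvd hL.ne' r hr.ne_one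
  obtain ⟨F', E', K', G', hF', hE', hK', hG', S', e1, -, -, -, p3, -⟩ := key v
  set π := ZMod.castHom hqL (ZMod q) with hπ
  set t : ZMod L := (L' : ZMod L) with ht
  have hqt : (q : ZMod L) ^ v * t = 0 := by
    have h1 : L ∣ q ^ v * L' := by
      rw [hLv]
      exact Nat.mul_dvd_mul_right (pow_dvd_pow_of_dvd hrq v) L'
    have h2 : ((q ^ v * L' : ℕ) : ZMod L) = 0 := (ZMod.natCast_eq_zero_iff _ _).2 h1
    push_cast at h2
    exact h2
  have hπt : π t ≠ 0 := by
    rw [ht, map_natCast]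
    intro h
    exact hL' (hrq.trans ((ZMod.natCast_eq_zero_iff _ _).1 h))
  obtain ⟨i, hi⟩ := exists_avoid ({0, -π t} : Finset (ZMod q))
    (lt_of_le_of_lt card_le_two (by omega))
  simp only [mem_insert, mem_singleton, not_or] at hi
  have h1 : cnt (fun y => (π y ≠ 0 ∧ E' y ≠ π y) ∨ (π (y + t) ≠ 0 ∧ E' (y + t) ≠ π (y + t))) <
      cnt (fun y => π y = i) := by
    have h2 := cnt_or (fun y => π y ≠ 0 ∧ E' y ≠ π y)
      (fun y => π (y + t) ≠ 0 ∧ E' (y + t) ≠ π (y + t))
    have h3 := cnt_equiv (Equiv.addRight t) (fun y => π y ≠ 0 ∧ E' y ≠ π y)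
    simp only [Equiv.coe_addRight] at h3
    rw [h3] at h2
    have h4 : q * cnt (fun y : ZMod L => π y = i) = L := cnt_class hqL i
    by_contra h5
    push Not at h5
    have h6 := Nat.mul_le_mul_left (4 * q ^ 2) (h5.trans h2)
    have h7 : 4 * q ^ 2 * cnt (fun y : ZMod L => π y = i) = 4 * q * L := by
      calc 4 * q ^ 2 * cnt (fun y : ZMod L => π y = i)
          = 4 * q * (q * cnt (fun y : ZMod L => π y = i)) := by ring
        _ = 4 * q * L := by rw [h4]
    have h8 : 20 * L ≤ 4 * q * L := Nat.mul_le_mul_right L (by omega)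
    rw [h7, mul_add] at h6
    omega
  obtain ⟨y, hy1, hy2⟩ := exists_of_cnt_lt h1
  simp only [not_or, not_and, not_not] at hy2
  obtain ⟨y2, y3⟩ := hy2
  have h2 : E' y = π y := by
    by_contra h
    exact absurd (y2 (by rw [hy1]; exact hi.1)) h
  have h3 : E' (y + t) = π (y + t) := by
    refine y3 ?_
    rw [map_add, hy1]
    intro h
    exact hi.2 (eq_neg_of_add_eq_zero_left h)
  have h4 := p3 t hqt y
  rw [h2, h3, map_add] at h4
  exact hπt (by simpa using h4)

/-! ### general forms -/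

theorem Thin.shift {q N : ℕ} {S : Set (ZMod L)} (h : Thin q N S) (a : ZMod L) :
    Thin q N {t | t + a ∈ S} := by
  intro k c
  refine le_trans (le_of_eq ?_) (h k (c + a))
  congr 1
  refine cnt_congr fun t => ?_
  show (q : ZMod L) ^ k * t + c + a ∈ S ↔ _
  rw [add_assoc]

/-- a residue class modulo `r`, `r` coprime to `q`, `r ≥ N`, is thin -/
theorem thin_class {q N r : ℕ} (hrL : r ∣ L) (hqr : Nat.Coprime q r) (hN : N ≤ r) (ρ : ZMod r) :
    Thin q N {t : ZMod L | ZMod.castHom hrL (ZMod r) t = ρ} := by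
  intro k c
  obtain ⟨u, hu⟩ : IsUnit ((q : ZMod r) ^ k) :=
    ((ZMod.isUnit_iff_coprime q r).2 hqr).pow k
  have h1 : cnt (fun t : ZMod L => (q : ZMod L) ^ k * t + c ∈
      {t : ZMod L | ZMod.castHom hrL (ZMod r) t = ρ}) =
      cnt (fun t : ZMod L => ZMod.castHom hrL (ZMod r) t =
        (↑u⁻¹ : ZMod r) * (ρ - ZMod.castHom hrL (ZMod r) c)) := by
    refine cnt_congr fun t => ?_
    show ZMod.castHom hrL (ZMod r) ((q : ZMod L) ^ k * t + c) = ρ ↔ _
    rw [map_add, map_mul, map_pow, map_natCast, ← hu]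
    constructor
    · intro h
      rw [← h, add_sub_cancel_right, Units.inv_mul_cancel_left]
    · intro h
      rw [h, Units.mul_inv_cancel_left, sub_add_cancel]
  rw [h1]
  exact (Nat.mul_le_mul_right _ hN).trans (le_of_eq (cnt_class hrL _))

theorem thin_empty {q N : ℕ} : Thin q N (∅ : Set (ZMod L)) := by
  intro k c
  have : cnt (fun t : ZMod L => (q : ZMod L) ^ k * t + c ∈ (∅ : Set (ZMod L))) = 0 :=
    cnt_false (fun y h => h)
  rw [this, mul_zero]
  exact Nat.zero_le _

theorem Rel.smul {q : ℕ} (u : (ZMod q)ˣ) {s e k g : ZMod q} (h : Rel s e k g) :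
    Rel ((u : ZMod q) * s) ((u : ZMod q) * e) ((u : ZMod q) * k) ((u : ZMod q) * g) := by
  refine ⟨fun h1 => ?_, fun h1 => ?_⟩
  · rcases h.1 ((Units.mul_right_inj u).1 h1) with h2 | h2 | h2
    · left; rw [h2]; ring
    · right; left; rw [h2]
    · right; right; rw [h2]; ring
  · rcases h.2 ((Units.mul_right_inj u).1 h1) with h2 | h2 | h2
    · left; rw [h2]; ring
    · right; left; rw [h2]
    · right; right; rw [h2]; ring

/-- **The hole-robust sudoku, general form**: the clocks of `E` and `K` have a common unit slope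
and arbitrary offsets. -/
theorem no_sys_unit {q N : ℕ} (hqL : q ∣ L) (hq : 5 ≤ q) (hN : 64 * q ^ 3 ≤ N)
    {F E K G : ZMod L → ZMod q}
    {hF hE hK hG : ZMod L → Set (ZMod L)} (S : Sys q N F E K G hF hE hK hG)
    (u : (ZMod q)ˣ) (b c : ZMod q)
    (bE : ∀ y, u * ZMod.castHom hqL (ZMod q) y + b ≠ 0 →
      E y = u * ZMod.castHom hqL (ZMod q) y + b)
    (bK : ∀ y, u * ZMod.castHom hqL (ZMod q) y + c ≠ 0 →
      K y = u * ZMod.castHom hqL (ZMod q) y + c) : False := by
  obtain ⟨b', hb'⟩ := ZMod.castHom_surjective hqL (-(↑u⁻¹ * b))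
  obtain ⟨c', hc'⟩ := ZMod.castHom_surjective hqL (-(↑u⁻¹ * c))
  have hne : ∀ z : ZMod q, z ≠ 0 → (↑u⁻¹ : ZMod q) * z ≠ 0 := by
    intro z hz h
    apply hz
    have : z = u * ((↑u⁻¹ : ZMod q) * z) := by rw [Units.mul_inv_cancel_left]
    rw [this, h, mul_zero]
  have hb2 : ∀ y, u * ZMod.castHom hqL (ZMod q) (y + b') + b =
      u * ZMod.castHom hqL (ZMod q) y := by
    intro y
    rw [map_add, hb', mul_add, mul_neg, Units.mul_inv_cancel_left]; ring
  have hc2 : ∀ y, u * ZMod.castHom hqL (ZMod q) (y + c') + c =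
      u * ZMod.castHom hqL (ZMod q) y := by
    intro y
    rw [map_add, hc', mul_add, mul_neg, Units.mul_inv_cancel_left]; ring
  have S' : Sys q N (fun x => (↑u⁻¹ : ZMod q) * F (x + (c' - b')))
      (fun y => (↑u⁻¹ : ZMod q) * E (y + b')) (fun z => (↑u⁻¹ : ZMod q) * K (z + c'))
      (fun w => (↑u⁻¹ : ZMod q) * G (w + (c' - b' + (q : ZMod L) * b')))
      (fun x => {t | t + b' ∈ hF (x + (c' - b'))}) (fun y => {t | t + (c' - b') ∈ hE (y + b')})
      (fun z => {t | t + (c' - b') ∈ hK (z + c')})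
      (fun w => {t | t + b' ∈ hG (w + (c' - b' + (q : ZMod L) * b'))}) :=
    { F0 := fun x => hne _ (S.F0 _)
      E0 := fun x => hne _ (S.E0 _)
      K0 := fun x => hne _ (S.K0 _)
      G0 := fun x => hne _ (S.G0 _)
      thF := fun x => (S.thF _).shift _
      thE := fun x => (S.thE _).shift _
      thK := fun x => (S.thK _).shift _
      thG := fun x => (S.thG _).shift _
      rel := by
        intro x y h1 h2 h3 h4
        have h := S.rel (x + (c' - b')) (y + b')
        have e1 : x + (c' - b') + (y + b') = x + y + c' := by ring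
        have e2 : x + (c' - b') + (q : ZMod L) * (y + b') = x + q * y + (c' - b' + q * b') := by
          ring
        rw [e1, e2] at h
        exact (h h1 h2 h3 h4).smul u⁻¹ }
  refine no_sys hqL hq hN S' ?_ ?_
  · intro y hy
    show (↑u⁻¹ : ZMod q) * E (y + b') = _
    rw [bE (y + b') (by
      rw [hb2]
      intro h
      apply hy
      have : ZMod.castHom hqL (ZMod q) y = (↑u⁻¹ : ZMod q) * (u * ZMod.castHom hqL (ZMod q) y) := by
        rw [Units.inv_mul_cancel_left]
      rw [this, h, mul_zero]), hb2, Units.inv_mul_cancel_left]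
  · intro y hy
    show (↑u⁻¹ : ZMod q) * K (y + c') = _
    rw [bK (y + c') (by
      rw [hc2]
      intro h
      apply hy
      have : ZMod.castHom hqL (ZMod q) y = (↑u⁻¹ : ZMod q) * (u * ZMod.castHom hqL (ZMod q) y) := by
        rw [Units.inv_mul_cancel_left]
      rw [this, h, mul_zero]), hc2, Units.inv_mul_cancel_left]

end Sys

end Crest.Agent.R046.Robust
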