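import Crest.Agent.R046.Robust

/-!
# Row 46: the exact four-direction sudoku on `ℤ`, no periodic solution (any `q ≥ 5`)
-/

set_option autoImplicit false

namespace Crest.Agent.R046.Robust

/-- The exact sudoku on `ℤ` has no periodic solution: `F E K G : ℤ → ZMod q` nowhere zero and
(`K`, `G`) `M`-periodic, with the relation at all points and clocks of `E`, `K` with a common unit slope. -/
theorem no_exact {q : ℕ} (hq : 5 ≤ q) {M : ℕ} (hM : 0 < M) (F E K G : ℤ → ZMod q)
    (F0 : ∀ x, F x ≠ 0) (E0 : ∀ x, E x ≠ 0) (K0 : ∀ x, K x ≠ 0) (G0 : ∀ x, G x ≠ 0)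
    (pK : ∀ x, K (x + M) = K x) (pG : ∀ x, G (x + M) = G x)
    (rel : ∀ x y : ℤ, Rel (F x) (E y) (K (x + y)) (G (x + q * y)))
    (u : (ZMod q)ˣ) (b c : ZMod q)
    (bE : ∀ y : ℤ, u * (y : ZMod q) + b ≠ 0 → E y = u * (y : ZMod q) + b)
    (bK : ∀ y : ℤ, u * (y : ZMod q) + c ≠ 0 → K y = u * (y : ZMod q) + c) : False := by
  classical
  have hqpos : 0 < q := by omega
  set L : ℕ := q * M with hL
  have hLpos : 0 < L := Nat.mul_pos hqpos hM
  have : NeZero L := ⟨hLpos.ne'⟩
  have hqL : q ∣ L := Dvd.intro _ rfl
  -- periodicity in general form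
  have per : ∀ H : ℤ → ZMod q, (∀ x, H (x + M) = H x) → ∀ x y : ℤ,
      ((x : ZMod L) = (y : ZMod L)) → H x = H y := by
    intro H hH
    have h1 : ∀ (k : ℕ) (x : ℤ), H (x + k * M) = H x := by
      intro k
      induction k with
      | zero => intro x; simp
      | succ k ih =>
        intro x
        have e : x + ((k + 1 : ℕ) : ℤ) * M = x + k * M + M := by push_cast; ring
        rw [e, hH, ih]
    have h2 : ∀ (k x : ℤ), H (x + k * M) = H x := by
      intro k x
      rcases Int.le_total 0 k with hk | hk
      · obtain ⟨n, rfl⟩ := Int.eq_ofNat_of_zero_le hk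
        exact h1 n x
      · obtain ⟨n, hn⟩ := Int.eq_ofNat_of_zero_le (neg_nonneg.2 hk)
        have e : x = x + k * M + n * M := by
          have : (n : ℤ) = -k := hn.symm
          rw [this]; ring
        rw [← h1 n (x + k * M), ← e]
    intro x y hxy
    have h3 : (L : ℤ) ∣ x - y := by
      have := (ZMod.intCast_eq_intCast_iff_dvd_sub y x L).1 hxy.symm
      exact this
    obtain ⟨k, hk⟩ := h3
    have e : x = y + (k * q) * M := by
      have : x = y + L * k := by linarith
      rw [this, hL]; push_cast; ring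
    rw [e, h2]
  -- lift
  let lift : ZMod L → ℤ := fun x => (x.val : ℤ)
  have hlift : ∀ x : ZMod L, ((lift x : ℤ) : ZMod L) = x := by
    intro x
    show (((x.val : ℕ) : ℤ) : ZMod L) = x
    rw [Int.cast_natCast, ZMod.natCast_val, ZMod.cast_id]
  have hπ : ∀ x : ZMod L, ZMod.castHom hqL (ZMod q) x = ((lift x : ℤ) : ZMod q) := by
    intro x
    conv_lhs => rw [← hlift x]
    rw [map_intCast]
  have S : Sys q (64 * q ^ 3) (fun x : ZMod L => F (lift x)) (fun x => E (lift x))
      (fun x => K (lift x)) (fun x => G (lift x)) (fun _ => ∅) (fun _ => ∅) (fun _ => ∅)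
      (fun _ => ∅) :=
    { F0 := fun x => F0 _
      E0 := fun x => E0 _
      K0 := fun x => K0 _
      G0 := fun x => G0 _
      thF := fun _ => thin_empty
      thE := fun _ => thin_empty
      thK := fun _ => thin_empty
      thG := fun _ => thin_empty
      rel := by
        intro x y _ _ _ _
        have h := rel (lift x) (lift y)
        have e1 : K (lift (x + y)) = K (lift x + lift y) := by
          refine per K pK _ _ ?_
          push_cast
          rw [hlift, hlift, hlift]
        have e2 : G (lift (x + (q : ZMod L) * y)) = G (lift x + q * lift y) := by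
          refine per G pG _ _ ?_
          push_cast
          rw [hlift, hlift, hlift]
        show Rel (F (lift x)) (E (lift y)) (K (lift (x + y))) (G (lift (x + (q : ZMod L) * y)))
        rw [e1, e2]
        exact h }
  refine no_sys_unit hqL hq le_rfl S u b c ?_ ?_
  · intro y hy
    rw [hπ] at hy ⊢
    exact bE _ hy
  · intro y hy
    rw [hπ] at hy ⊢
    exact bK _ hy

end Crest.Agent.R046.Robust
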