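import Mathlib

/-! Row 46: the four-direction sudoku (note 2325(1) of helper746), digits modulo 5.

`F, E, K, G : ℤ → ZMod 5` nowhere zero, with the pointwise relation `Rel` between
`F x`, `E y`, `K (x + y)`, `G (x + 5 y)` for all `x y`, and `F n = E n = K n = n` for `5 ∤ n`.
Then `F` is not periodic (`sudoku_aperiodic`); a solution exists (`exists_sudoku`). -/

set_option autoImplicit false

namespace Crest.Agent.R046.Sudoku

/-- the pointwise relation (`s = F x`, `e = E y`, `k = K (x + y)`, `g = G (x + 5 y)`) -/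
def Rel (s e k g : ZMod 5) : Prop :=
  (k = e → g = s + e ∨ g = e ∨ s = -e) ∧ (g = s → k = s + e ∨ k = s ∨ e = -s)

instance (s e k g : ZMod 5) : Decidable (Rel s e k g) := by unfold Rel; infer_instance

/-- a solution of the pointwise relation with nonzero digits -/
structure Sol (F E K G : ℤ → ZMod 5) : Prop where
  hF : ∀ n, F n ≠ 0
  hE : ∀ n, E n ≠ 0
  hK : ∀ n, K n ≠ 0
  hG : ∀ n, G n ≠ 0
  rel : ∀ x y, Rel (F x) (E y) (K (x + y)) (G (x + 5 * y))

/-- `F n = n - a` off the class of `a` modulo 5 -/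
def Str (F : ℤ → ZMod 5) (a : ZMod 5) : Prop := ∀ n : ℤ, (n : ZMod 5) ≠ a → F n = n - a

/-! ### the finite lemma -/

theorem exists_avoid4 : ∀ a b c d : ZMod 5, ∃ i : ZMod 5, i ≠ a ∧ i ≠ b ∧ i ≠ c ∧ i ≠ d := by
  decide

theorem exists_avoid3 : ∀ a b c : ZMod 5, ∃ i j : ZMod 5, i ≠ j ∧ i ≠ a ∧ i ≠ b ∧ i ≠ c ∧
    j ≠ a ∧ j ≠ b ∧ j ≠ c := by
  decide

def lk (i j a b : ZMod 5) : Bool := a == b || a == j || b == i

def Q4 (u0 u1 u2 u3 u4 : ZMod 5) : Bool :=
  decide (∃ c : ZMod 5, (c ≠ 0 → u0 = c) ∧ (c ≠ 1 → u1 = c) ∧ (c ≠ 2 → u2 = c) ∧ (c ≠ 3 → u3 = c) ∧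
      (c ≠ 4 → u4 = c))

def Q3 (u0 u1 u2 u3 : ZMod 5) : Bool :=
  decide (∀ u4 : ZMod 5, (u4 != 4 && lk 0 4 u0 u4 && lk 1 4 u1 u4 && lk 2 4 u2 u4 && lk 3 4 u3 u4) = true →
    Q4 u0 u1 u2 u3 u4 = true)

def Q2 (u0 u1 u2 : ZMod 5) : Bool :=
  decide (∀ u3 : ZMod 5, (u3 != 3 && lk 0 3 u0 u3 && lk 1 3 u1 u3 && lk 2 3 u2 u3) = true →
    Q3 u0 u1 u2 u3 = true)

def Q1 (u0 u1 : ZMod 5) : Bool :=
  decide (∀ u2 : ZMod 5, (u2 != 2 && lk 0 2 u0 u2 && lk 1 2 u1 u2) = true → Q2 u0 u1 u2 = true)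

def Q0 (u0 : ZMod 5) : Bool :=
  decide (∀ u1 : ZMod 5, (u1 != 1 && lk 0 1 u0 u1) = true → Q1 u0 u1 = true)

theorem Q0_all : ∀ u0 : ZMod 5, u0 ≠ 0 → Q0 u0 = true := by decide +kernel

theorem lk_of {i j a b : ZMod 5} (h : a = b ∨ a = j ∨ b = i) : lk i j a b = true := by
  unfold lk
  rcases h with h | h | h <;> simp [h]

theorem fin_lemma (u0 u1 u2 u3 u4 : ZMod 5) (h0 : u0 ≠ 0) (h1 : u1 ≠ 1)
    (h01 : u0 = u1 ∨ u0 = 1 ∨ u1 = 0) (h2 : u2 ≠ 2)
    (h02 : u0 = u2 ∨ u0 = 2 ∨ u2 = 0) (h12 : u1 = u2 ∨ u1 = 2 ∨ u2 = 1) (h3 : u3 ≠ 3)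
    (h03 : u0 = u3 ∨ u0 = 3 ∨ u3 = 0) (h13 : u1 = u3 ∨ u1 = 3 ∨ u3 = 1)
    (h23 : u2 = u3 ∨ u2 = 3 ∨ u3 = 2) (h4 : u4 ≠ 4)
    (h04 : u0 = u4 ∨ u0 = 4 ∨ u4 = 0) (h14 : u1 = u4 ∨ u1 = 4 ∨ u4 = 1)
    (h24 : u2 = u4 ∨ u2 = 4 ∨ u4 = 2) (h34 : u3 = u4 ∨ u3 = 4 ∨ u4 = 3) :
    ∃ c : ZMod 5, (c ≠ 0 → u0 = c) ∧ (c ≠ 1 → u1 = c) ∧ (c ≠ 2 → u2 = c) ∧ (c ≠ 3 → u3 = c) ∧
      (c ≠ 4 → u4 = c) := by
  have e0 := of_decide_eq_true (Q0_all u0 h0) u1 (by
    rw [lk_of h01, Bool.and_true, bne_iff_ne]; exact h1)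
  have e1 := of_decide_eq_true e0 u2 (by
    rw [lk_of h02, lk_of h12, Bool.and_true, Bool.and_true, bne_iff_ne]; exact h2)
  have e2 := of_decide_eq_true e1 u3 (by
    rw [lk_of h03, lk_of h13, lk_of h23, Bool.and_true, Bool.and_true, Bool.and_true, bne_iff_ne]
    exact h3)
  have e3 := of_decide_eq_true e2 u4 (by
    rw [lk_of h04, lk_of h14, lk_of h24, lk_of h34, Bool.and_true, Bool.and_true, Bool.and_true,
      Bool.and_true, bne_iff_ne]
    exact h4)
  exact of_decide_eq_true e3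
theorem val_cast (i : ZMod 5) : (((i.val : ℕ) : ℤ) : ZMod 5) = i := by
  rw [Int.cast_natCast]; exact ZMod.natCast_zmod_val i

/-- a function without "fixed points" any two values of which are linked is constant off one
class -/
theorem const_of_linked (β : ℤ → ZMod 5) (hβ : ∀ w : ℤ, β w ≠ w)
    (h : ∀ w w' : ℤ, (w : ZMod 5) ≠ w' → β w = β w' ∨ β w = w' ∨ β w' = w) :
    ∃ c : ZMod 5, ∀ w : ℤ, (w : ZMod 5) ≠ c → β w = c := by
  obtain ⟨c, h0, h1, h2, h3, h4⟩ := fin_lemma (β 0) (β 1) (β 2) (β 3) (β 4)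
    (by simpa using hβ 0) (by simpa using hβ 1) (by simpa using h 0 1 (by decide))
    (by simpa using hβ 2) (by simpa using h 0 2 (by decide))
    (by simpa using h 1 2 (by decide))
    (by simpa using hβ 3) (by simpa using h 0 3 (by decide))
    (by simpa using h 1 3 (by decide)) (by simpa using h 2 3 (by decide))
    (by simpa using hβ 4) (by simpa using h 0 4 (by decide))
    (by simpa using h 1 4 (by decide)) (by simpa using h 2 4 (by decide))
    (by simpa using h 3 4 (by decide))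
  -- the value at the representative of a class `j ≠ c` is `c`
  have hrep : ∀ j : ZMod 5, j ≠ c → β ((j.val : ℕ) : ℤ) = c := by
    intro j hj
    have : ∀ j : ZMod 5, j = 0 ∨ j = 1 ∨ j = 2 ∨ j = 3 ∨ j = 4 := by decide
    rcases this j with rfl | rfl | rfl | rfl | rfl
    · exact h0 hj.symm
    · exact h1 hj.symm
    · exact h2 hj.symm
    · exact h3 hj.symm
    · exact h4 hj.symm
  refine ⟨c, fun w hw => ?_⟩
  obtain ⟨i, j, hij, hi1, hi2, -, hj1, hj2, -⟩ := exists_avoid3 c (w : ZMod 5) c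
  have hA := h w ((i.val : ℕ) : ℤ) (by rw [val_cast]; exact hi2.symm)
  have hB := h w ((j.val : ℕ) : ℤ) (by rw [val_cast]; exact hj2.symm)
  rw [hrep i hi1, val_cast] at hA
  rw [hrep j hj1, val_cast] at hB
  rcases hA with hA | hA | hA
  · exact hA
  · rcases hB with hB | hB | hB
    · exact hB
    · exact absurd (hA.symm.trans hB) hij
    · exact absurd hB.symm hw
  · exact absurd hA.symm hw

/-- the core lemma -/
theorem core (A B : ℤ → ZMod 5) (hA : ∀ n, A n ≠ 0) (hB : ∀ n, B n ≠ 0)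
    (h : ∀ m u : ℤ, (u : ZMod 5) ≠ 0 → B (m + u) = A m + u ∨ B (m + u) = u ∨ A m = -u) :
    ∃ c : ZMod 5, Str A c ∧ Str B c := by
  set α : ℤ → ZMod 5 := fun m => m - A m with hα
  set β : ℤ → ZMod 5 := fun m => m - B m with hβ
  have hα0 : ∀ m : ℤ, α m ≠ m := by
    intro m hm
    exact hA m (by simpa [hα] using hm)
  have hβ0 : ∀ m : ℤ, β m ≠ m := by
    intro m hm
    exact hB m (by simpa [hβ] using hm)
  have hstar : ∀ m w : ℤ, (m : ZMod 5) ≠ w → β w = α m ∨ β w = m ∨ α m = w := by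
    intro m w hmw
    have h1 := h m (w - m) (by push_cast; rw [sub_ne_zero]; exact hmw.symm)
    have h2 : m + (w - m) = w := by ring
    rw [h2] at h1
    push_cast at h1
    simp only [hα, hβ]
    rcases h1 with h1 | h1 | h1
    · left; rw [h1]; ring
    · right; left; rw [h1]; ring
    · right; right; rw [h1]; ring
  have hlinkβ : ∀ w w' : ℤ, (w : ZMod 5) ≠ w' → β w = β w' ∨ β w = w' ∨ β w' = w := by
    intro w w' hww
    by_contra hcon
    push Not at hcon
    obtain ⟨hc1, hc2, hc3⟩ := hcon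
    obtain ⟨i, hi1, hi2, hi3, hi4⟩ := exists_avoid4 (w : ZMod 5) (w' : ZMod 5) (β w) (β w')
    have hA1 := hstar ((i.val : ℕ) : ℤ) w (by rw [val_cast]; exact hi1)
    have hA2 := hstar ((i.val : ℕ) : ℤ) w' (by rw [val_cast]; exact hi2)
    rw [val_cast] at hA1 hA2
    rcases hA1 with hA1 | hA1 | hA1
    · rcases hA2 with hA2 | hA2 | hA2
      · exact hc1 (hA1.trans hA2.symm)
      · exact hi4 hA2.symm
      · exact hc2 (hA1.trans hA2)
    · exact hi3 hA1.symm
    · rcases hA2 with hA2 | hA2 | hA2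
      · exact hc3 (hA2.trans hA1)
      · exact hi4 hA2.symm
      · exact hww (hA1.symm.trans hA2)
  have hlinkα : ∀ w w' : ℤ, (w : ZMod 5) ≠ w' → α w = α w' ∨ α w = w' ∨ α w' = w := by
    intro w w' hww
    by_contra hcon
    push Not at hcon
    obtain ⟨hc1, hc2, hc3⟩ := hcon
    obtain ⟨i, hi1, hi2, hi3, hi4⟩ := exists_avoid4 (w : ZMod 5) (w' : ZMod 5) (α w) (α w')
    have hA1 := hstar w ((i.val : ℕ) : ℤ) (by rw [val_cast]; exact hi1.symm)
    have hA2 := hstar w' ((i.val : ℕ) : ℤ) (by rw [val_cast]; exact hi2.symm)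
    rw [val_cast] at hA1 hA2
    rcases hA1 with hA1 | hA1 | hA1
    · rcases hA2 with hA2 | hA2 | hA2
      · exact hc1 (hA1.symm.trans hA2)
      · exact hc2 (hA1.symm.trans hA2)
      · exact hi4 hA2.symm
    · rcases hA2 with hA2 | hA2 | hA2
      · exact hc3 (hA2.symm.trans hA1)
      · exact hww (hA1.symm.trans hA2)
      · exact hi4 hA2.symm
    · exact hi3 hA1.symm
  obtain ⟨c, hc⟩ := const_of_linked α hα0 hlinkα
  obtain ⟨c', hc'⟩ := const_of_linked β hβ0 hlinkβ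
  have hcc : c' = c := by
    obtain ⟨i, j, hij, hi1, hi2, -, hj1, hj2, -⟩ := exists_avoid3 c c' c
    have h1 := hstar ((i.val : ℕ) : ℤ) ((j.val : ℕ) : ℤ) (by rw [val_cast, val_cast]; exact hij)
    rw [hc _ (by rw [val_cast]; exact hi1), hc' _ (by rw [val_cast]; exact hj2),
      val_cast, val_cast] at h1
    rcases h1 with h1 | h1 | h1
    · exact h1
    · exact absurd h1.symm hi2
    · exact absurd h1.symm hj1
  subst hcc
  refine ⟨c', fun n hn => ?_, fun n hn => ?_⟩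
  · have := hc n hn
    simp only [hα] at this
    rw [← this]; ring
  · have := hc' n hn
    simp only [hβ] at this
    rw [← this]; ring

/-! ### the induction step -/

theorem cast5 : ((5 : ℤ) : ZMod 5) = 0 := by decide

theorem step (F E K G : ℤ → ZMod 5) (a b : ℤ) (h : Sol F E K G)
    (_hF : Str F (a : ZMod 5)) (hE : Str E (b : ZMod 5)) (hK : Str K ((a + b : ℤ) : ZMod 5)) :
    ∃ c c' : ℤ,
      Sol (fun m => F (a + 5 * m)) (fun m => E (b + 5 * m)) (fun m => K (a + b + 5 * m))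
        (fun m => G (a + 5 * b + 5 * m)) ∧
      Str (fun m => F (a + 5 * m)) (c : ZMod 5) ∧ Str (fun m => E (b + 5 * m)) (c' : ZMod 5) ∧
      Str (fun m => K (a + b + 5 * m)) ((c + c' : ℤ) : ZMod 5) := by
  have hsol : Sol (fun m => F (a + 5 * m)) (fun m => E (b + 5 * m)) (fun m => K (a + b + 5 * m))
        (fun m => G (a + 5 * b + 5 * m)) := by
    refine ⟨fun n => h.hF _, fun n => h.hE _, fun n => h.hK _, fun n => h.hG _, fun x y => ?_⟩
    have := h.rel (a + 5 * x) (b + 5 * y)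
    have e1 : a + 5 * x + (b + 5 * y) = a + b + 5 * (x + y) := by ring
    have e2 : a + 5 * x + 5 * (b + 5 * y) = a + 5 * b + 5 * (x + 5 * y) := by ring
    rw [e1, e2] at this
    exact this
  -- first half: F' and G'
  obtain ⟨c, hFc, hGc⟩ := core (fun m => F (a + 5 * m)) (fun m => G (a + 5 * b + 5 * m))
    hsol.hF hsol.hG (by
      intro m u hu
      have hr := (h.rel (a + 5 * m) (b + u)).1
      have hEu : E (b + u) = u := by
        rw [hE (b + u) (by push_cast; intro hh; apply hu; simpa using hh)]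
        push_cast; ring
      have hKu : K (a + 5 * m + (b + u)) = u := by
        rw [hK (a + 5 * m + (b + u)) (by
          push_cast
          intro hh
          apply hu
          have : (5 : ZMod 5) = 0 := by decide
          rw [this] at hh
          have h2 : ((a : ZMod 5) + 0 * m + (b + u)) - (a + b) = u := by ring
          rw [← h2, hh]; ring)]
        push_cast
        have : (5 : ZMod 5) = 0 := by decide
        rw [this]; ring
      rw [hEu, hKu] at hr
      have e2 : a + 5 * m + 5 * (b + u) = a + 5 * b + 5 * (m + u) := by ring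
      rw [e2] at hr
      exact hr rfl)
  obtain ⟨cz, rfl⟩ : ∃ cz : ℤ, (cz : ZMod 5) = c := ⟨((c.val : ℕ) : ℤ), val_cast c⟩
  -- second half: E' and K', shifted by the centre
  obtain ⟨c', hEc, hKc⟩ := core (fun m => E (b + 5 * m)) (fun m => K (a + b + 5 * (m + cz)))
    hsol.hE (fun n => h.hK _) (by
      intro m u hu
      have hr := (hsol.rel (u + cz) m).2
      have hs : F (a + 5 * (u + cz)) = u := by
        have := hFc (u + cz) (by push_cast; intro hh; apply hu; simpa using hh)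
        simp only at this
        rw [this]; push_cast; ring
      have hg : G (a + 5 * b + 5 * (u + cz + 5 * m)) = u := by
        have h5 : (5 : ZMod 5) = 0 := by decide
        have := hGc (u + cz + 5 * m) (by
          push_cast
          rw [h5]
          intro hh
          apply hu
          have h2 : ((u : ZMod 5) + cz + 0 * m) - cz = u := by ring
          rw [← h2, hh]; ring)
        simp only at this
        rw [this]; push_cast; rw [h5]; ring
      rw [hs, hg] at hr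
      have e3 : u + cz + m = m + u + cz := by ring
      rw [e3] at hr
      have := hr rfl
      rcases this with h1 | h1 | h1
      · left; rw [h1]; ring
      · right; left; exact h1
      · right; right; exact h1)
  obtain ⟨cz', rfl⟩ : ∃ cz' : ℤ, (cz' : ZMod 5) = c' := ⟨((c'.val : ℕ) : ℤ), val_cast c'⟩
  refine ⟨cz, cz', hsol, hFc, hEc, ?_⟩
  intro n hn
  have : K (a + b + 5 * (n - cz + cz)) = ((n - cz : ℤ) : ZMod 5) - cz' := hKc (n - cz) (by
    push_cast at hn ⊢
    intro hh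
    apply hn
    rw [← hh]; ring)
  have e4 : a + b + 5 * (n - cz + cz) = a + b + 5 * n := by ring
  rw [e4] at this
  show K (a + b + 5 * n) = _
  rw [this]; push_cast; ring

theorem five_dvd_of_periodic (F : ℤ → ZMod 5) (a : ZMod 5) (hF : Str F a) (N : ℤ)
    (hN : ∀ n, F (n + N) = F n) : (5 : ℤ) ∣ N := by
  by_contra hcon
  have hNz : (N : ZMod 5) ≠ 0 := by
    intro h0
    exact hcon ((ZMod.intCast_zmod_eq_zero_iff_dvd N 5).mp h0)
  obtain ⟨i, hi1, hi2, -, -⟩ := exists_avoid4 a (a - N) a a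
  have h1 := hF ((i.val : ℕ) : ℤ) (by rw [val_cast]; exact hi1)
  have h2 := hF (((i.val : ℕ) : ℤ) + N) (by
    rw [Int.cast_add, val_cast]
    intro hh
    apply hi2
    rw [← hh]; ring)
  rw [hN, h1, Int.cast_add] at h2
  apply hNz
  have h3 : (N : ZMod 5) = 0 := by linear_combination -h2
  exact h3

theorem no_period (N : ℕ) : 0 < N → ∀ (F E K G : ℤ → ZMod 5) (a b : ℤ), Sol F E K G →
    Str F (a : ZMod 5) → Str E (b : ZMod 5) → Str K ((a + b : ℤ) : ZMod 5) →
    ¬ ∀ n, F (n + N) = F n := by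
  induction N using Nat.strong_induction_on with
  | _ N ih =>
    intro hN F E K G a b h hF hE hK hper
    have h5 := five_dvd_of_periodic F a hF N hper
    obtain ⟨M, hM⟩ := Int.natCast_dvd_natCast.mp (by exact_mod_cast h5 : ((5 : ℕ) : ℤ) ∣ (N : ℤ))
    obtain ⟨c, c', hsol, hFc, hEc, hKc⟩ := step F E K G a b h hF hE hK
    refine ih M (by omega) (by omega) _ _ _ _ c c' hsol hFc hEc hKc ?_
    intro n
    have := hper (a + 5 * n)
    show F (a + 5 * (n + M)) = F (a + 5 * n)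
    rw [← this, hM]
    push_cast
    congr 1; ring

/-- Every solution of the sudoku is non-periodic. -/
theorem sudoku_aperiodic (F E K G : ℤ → ZMod 5) (h : Sol F E K G)
    (hF : ∀ n : ℤ, (n : ZMod 5) ≠ 0 → F n = n) (hE : ∀ n : ℤ, (n : ZMod 5) ≠ 0 → E n = n)
    (hK : ∀ n : ℤ, (n : ZMod 5) ≠ 0 → K n = n) (N : ℕ) (hN : 0 < N) :
    ¬ ∀ n, F (n + N) = F n := by
  refine no_period N hN F E K G 0 0 h ?_ ?_ ?_
  · intro n hn; rw [hF n (by simpa using hn)]; simp
  · intro n hn; rw [hE n (by simpa using hn)]; simp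
  · intro n hn; rw [hK n (by simpa using hn)]; simp

/-! ### existence -/

/-- the last nonzero digit in base 5 (and `1` at `0`) -/
noncomputable def dig (n : ℤ) : ZMod 5 :=
  if n = 0 then 1 else ((n / 5 ^ padicValInt 5 n : ℤ) : ZMod 5)

theorem dig_zero : dig 0 = 1 := by simp [dig]

theorem cast_ne_zero_iff (m : ℤ) : (m : ZMod 5) ≠ 0 ↔ ¬ (5 : ℤ) ∣ m := by
  rw [Ne, ZMod.intCast_zmod_eq_zero_iff_dvd]; rfl

theorem dig_pow_mul (v : ℕ) (m : ℤ) (hm : (m : ZMod 5) ≠ 0) : dig (5 ^ v * m) = m := by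
  have hm' : ¬ (5 : ℤ) ∣ m := (cast_ne_zero_iff m).mp hm
  have hm0 : m ≠ 0 := by rintro rfl; exact hm' (dvd_zero _)
  have : Fact (Nat.Prime 5) := ⟨by norm_num⟩
  have hv : padicValInt 5 (5 ^ v * m) = v := by
    rw [padicValInt.mul (by positivity) hm0, padicValInt.eq_zero_of_not_dvd (z := m) hm',
      add_zero]
    have : ((5 : ℤ) ^ v) = (((5 ^ v : ℕ)) : ℤ) := by push_cast; rfl
    rw [this, padicValInt.of_nat, padicValNat.prime_pow]
  have hne : (5 : ℤ) ^ v * m ≠ 0 := mul_ne_zero (by positivity) hm0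
  unfold dig
  rw [if_neg hne, hv, Int.mul_ediv_cancel_left _ (by positivity)]

theorem exists_rep (x : ℤ) (hx : x ≠ 0) : ∃ (v : ℕ) (m : ℤ), (m : ZMod 5) ≠ 0 ∧ x = 5 ^ v * m := by
  have hf : FiniteMultiplicity (5 : ℤ) x := by
    rw [Int.finiteMultiplicity_iff]; exact ⟨by decide, hx⟩
  obtain ⟨c, hc, hc'⟩ := hf.exists_eq_pow_mul_and_not_dvd
  exact ⟨_, c, (cast_ne_zero_iff c).mpr hc', hc⟩

theorem dig_ne_zero (n : ℤ) : dig n ≠ 0 := by
  by_cases hn : n = 0
  · subst hn; rw [dig_zero]; decide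
  · obtain ⟨v, m, hm, rfl⟩ := exists_rep n hn
    rw [dig_pow_mul v m hm]; exact hm

theorem dig_of_not (n : ℤ) (hn : (n : ZMod 5) ≠ 0) : dig n = n := by
  have := dig_pow_mul 0 n hn
  simpa using this

theorem cast_five_pow (k : ℕ) : (((5 : ℤ) ^ (k + 1) : ℤ) : ZMod 5) = 0 := by
  push_cast
  have : (5 : ZMod 5) = 0 := by decide
  rw [this]; simp

theorem sol_dig : Sol dig dig dig dig := by
  refine ⟨dig_ne_zero, dig_ne_zero, dig_ne_zero, dig_ne_zero, ?_⟩
  intro x y
  by_cases hx : x = 0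
  · subst hx
    by_cases hy : y = 0
    · subst hy
      simp only [mul_zero, add_zero, dig_zero]
      exact ⟨fun _ => Or.inr (Or.inl rfl), fun _ => Or.inr (Or.inl rfl)⟩
    · obtain ⟨w, m, hm, rfl⟩ := exists_rep y hy
      have e1 : (0 : ℤ) + 5 * (5 ^ w * m) = 5 ^ (w + 1) * m := by ring
      rw [e1, zero_add, dig_pow_mul _ m hm, dig_pow_mul _ m hm]
      exact ⟨fun _ => Or.inr (Or.inl rfl), fun h => Or.inr (Or.inl h)⟩
  · obtain ⟨v, l, hl, rfl⟩ := exists_rep x hx
    by_cases hy : y = 0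
    · subst hy
      rw [mul_zero, add_zero]
      exact ⟨fun h => Or.inr (Or.inl h), fun _ => Or.inr (Or.inl rfl)⟩
    · obtain ⟨w, m, hm, rfl⟩ := exists_rep y hy
      rcases lt_trichotomy v w with hvw | hvw | hvw
      · obtain ⟨d, rfl⟩ := Nat.exists_eq_add_of_lt hvw
        have e1 : (5 : ℤ) ^ v * l + 5 ^ (v + d + 1) * m = 5 ^ v * (l + 5 ^ (d + 1) * m) := by ring
        have e2 : (5 : ℤ) ^ v * l + 5 * (5 ^ (v + d + 1) * m) = 5 ^ v * (l + 5 ^ (d + 1 + 1) * m) := by
          ring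
        have c1 : ((l + 5 ^ (d + 1) * m : ℤ) : ZMod 5) = l := by
          rw [Int.cast_add, Int.cast_mul, cast_five_pow]; ring
        have c2 : ((l + 5 ^ (d + 1 + 1) * m : ℤ) : ZMod 5) = l := by
          rw [Int.cast_add, Int.cast_mul, cast_five_pow]; ring
        rw [e1, e2, dig_pow_mul _ l hl, dig_pow_mul _ (l + 5 ^ (d + 1) * m) (by rw [c1]; exact hl),
          dig_pow_mul _ (l + 5 ^ (d + 1 + 1) * m) (by rw [c2]; exact hl), dig_pow_mul _ m hm, c1, c2]
        exact ⟨fun h => Or.inr (Or.inl h), fun _ => Or.inr (Or.inl rfl)⟩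
      · subst hvw
        have e2 : (5 : ℤ) ^ v * l + 5 * (5 ^ v * m) = 5 ^ v * (l + 5 ^ (0 + 1) * m) := by ring
        have c2 : ((l + 5 ^ (0 + 1) * m : ℤ) : ZMod 5) = l := by
          rw [Int.cast_add, Int.cast_mul, cast_five_pow]; ring
        rw [e2, dig_pow_mul _ l hl, dig_pow_mul _ (l + 5 ^ (0 + 1) * m) (by rw [c2]; exact hl),
          dig_pow_mul _ m hm, c2]
        by_cases hlm : (l : ZMod 5) + m = 0
        · refine ⟨fun _ => Or.inr (Or.inr ?_), fun _ => Or.inr (Or.inr ?_)⟩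
          · linear_combination hlm
          · linear_combination hlm
        · have e1 : (5 : ℤ) ^ v * l + 5 ^ v * m = 5 ^ v * (l + m) := by ring
          have c1 : ((l + m : ℤ) : ZMod 5) = l + m := by push_cast; rfl
          rw [e1, dig_pow_mul _ (l + m) (by rw [c1]; exact hlm), c1]
          refine ⟨fun h => ?_, fun _ => Or.inl rfl⟩
          exact absurd (by linear_combination h) hl
      · obtain ⟨d, rfl⟩ := Nat.exists_eq_add_of_lt hvw
        have e1 : (5 : ℤ) ^ (w + d + 1) * l + 5 ^ w * m = 5 ^ w * (5 ^ (d + 1) * l + m) := by ring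
        have c1 : ((5 ^ (d + 1) * l + m : ℤ) : ZMod 5) = m := by
          rw [Int.cast_add, Int.cast_mul, cast_five_pow]; ring
        rw [e1, dig_pow_mul _ l hl, dig_pow_mul _ (5 ^ (d + 1) * l + m) (by rw [c1]; exact hm),
          dig_pow_mul _ m hm, c1]
        rcases Nat.eq_zero_or_pos d with hd | hd
        · subst hd
          have e2 : (5 : ℤ) ^ (w + 0 + 1) * l + 5 * (5 ^ w * m) = 5 ^ (w + 1) * (l + m) := by ring
          rw [e2]
          by_cases hlm : (l : ZMod 5) + m = 0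
          · refine ⟨fun _ => Or.inr (Or.inr ?_), fun _ => Or.inr (Or.inr ?_)⟩
            · linear_combination hlm
            · linear_combination hlm
          · have c2 : ((l + m : ℤ) : ZMod 5) = l + m := by push_cast; rfl
            rw [dig_pow_mul _ (l + m) (by rw [c2]; exact hlm), c2]
            refine ⟨fun _ => Or.inl rfl, fun h => ?_⟩
            exact absurd (by linear_combination h) hm
        · obtain ⟨d, rfl⟩ := Nat.exists_eq_add_of_lt hd
          have e2 : (5 : ℤ) ^ (w + (0 + d + 1) + 1) * l + 5 * (5 ^ w * m) =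
              5 ^ (w + 1) * (5 ^ (d + 1) * l + m) := by ring
          have c2 : ((5 ^ (d + 1) * l + m : ℤ) : ZMod 5) = m := by
            rw [Int.cast_add, Int.cast_mul, cast_five_pow]; ring
          rw [e2, dig_pow_mul _ (5 ^ (d + 1) * l + m) (by rw [c2]; exact hm), c2]
          exact ⟨fun _ => Or.inr (Or.inl rfl), fun h => Or.inr (Or.inl h)⟩

/-- a solution of the sudoku exists -/
theorem exists_sudoku : ∃ F E K G : ℤ → ZMod 5, Sol F E K G ∧
    (∀ n : ℤ, (n : ZMod 5) ≠ 0 → F n = n) ∧ (∀ n : ℤ, (n : ZMod 5) ≠ 0 → E n = n) ∧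
    (∀ n : ℤ, (n : ZMod 5) ≠ 0 → K n = n) :=
  ⟨dig, dig, dig, dig, sol_dig, dig_of_not, dig_of_not, dig_of_not⟩

end Crest.Agent.R046.Sudoku
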