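import Crest.Agent.R046.CompCore

/-!
Row 46, truth side of the component: explicit positions.

At time `T : ZMod (p^2)` the role `ρ : ZMod p` is on the class `cl T ρ = T + sg T ρ`, where
`sg T ρ = (ρ - T mod p) ∈ [0, p)`; the class is moving iff its representative is `< p`;
`Yt T ρ = cl - p^2 * mv * sg`.
-/

set_option autoImplicit false

namespace Crest.Agent.R046.Truth

open Crest.Agent.R046.Comp

variable (p : ℕ)

/-- the offset of role `ρ` at time `T`, in `[0, p)` -/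
def sg (T : ZMod (p ^ 2)) (ρ : ZMod p) : ℕ := (ρ - r21 p T).val

/-- the class of role `ρ` at time `T` -/
def clt (T : ZMod (p ^ 2)) (ρ : ZMod p) : ZMod (p ^ 2) := T + (sg p T ρ : ZMod (p ^ 2))

/-- moving indicator of a class -/
def mv (c : ZMod (p ^ 2)) : ℕ := if c.val < p then 1 else 0

/-- the true position -/
def Yt (T : ZMod (p ^ 2)) (ρ : ZMod p) : ZMod (p ^ 3) :=
  ((clt p T ρ).val : ZMod (p ^ 3)) - (p : ZMod (p ^ 3)) ^ 2 * ((mv p (clt p T ρ) * sg p T ρ : ℕ) : ZMod (p ^ 3))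

/-- the true base slope -/
def σt (T : ZMod (p ^ 2)) (ρ : ZMod p) : ℕ := mv p (clt p T ρ)

variable {p}

theorem sg_cast [NeZero p] (T : ZMod (p ^ 2)) (ρ : ZMod p) :
    ((sg p T ρ : ℕ) : ZMod p) = ρ - r21 p T := by
  unfold sg; simp

theorem r32_psq : r32 p ((p : ZMod (p ^ 3)) ^ 2) = 0 := by
  rw [map_pow, map_natCast]
  have : ((p ^ 2 : ℕ) : ZMod (p ^ 2)) = 0 := ZMod.natCast_self _
  push_cast at this
  exact this

theorem r21_clt [NeZero p] (T : ZMod (p ^ 2)) (ρ : ZMod p) : r21 p (clt p T ρ) = ρ := by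
  unfold clt
  rw [map_add, map_natCast, sg_cast]; ring

theorem r32_Yt [NeZero p] (T : ZMod (p ^ 2)) (ρ : ZMod p) : r32 p (Yt p T ρ) = clt p T ρ := by
  have : NeZero (p ^ 2) := ⟨pow_ne_zero _ (NeZero.ne p)⟩
  unfold Yt
  rw [map_sub, map_mul, r32_psq, zero_mul, sub_zero, map_natCast]
  simp

theorem role_t [NeZero p] (T : ZMod (p ^ 2)) (ρ : ZMod p) : r31 p (Yt p T ρ) = ρ := by
  rw [← r21_r32, r32_Yt, r21_clt]

theorem sg_step (T : ZMod (p ^ 2)) (ρ : ZMod p) : sg p (T + 1) (ρ + 1) = sg p T ρ := by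
  unfold sg
  rw [map_add, map_one]
  congr 1; ring

theorem step_t [NeZero p] (T : ZMod (p ^ 2)) (ρ : ZMod p) :
    r32 p (Yt p (T + 1) (ρ + 1)) = r32 p (Yt p T ρ) + 1 := by
  rw [r32_Yt, r32_Yt]
  unfold clt
  rw [sg_step]; ring

theorem le_one_t (T : ZMod (p ^ 2)) (ρ : ZMod p) : σt p T ρ ≤ 1 := by
  unfold σt mv; split_ifs <;> omega

theorem cls_t [NeZero p] (ρ : ZMod p) (T T' : ZMod (p ^ 2))
    (h : r32 p (Yt p T ρ) = r32 p (Yt p T' ρ)) : σt p T ρ = σt p T' ρ := by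
  rw [r32_Yt, r32_Yt] at h
  unfold σt; rw [h]

theorem psq_mul_congr {a b : ℕ} (h : (a : ZMod p) = b) :
    (p : ZMod (p ^ 3)) ^ 2 * (a : ZMod (p ^ 3)) = (p : ZMod (p ^ 3)) ^ 2 * (b : ZMod (p ^ 3)) := by
  have h1 : ((a : ℤ) : ZMod p) = ((b : ℤ) : ZMod p) := by exact_mod_cast h
  rw [ZMod.intCast_eq_intCast_iff_dvd_sub] at h1
  obtain ⟨k, hk⟩ := h1
  have h2 : (p : ZMod (p ^ 3)) ^ 2 * (((b : ℤ) - (a : ℤ) : ℤ) : ZMod (p ^ 3)) = 0 := by
    rw [hk]
    have : ((p ^ 3 : ℕ) : ZMod (p ^ 3)) = 0 := ZMod.natCast_self _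
    push_cast at this ⊢
    rw [← mul_assoc, ← pow_succ, this, zero_mul]
  push_cast at h2
  linear_combination -h2

theorem psq_mul_congr_int {a b : ℤ} (h : (a : ZMod p) = b) :
    (p : ZMod (p ^ 3)) ^ 2 * (a : ZMod (p ^ 3)) = (p : ZMod (p ^ 3)) ^ 2 * (b : ZMod (p ^ 3)) := by
  rw [ZMod.intCast_eq_intCast_iff_dvd_sub] at h
  obtain ⟨k, hk⟩ := h
  have h2 : (p : ZMod (p ^ 3)) ^ 2 * (((b : ℤ) - (a : ℤ) : ℤ) : ZMod (p ^ 3)) = 0 := by
    rw [hk]
    have : ((p ^ 3 : ℕ) : ZMod (p ^ 3)) = 0 := ZMod.natCast_self _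
    push_cast at this ⊢
    rw [← mul_assoc, ← pow_succ, this, zero_mul]
  push_cast at h2
  linear_combination -h2

/-- motion inside a class -/
theorem move_t [NeZero p] (ρ : ZMod p) (T T' : ZMod (p ^ 2))
    (h : r32 p (Yt p T ρ) = r32 p (Yt p T' ρ)) (hT : r21 p T = r21 p T' + 1) :
    Yt p T ρ - Yt p T' ρ = (p : ZMod (p ^ 3)) ^ 2 * (σt p T ρ : ZMod (p ^ 3)) := by
  rw [r32_Yt, r32_Yt] at h
  unfold Yt σt
  rw [h]
  have h1 : (p : ZMod (p ^ 3)) ^ 2 * (((mv p (clt p T' ρ) : ℤ) * ((sg p T' ρ : ℤ) - sg p T ρ) : ℤ) : ZMod (p ^ 3))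
      = (p : ZMod (p ^ 3)) ^ 2 * (((mv p (clt p T' ρ) : ℤ) : ℤ) : ZMod (p ^ 3)) := by
    apply psq_mul_congr_int
    push_cast
    rw [sg_cast, sg_cast, hT]; ring
  push_cast at h1 ⊢
  linear_combination h1


/-! ### the line tile (C4) -/

theorem no_mult {p : ℤ} (hp : 0 < p) {k j a : ℤ} (h : a = p * k) (h1 : p * j < a)
    (h2 : a < p * (j + 1)) : False := by
  rw [h] at h1 h2
  have h3 := lt_of_mul_lt_mul_left h1 hp.le
  have h4 := lt_of_mul_lt_mul_left h2 hp.le
  omega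

theorem key {p c c' s s' m m' d : ℤ} (hp : 2 ≤ p) (hc : 0 ≤ c) (hc1 : c < p * p) (hc' : 0 ≤ c')
    (hc1' : c' < p * p) (hs : 0 ≤ s) (hs1 : s < p) (hs' : 0 ≤ s') (hs1' : s' < p)
    (hd : c' = c + p * d)
    (hm : (c < p ∧ m = 1) ∨ (p ≤ c ∧ m = 0)) (hm' : (c' < p ∧ m' = 1) ∨ (p ≤ c' ∧ m' = 0))
    (h : p ^ 3 ∣ (c + p * c - p * s - p ^ 2 * (m * s)) - (c' + p * c' - p * s' - p ^ 2 * (m' * s'))) :
    c = c' ∧ s = s' := by
  obtain ⟨k, hk⟩ := h
  have hp0 : (0 : ℤ) < p := by omega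
  have h1 : -(p + 1) * d + (s' - s) + p * (m' * s' - m * s) = p ^ 2 * k := by
    have : p * (-(p + 1) * d + (s' - s) + p * (m' * s' - m * s)) = p * (p ^ 2 * k) := by
      rw [hd] at hk
      linear_combination hk
    exact mul_left_cancel₀ hp0.ne' this
  obtain ⟨e, he⟩ : ∃ e, e = p * k + d - (m' * s' - m * s) := ⟨_, rfl⟩
  have h2 : s' - s - d = p * e := by rw [he]; linear_combination h1
  have hd1 : d < p := by
    have : p * d < p * p := by linarith
    exact lt_of_mul_lt_mul_left this hp0.le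
  have hd2 : -p < d := by
    have : p * (-p) < p * d := by linarith
    exact lt_of_mul_lt_mul_left this hp0.le
  have he1 : e ≤ 1 := by
    by_contra hcon
    have : p * 2 ≤ p * e := mul_le_mul_of_nonneg_left (by omega) hp0.le
    omega
  have he2 : -1 ≤ e := by
    by_contra hcon
    have : p * e ≤ p * (-2) := mul_le_mul_of_nonneg_left (by omega) hp0.le
    omega
  have hee : e = -1 ∨ e = 0 ∨ e = 1 := by omega
  rcases hm with ⟨hcp, rfl⟩ | ⟨hcp, rfl⟩ <;> rcases hm' with ⟨hcp', rfl⟩ | ⟨hcp', rfl⟩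
  · -- both moving
    have hd0 : d = 0 := by
      have a1 : p * d < p * 1 := by linarith
      have a2 : p * (-1) < p * d := by linarith
      have a3 := lt_of_mul_lt_mul_left a1 hp0.le
      have a4 := lt_of_mul_lt_mul_left a2 hp0.le
      omega
    subst hd0
    rcases hee with rfl | rfl | rfl
    · omega
    · exact ⟨by linarith, by omega⟩
    · omega
  · -- c moving, c' not
    have hd0 : 0 < d := by
      have a1 : p * 0 < p * d := by linarith
      exact lt_of_mul_lt_mul_left a1 hp0.le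
    exfalso
    rcases hee with rfl | rfl | rfl
    · exact no_mult hp0 (k := k) (j := -2) (a := -1 - d - s) (by linarith) (by omega) (by omega)
    · exact no_mult hp0 (k := k) (j := -1) (a := - d - s) (by linarith) (by omega) (by omega)
    · omega
  · -- c' moving, c not
    have hd0 : d < 0 := by
      have a1 : p * d < p * 0 := by linarith
      exact lt_of_mul_lt_mul_left a1 hp0.le
    exfalso
    rcases hee with rfl | rfl | rfl
    · omega
    · exact no_mult hp0 (k := k) (j := 0) (a := s' - d) (by linarith) (by omega) (by omega)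
    · exact no_mult hp0 (k := k) (j := 1) (a := 1 - d + s') (by linarith) (by omega) (by omega)
  · -- both not moving
    have a1 : p * d < p * (p - 1) := by nlinarith
    have a2 : p * (1 - p) < p * d := by nlinarith
    have a3 := lt_of_mul_lt_mul_left a1 hp0.le
    have a4 := lt_of_mul_lt_mul_left a2 hp0.le
    have hk0 : k = 0 := by
      rcases lt_trichotomy k 0 with hk0 | hk0 | hk0
      · have : p * k ≤ p * (-1) := mul_le_mul_of_nonneg_left (by omega) hp0.le
        exfalso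
        have he' : e = p * k + d := by linarith
        omega
      · exact hk0
      · have : p * 1 ≤ p * k := mul_le_mul_of_nonneg_left (by omega) hp0.le
        exfalso
        have he' : e = p * k + d := by linarith
        omega
    subst hk0
    have he' : e = d := by linarith
    subst he'
    rcases hee with rfl | rfl | rfl
    · omega
    · exact ⟨by linarith, by omega⟩
    · omega

theorem clt_sub_sg [NeZero p] (T : ZMod (p ^ 2)) (ρ : ZMod p) :
    T = ((((clt p T ρ).val : ℤ) - sg p T ρ : ℤ) : ZMod (p ^ 2)) := by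
  have : NeZero (p ^ 2) := ⟨pow_ne_zero _ (NeZero.ne p)⟩
  push_cast
  rw [ZMod.natCast_zmod_val]
  unfold clt; ring

theorem line_val [NeZero p] (T : ZMod (p ^ 2)) (ρ : ZMod p) :
    Yt p T ρ + m23 p T = (((((clt p T ρ).val : ℤ) + p * ((clt p T ρ).val : ℤ) - p * (sg p T ρ : ℤ)
      - (p : ℤ) ^ 2 * ((mv p (clt p T ρ) : ℤ) * (sg p T ρ : ℤ)) : ℤ)) : ZMod (p ^ 3)) := by
  have h := clt_sub_sg T ρ
  have h2 : m23 p T = (p : ZMod (p ^ 3)) * ((((clt p T ρ).val : ℤ) - sg p T ρ : ℤ) : ZMod (p ^ 3)) := by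
    conv_lhs => rw [h]
    rw [m23_intCast]
  rw [h2]
  unfold Yt
  push_cast
  ring

theorem mv_cases (c : ZMod (p ^ 2)) : ((c.val : ℤ) < p ∧ (mv p c : ℤ) = 1) ∨
    ((p : ℤ) ≤ (c.val : ℤ) ∧ (mv p c : ℤ) = 0) := by
  unfold mv
  split_ifs with h
  · left; exact ⟨by exact_mod_cast h, by simp⟩
  · right; exact ⟨by exact_mod_cast (not_lt.1 h), by simp⟩

/-- C4 for the truth: on the whole of `(time, role)`. -/
theorem line_inj (hp : 2 ≤ p) :
    Function.Injective (fun x : ZMod (p ^ 2) × ZMod p => Yt p x.1 x.2 + m23 p x.1) := by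
  have hne : NeZero p := ⟨by omega⟩
  have hne2 : NeZero (p ^ 2) := ⟨pow_ne_zero _ (NeZero.ne p)⟩
  rintro ⟨T, ρ⟩ ⟨T', ρ'⟩ h
  simp only at h
  have hρ : ρ = ρ' := by
    have := congrArg (r31 p) h
    rw [map_add, map_add, role_t, role_t, r31_m23, r31_m23, add_zero, add_zero] at this
    exact this
  subst hρ
  rw [line_val, line_val, ← sub_eq_zero, ← Int.cast_sub, ZMod.intCast_zmod_eq_zero_iff_dvd] at h
  have hcc : (((clt p T' ρ).val : ℤ) : ZMod p) = (((clt p T ρ).val : ℤ) : ZMod p) := by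
    have e : ∀ T, (((clt p T ρ).val : ℤ) : ZMod p) = ρ := by
      intro T
      have h1 := r21_clt T ρ
      have h2 : r21 p (((clt p T ρ).val : ℤ) : ZMod (p ^ 2)) = (((clt p T ρ).val : ℤ) : ZMod p) :=
        map_intCast _ _
      rw [← h2]
      push_cast
      rw [ZMod.natCast_zmod_val]
      exact h1
    rw [e, e]
  rw [eq_comm, ZMod.intCast_eq_intCast_iff_dvd_sub] at hcc
  obtain ⟨d, hd⟩ := hcc
  have hlt : ∀ c : ZMod (p ^ 2), ((c.val : ℤ)) < (p : ℤ) * p := by
    intro c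
    have := ZMod.val_lt c
    have h3 : c.val < p * p := by rw [← pow_two]; exact this
    exact_mod_cast h3
  have hsl : ∀ T, ((sg p T ρ : ℕ) : ℤ) < p := fun T => by
    exact_mod_cast ZMod.val_lt (ρ - r21 p T)
  obtain ⟨h1, h2⟩ := key (p := (p : ℤ)) (c := ((clt p T ρ).val : ℤ)) (c' := ((clt p T' ρ).val : ℤ))
    (d := d) (by exact_mod_cast hp) (Int.natCast_nonneg _) (hlt _)
    (Int.natCast_nonneg _) (hlt _) (Int.natCast_nonneg _) (hsl T) (Int.natCast_nonneg _) (hsl T')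
    (by linarith) (mv_cases _) (mv_cases _) (by exact_mod_cast h)
  have : T = T' := by
    rw [clt_sub_sg T ρ, clt_sub_sg T' ρ, h1, h2]
  rw [this]

theorem line_bij (hp : 2 ≤ p) :
    Function.Bijective (fun x : ZMod (p ^ 2) × ZMod p => Yt p x.1 x.2 + m23 p x.1) := by
  have hne : NeZero p := ⟨by omega⟩
  have hne2 : NeZero (p ^ 2) := ⟨pow_ne_zero _ (NeZero.ne p)⟩
  have hne3 : NeZero (p ^ 3) := ⟨pow_ne_zero _ (NeZero.ne p)⟩
  rw [Fintype.bijective_iff_injective_and_card]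
  refine ⟨line_inj hp, ?_⟩
  rw [Fintype.card_prod, ZMod.card, ZMod.card, ZMod.card]
  ring

/-- the truth satisfies all the hypotheses of `Core`. -/
theorem core_t (hp : 2 ≤ p) : Core (Yt p) (σt p) := by
  have hne : NeZero p := ⟨by omega⟩
  have hinj : ∀ ρ, Function.Injective (fun T => Yt p T ρ + m23 p T) := fun ρ T T' h => by
    have := line_inj hp (a₁ := (T, ρ)) (a₂ := (T', ρ)) h
    exact congrArg Prod.fst this
  exact { role := role_t, step := step_t, inj := hinj, le_one := le_one_t, cls := cls_t,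
          move := move_t }

/-! ### times at which the roles do not all have the same slope -/

/-- if not all the roles have the same slope at time `T` then `T = ±1, …, ±(p-1)`. -/
theorem mixed_times (hp : 2 ≤ p) {T : ZMod (p ^ 2)} {ρ ρ' : ZMod p} (h : σt p T ρ ≠ σt p T ρ') :
    ∃ j : ℕ, 1 ≤ j ∧ j < p ∧ (T = (j : ZMod (p ^ 2)) ∨ T = -(j : ZMod (p ^ 2))) := by
  have hne : NeZero p := ⟨by omega⟩
  have hne2 : NeZero (p ^ 2) := ⟨pow_ne_zero _ (NeZero.ne p)⟩
  have hpp : p ≤ p ^ 2 := Nat.le_self_pow two_ne_zero p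
  have hTlt : T.val < p ^ 2 := ZMod.val_lt T
  have hs : ∀ ρ, sg p T ρ < p := fun ρ => ZMod.val_lt _
  have hval : ∀ ρ, T.val + sg p T ρ < p ^ 2 → (clt p T ρ).val = T.val + sg p T ρ := by
    intro ρ hh
    unfold clt
    have : T + (sg p T ρ : ZMod (p ^ 2)) = ((T.val + sg p T ρ : ℕ) : ZMod (p ^ 2)) := by
      push_cast; rw [ZMod.natCast_zmod_val]
    rw [this, ZMod.val_natCast, Nat.mod_eq_of_lt hh]
  rcases Nat.lt_or_ge T.val p with h1 | h1
  · refine ⟨T.val, ?_, h1, Or.inl (by rw [ZMod.natCast_zmod_val])⟩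
    by_contra hcon
    have h0 : T.val = 0 := by omega
    apply h
    have : ∀ ρ, σt p T ρ = 1 := by
      intro ρ
      have h2 := hval ρ (by have := hs ρ; omega)
      unfold σt mv
      rw [h2, h0, zero_add, if_pos (hs ρ)]
    rw [this, this]
  · have h2 : p ^ 2 - T.val < p := by
      by_contra hcon
      apply h
      have : ∀ ρ, σt p T ρ = 0 := by
        intro ρ
        have h2 := hval ρ (by have := hs ρ; omega)
        unfold σt mv
        rw [h2, if_neg (by omega)]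
      rw [this, this]
    refine ⟨p ^ 2 - T.val, by omega, h2, Or.inr ?_⟩
    rw [Nat.cast_sub hTlt.le, ZMod.natCast_self, ZMod.natCast_zmod_val]
    ring

end Crest.Agent.R046.Truth
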