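import Crest.Agent.R046.TruthCore

/-!
Row 46, truth side: the explicit graph `(Yv, zv)` satisfies the slice statements of all the tiles of
the component (frozen form of helper499, note 8244).
-/

set_option autoImplicit false

namespace Crest.Agent.R046.Truth

open Crest.Agent.R046.Comp

variable {p : ℕ} {Γ : Type*} (r : Γ → ℕ)

/-- times, label times, activity of the labels; everything read along the direction `w` -/
structure Times (p : ℕ) (Γ : Type*) (w : ℤ × ℤ) where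
  Tm : ℤ × ℤ → ZMod (p ^ 2)
  θ : ℤ × ℤ → ℤ
  act : ℤ × ℤ → Γ → ℕ
  hT : ∀ (v : ℤ × ℤ) (n : ℤ), Tm (v + n • w) = Tm v + n
  hθ : ∀ (v : ℤ × ℤ) (n : ℤ), θ (v + n • w) = θ v + n
  hact : ∀ (v : ℤ × ℤ) (n : ℤ) (g : Γ), act (v + n • w) g = act v g
  hact1 : ∀ v g, act v g ≤ 1

namespace Times

variable {w : ℤ × ℤ} (D : Times p Γ w)

/-- the positions -/
def Y (v : ℤ × ℤ) (ρ : ZMod p) : ZMod (p ^ 3) := Yt p (D.Tm v) ρ

/-- the slope of label `g` at the point of role `ρ` -/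
def sl (v : ℤ × ℤ) (ρ : ZMod p) (g : Γ) : ℕ := σt p (D.Tm v) ρ * D.act v g

/-- the labels -/
def z (v : ℤ × ℤ) (ρ : ZMod p) (g : Γ) : ZMod (r g) :=
  (D.sl v ρ g : ZMod (r g)) * (D.θ v : ZMod (r g))

theorem sl_cases (v : ℤ × ℤ) (ρ : ZMod p) (g : Γ) : D.sl v ρ g = 0 ∨ D.sl v ρ g = 1 := by
  unfold sl
  have h1 := le_one_t (D.Tm v) ρ
  have h2 := D.hact1 v g
  have h3 : σt p (D.Tm v) ρ * D.act v g ≤ 1 * 1 := Nat.mul_le_mul h1 h2
  omega

theorem Y_shift (v : ℤ × ℤ) (ρ : ZMod p) (n : ℤ) : D.Y (v + n • w) ρ = Yt p (D.Tm v + n) ρ := by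
  unfold Y; rw [D.hT]

theorem z_shift (v : ℤ × ℤ) (ρ : ZMod p) (g : Γ) (n : ℤ) :
    D.z r (v + n • w) ρ g = ((σt p (D.Tm v + n) ρ * D.act v g : ℕ) : ZMod (r g)) * (D.θ v + n) := by
  unfold z sl; rw [D.hT, D.hθ, D.hact]; push_cast; ring

/-- shift by a multiple of `p^2` -/
theorem z_shift' (v : ℤ × ℤ) (ρ : ZMod p) (g : Γ) (n : ℤ) (hn : (n : ZMod (p ^ 2)) = 0) :
    D.z r (v + n • w) ρ g = D.z r v ρ g + (D.sl v ρ g : ZMod (r g)) * n := by
  rw [D.z_shift, hn, add_zero]; unfold z sl; ring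

/-! ### T, C2, C3, C4 -/

theorem role [NeZero p] (v : ℤ × ℤ) (ρ : ZMod p) : r31 p (D.Y v ρ) = ρ := role_t _ _

theorem C2 (v : ℤ × ℤ) (ρ : ZMod p) : D.Y (v + ((p : ℤ) ^ 2) • w) ρ = D.Y v ρ := by
  rw [Y_shift]
  have : (((p : ℤ) ^ 2 : ℤ) : ZMod (p ^ 2)) = 0 := by
    have := ZMod.natCast_self (p ^ 2)
    push_cast at this ⊢
    exact this
  rw [this, add_zero]; rfl

theorem C3 [NeZero p] (v : ℤ × ℤ) (ρ : ZMod p) :
    r32 p (D.Y (v + w) (ρ + 1)) = r32 p (D.Y v ρ) + 1 := by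
  have h := D.Y_shift v (ρ + 1) 1
  rw [one_smul, Int.cast_one] at h
  rw [h]
  exact step_t _ _

theorem C4 (hp : 2 ≤ p) (v : ℤ × ℤ) (y : ZMod (p ^ 3)) :
    ∃! k : ℕ, k < p ^ 2 ∧ D.Y (v - k • w) (r31 p y) = y + (p : ZMod (p ^ 3)) * k := by
  have hne : NeZero p := ⟨by omega⟩
  have hne2 : NeZero (p ^ 2) := ⟨pow_ne_zero _ (NeZero.ne p)⟩
  -- reformulation
  have hre : ∀ k : ℕ, D.Y (v - k • w) (r31 p y) = y + (p : ZMod (p ^ 3)) * k ↔
      Yt p (D.Tm v - k) (r31 p y) + m23 p (D.Tm v - k) = y + m23 p (D.Tm v) := by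
    intro k
    have h1 : v - k • w = v + (-(k : ℤ)) • w := by
      rw [neg_smul, natCast_zsmul, sub_eq_add_neg]
    rw [h1, Y_shift]
    have h2 : m23 p (D.Tm v - k) = m23 p (D.Tm v) - (p : ZMod (p ^ 3)) * k := by
      rw [map_sub]
      have := m23_intCast p (k : ℤ)
      push_cast at this
      rw [this]
    rw [h2]
    push_cast
    rw [← sub_eq_add_neg]
    constructor
    · intro h; rw [h]; ring
    · intro h; linear_combination h
  obtain ⟨⟨T', ρ'⟩, hT'⟩ := (line_bij hp).2 (y + m23 p (D.Tm v))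
  simp only at hT'
  have hρ : ρ' = r31 p y := by
    have := congrArg (r31 p) hT'
    rw [map_add, map_add, role_t, r31_m23, r31_m23, add_zero, add_zero] at this
    exact this
  subst hρ
  refine ⟨(D.Tm v - T').val, ⟨ZMod.val_lt _, ?_⟩, ?_⟩
  · rw [hre, ZMod.natCast_zmod_val, sub_sub_cancel]
    exact hT'
  · rintro k ⟨hk, hk2⟩
    rw [hre] at hk2
    have h1 := line_inj hp (a₁ := (D.Tm v - k, r31 p y)) (a₂ := (T', r31 p y)) (hk2.trans hT'.symm)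
    have h2 : D.Tm v - k = T' := congrArg Prod.fst h1
    have h3 : (k : ZMod (p ^ 2)) = D.Tm v - T' := by rw [← h2]; ring
    rw [← h3, ZMod.val_natCast, Nat.mod_eq_of_lt hk]

/-! ### labels -/

theorem C5 (g : Γ) (v : ℤ × ℤ) (ρ : ZMod p) (n : ℤ) (hn : (n : ZMod (p ^ 2)) = 0)
    (hn2 : (n : ZMod (r g)) = 0) : D.z r (v + n • w) ρ g = D.z r v ρ g := by
  rw [D.z_shift' r v ρ g n hn, hn2, mul_zero, add_zero]

theorem C6 (g : Γ) (v : ℤ × ℤ) (ρ : ZMod p) (n : ℤ) (hn : (n : ZMod (p ^ 2)) = 0)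
    (hn2 : (n : ZMod (r g)) = 1) :
    (D.z r (v + n • w) ρ g = D.z r v ρ g ∧ D.z r (v - n • w) ρ g = D.z r v ρ g) ∨
    (D.z r (v + n • w) ρ g = D.z r v ρ g + 1 ∧ D.z r (v - n • w) ρ g = D.z r v ρ g - 1) := by
  have h1 := D.z_shift' r v ρ g n hn
  have h2 := D.z_shift' r v ρ g (-n) (by rw [Int.cast_neg, hn, neg_zero])
  rw [neg_smul, ← sub_eq_add_neg, Int.cast_neg] at h2
  rw [h1, h2, hn2]
  rcases D.sl_cases v ρ g with h | h
  · left; rw [h]; constructor <;> simp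
  · right; rw [h]; constructor <;> push_cast <;> ring

/-! ### classes -/

theorem clt_sub [NeZero p] (T : ZMod (p ^ 2)) (ρ : ZMod p) (x : ZMod (p ^ 2)) (hx : r21 p x = 0) :
    clt p (T + x) ρ = clt p T ρ + x := by
  unfold clt sg
  rw [map_add, hx, add_zero]; ring

theorem r32_Y [NeZero p] (v : ℤ × ℤ) (ρ : ZMod p) : r32 p (D.Y v ρ) = clt p (D.Tm v) ρ := r32_Yt _ _

theorem X [NeZero p] (n : ℤ) (hn : (n : ZMod (p ^ 2)) = p) (v : ℤ × ℤ) (c : ZMod (p ^ 2)) :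
    ∃! k : ℕ, k < p ∧ r32 p (D.Y (v - k • (n • w)) (r21 p c)) = c := by
  have hre : ∀ k : ℕ, r32 p (D.Y (v - k • (n • w)) (r21 p c)) = c ↔
      m12 p (k : ZMod p) = clt p (D.Tm v) (r21 p c) - c := by
    intro k
    have h1 : v - k • (n • w) = v + (-((k : ℤ) * n)) • w := by
      rw [neg_smul, mul_smul, natCast_zsmul, sub_eq_add_neg]
    rw [r32_Y, h1, D.hT]
    have h2 : ((-((k : ℤ) * n) : ℤ) : ZMod (p ^ 2)) = - (p * k) := by
      push_cast; rw [hn]; ring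
    rw [h2, clt_sub]
    · have := m12_intCast p (k : ℤ)
      push_cast at this
      rw [this]
      constructor
      · intro h; linear_combination -h
      · intro h; linear_combination -h
    · rw [map_neg, map_mul, map_natCast, ZMod.natCast_self, zero_mul, neg_zero]
  -- existence
  have hd : r21 p (clt p (D.Tm v) (r21 p c) - c) = 0 := by
    rw [map_sub, r21_clt, sub_self]
  obtain ⟨m, hm⟩ := exists_int (clt p (D.Tm v) (r21 p c) - c)
  rw [← hm, map_intCast, ZMod.intCast_zmod_eq_zero_iff_dvd] at hd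
  obtain ⟨q, hq⟩ := hd
  have hq2 : m12 p (q : ZMod p) = clt p (D.Tm v) (r21 p c) - c := by
    rw [m12_intCast, ← hm, hq]; push_cast; ring
  refine ⟨((q : ZMod p)).val, ⟨ZMod.val_lt _, ?_⟩, ?_⟩
  · rw [hre, ZMod.natCast_zmod_val, hq2]
  · rintro k ⟨hk, hk2⟩
    rw [hre, ← hq2] at hk2
    have h3 : (p : ZMod (p ^ 2)) * (((k : ℤ) - q : ℤ) : ZMod (p ^ 2)) = 0 := by
      have e1 := m12_intCast p (k : ℤ)
      have e2 := m12_intCast p q
      push_cast at e1 e2 ⊢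
      rw [mul_sub, ← e1, ← e2, hk2, sub_self]
    have h4 : (((p : ℤ) * ((k : ℤ) - q) : ℤ) : ZMod (p ^ 2)) = 0 := by push_cast; push_cast at h3; exact h3
    rw [ZMod.intCast_zmod_eq_zero_iff_dvd] at h4
    have h5 : (p : ℤ) ∣ (k : ℤ) - q := by
      have e : ((p ^ 2 : ℕ) : ℤ) = (p : ℤ) * p := by push_cast; ring
      rw [e] at h4
      exact (mul_dvd_mul_iff_left (by exact_mod_cast NeZero.ne p)).1 h4
    have h6 : (k : ZMod p) = (q : ZMod p) := by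
      have := (ZMod.intCast_eq_intCast_iff_dvd_sub q (k : ℤ) p).2 h5
      push_cast at this
      exact this.symm
    rw [← h6, ZMod.val_natCast, Nat.mod_eq_of_lt hk]

/-- visit of the class `c` near `v` -/
def Vis (P : ℤ × ℤ) (c : ZMod (p ^ 2)) (v v' : ℤ × ℤ) : Prop :=
  ∃ k : ℕ, k < p ∧ v' = v - k • P ∧ r32 p (D.Y v' (r21 p c)) = c

/-- two points of the same class at consecutive residues -/
theorem D_aux [NeZero p] (g : Γ) (hg : ∀ v, D.act v g = 1) {c : ZMod (p ^ 2)} {v0 v1 : ℤ × ℤ}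
    {m : ℤ} (hv : v1 = v0 + m • w) (hm : (m : ZMod p) = 1)
    (h0 : r32 p (D.Y v0 (r21 p c)) = c) (h1 : r32 p (D.Y v1 (r21 p c)) = c) :
    D.Y v1 (r21 p c) = D.Y v0 (r21 p c) + (p : ZMod (p ^ 3)) ^ 2 * (mv p c : ZMod (p ^ 3)) ∧
    D.z r v1 (r21 p c) g = D.z r v0 (r21 p c) g + (mv p c : ZMod (r g)) * m := by
  have e0 : clt p (D.Tm v0) (r21 p c) = c := by rw [← r32_Y]; exact h0
  have e1 : clt p (D.Tm v1) (r21 p c) = c := by rw [← r32_Y]; exact h1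
  constructor
  · have := move_t (r21 p c) (D.Tm v1) (D.Tm v0) (by rw [r32_Yt, r32_Yt, e0, e1])
      (by rw [hv, D.hT, map_add, map_intCast, hm])
    unfold σt at this
    rw [e1] at this
    unfold Y
    rw [← this]; ring
  · unfold z sl σt
    rw [e0, e1, hg, hg, hv, D.hθ]
    push_cast; ring

/-- the tiles `D2` and `D3` -/
theorem D23 [NeZero p] (g : Γ) (hg : ∀ v, D.act v g = 1) (nP n1 : ℤ) (δ : ZMod (r g))
    (hnP : (nP : ZMod (p ^ 2)) = p) (hnPr : (nP : ZMod (r g)) = 0)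
    (hn1 : (n1 : ZMod (p ^ 2)) = 1) (hn1r : (n1 : ZMod (r g)) = δ)
    (c : ZMod (p ^ 2)) (v v0 v1 v2 : ℤ × ℤ)
    (h0 : D.Vis (nP • w) c v v0) (h1 : D.Vis (nP • w) c (v + n1 • w) v1)
    (h2 : D.Vis (nP • w) c (v - n1 • w) v2) :
    ((D.Y v1 (r21 p c), D.z r v1 (r21 p c) g) = (D.Y v0 (r21 p c), D.z r v0 (r21 p c) g) ∧
      (D.Y v2 (r21 p c), D.z r v2 (r21 p c) g) = (D.Y v0 (r21 p c), D.z r v0 (r21 p c) g)) ∨
    ((D.Y v1 (r21 p c), D.z r v1 (r21 p c) g) =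
        (D.Y v0 (r21 p c), D.z r v0 (r21 p c) g) + ((p : ZMod (p ^ 3)) ^ 2, δ) ∧
      (D.Y v2 (r21 p c), D.z r v2 (r21 p c) g) =
        (D.Y v0 (r21 p c), D.z r v0 (r21 p c) g) - ((p : ZMod (p ^ 3)) ^ 2, δ)) := by
  obtain ⟨k0, -, hv0, hc0⟩ := h0
  obtain ⟨k1, -, hv1, hc1⟩ := h1
  obtain ⟨k2, -, hv2, hc2⟩ := h2
  have hred : ∀ a b : ℤ, (a : ZMod (p ^ 2)) = b → (a : ZMod p) = b := by
    intro a b hab
    have := congrArg (r21 p) hab
    simpa using this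
  have hnPp : (nP : ZMod p) = 0 := by
    have := congrArg (r21 p) hnP
    simpa using this
  have hn1p : (n1 : ZMod p) = 1 := by
    have := congrArg (r21 p) hn1
    simpa using this
  have w1 : v1 = v0 + (n1 + (k0 : ℤ) * nP - (k1 : ℤ) * nP) • w := by
    rw [hv1, hv0, ← natCast_zsmul (nP • w) k0, ← natCast_zsmul (nP • w) k1, smul_smul, smul_smul,
      sub_smul, add_smul]
    abel
  have w2 : v0 = v2 + (n1 + (k2 : ℤ) * nP - (k0 : ℤ) * nP) • w := by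
    rw [hv2, hv0, ← natCast_zsmul (nP • w) k0, ← natCast_zsmul (nP • w) k2, smul_smul, smul_smul,
      sub_smul, add_smul]
    abel
  obtain ⟨a1, b1⟩ := D.D_aux r g hg w1 (by push_cast; rw [hnPp, hn1p]; ring) hc0 hc1
  obtain ⟨a2, b2⟩ := D.D_aux r g hg w2 (by push_cast; rw [hnPp, hn1p]; ring) hc2 hc0
  have c1 : ((n1 + (k0 : ℤ) * nP - (k1 : ℤ) * nP : ℤ) : ZMod (r g)) = δ := by
    push_cast; rw [hnPr, hn1r]; ring
  have c2 : ((n1 + (k2 : ℤ) * nP - (k0 : ℤ) * nP : ℤ) : ZMod (r g)) = δ := by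
    push_cast; rw [hnPr, hn1r]; ring
  rw [c1] at b1
  rw [c2] at b2
  have hmv : mv p c = 0 ∨ mv p c = 1 := by unfold mv; split_ifs <;> simp
  rcases hmv with hm | hm
  · left
    rw [hm] at a1 b1 a2 b2
    simp only [Nat.cast_zero, mul_zero, zero_mul, add_zero] at a1 b1 a2 b2
    exact ⟨Prod.ext a1 b1, Prod.ext a2.symm b2.symm⟩
  · right
    rw [hm] at a1 b1 a2 b2
    simp only [Nat.cast_one, mul_one, one_mul] at a1 b1 a2 b2
    refine ⟨Prod.ext a1 b1, Prod.ext ?_ ?_⟩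
    · show D.Y v2 (r21 p c) = D.Y v0 (r21 p c) - (p : ZMod (p ^ 3)) ^ 2
      rw [a2]; ring
    · show D.z r v2 (r21 p c) g = D.z r v0 (r21 p c) g - δ
      rw [b2]; ring

/-! ### C9 -/

theorem slope_of (g : Γ) (v : ℤ × ℤ) (ρ : ZMod p) (n : ℤ) (hn : (n : ZMod (p ^ 2)) = 0)
    (hn2 : (n : ZMod (r g)) = 1) :
    D.z r (v - n • w) ρ g + (D.sl v ρ g : ZMod (r g)) = D.z r v ρ g := by
  have h2 := D.z_shift' r v ρ g (-n) (by rw [Int.cast_neg, hn, neg_zero])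
  rw [neg_smul, ← sub_eq_add_neg, Int.cast_neg, hn2] at h2
  rw [h2]; ring

end Times

end Crest.Agent.R046.Truth
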