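import Mathlib

set_option autoImplicit false

/-! Row 46: two transversals of `pℤ` in `ℤ/p²` never tile `ℤ/p²`. -/

namespace Crest.Agent.R046

/-- the projection `ℤ/p² → ℤ/p` -/
abbrev prP (p : ℕ) : ZMod (p ^ 2) →+* ZMod p :=
  ZMod.castHom (dvd_pow_self p two_ne_zero) (ZMod p)

/-- Two transversals of `pℤ` never tile `ℤ/p²`. -/
theorem two_transversals {p : ℕ} (hp : 2 ≤ p) (U R : ZMod p → ZMod (p ^ 2))
    (hU : ∀ j, prP p (U j) = j) (hR : ∀ r, prP p (R r) = r) :
    ¬ Function.Injective (fun x : ZMod p × ZMod p => U x.1 + R x.2) := by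
  intro hinj
  have : NeZero p := ⟨by omega⟩
  have : NeZero (p ^ 2) := ⟨by positivity⟩
  have hbij : Function.Bijective (fun x : ZMod p × ZMod p => U x.1 + R x.2) := by
    rw [Fintype.bijective_iff_injective_and_card]
    refine ⟨hinj, ?_⟩
    simp only [Fintype.card_prod, ZMod.card]
    ring
  -- transfer of fibre sums
  have key : ∀ (f : ZMod (p ^ 2) → ZMod (p ^ 2)) (k : ZMod p),
      ∑ v, (if prP p v = k then f v else 0) = ∑ j, f (U j + R (k - j)) := by
    intro f k
    rw [← hbij.sum_comp (fun v => if prP p v = k then f v else 0), Fintype.sum_prod_type]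
    refine Finset.sum_congr rfl fun j _ => ?_
    have : ∀ r, (if prP p (U j + R r) = k then f (U j + R r) else 0)
        = if r = k - j then f (U j + R r) else 0 := by
      intro r
      rw [map_add, hU, hR]
      refine if_congr ?_ rfl rfl
      exact eq_sub_iff_add_eq'.symm
    simp only [this]
    simp
  have hs1 : ∀ k : ZMod p, ∑ j, (U j + R (k - j)) = ∑ j, U j + ∑ r, R r := by
    intro k
    rw [Finset.sum_add_distrib]
    congr 1
    exact _root_.Equiv.sum_comp (Equiv.subLeft k) R
  have hshift : ∑ v, (if prP p v = (0 + 1 : ZMod p) then v else 0)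
      = ∑ v, (if prP p v = 0 then (v + 1) else 0) := by
    rw [← _root_.Equiv.sum_comp (Equiv.addRight (1 : ZMod (p ^ 2)))
      (fun v => if prP p v = (0 + 1 : ZMod p) then v else 0)]
    refine Finset.sum_congr rfl fun v _ => ?_
    simp only [Equiv.coe_addRight, map_add, map_one, add_left_inj]
  have e1 := key (fun v => v) (0 + 1)
  have e2 := key (fun v => v + 1) 0
  beta_reduce at e1 e2
  rw [hshift, e2] at e1
  rw [Finset.sum_add_distrib, hs1, hs1] at e1
  have e3 : (∑ _j : ZMod p, (1 : ZMod (p ^ 2))) = 0 := by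
    have := add_eq_left.1 e1
    exact this
  rw [Finset.sum_const, Finset.card_univ, ZMod.card, nsmul_eq_mul, mul_one,
    ZMod.natCast_eq_zero_iff] at e3
  have := Nat.le_of_dvd (by omega) e3
  nlinarith

end Crest.Agent.R046
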